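import Mathlib

/-!
# R255 / Pk / Schur : TOOL T2 = SCHUR TEST AND ABSTRACT BESSEL INEQUALITIES      (architect helper91)

Finite families only.   `pk_schur` (matrix form), `pk_bessel_synth`, `pk_bessel_anal` (Hilbert space form), `pk_bessel_fun_*` (functions in `L²(μ)`, bilinear pairing `∫ f g`).
PLAN. `pk_schur`: `|∑_j G_ij c_j|² ≤ (∑_j |G_ij|)(∑_j |G_ij| |c_j|²)` (Cauchy-Schwarz, `Finset.inner_mul_le_norm_mul_norm` / `Finset.sum_mul_sq_le_sq_mul_sq` with `√|G|`), sum over `i`, exchange.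
 `pk_bessel_synth`: `‖∑ c_i g_i‖² = ∑_{i,j} conj(c_i) c_j ⟪g_i,g_j⟫ ≤ ∑_{i,j} |⟪g_i,g_j⟫| (|c_i|²+|c_j|²)/2 ≤ C ∑ |c_i|²` (the Gram matrix is hermitian: row sums = column sums).
 `pk_bessel_anal`: `a_i = ⟪g_i,f⟫`, `∑|a_i|² = ⟪∑ a_i g_i, f⟫ ≤ ‖∑ a_i g_i‖ ‖f‖ ≤ √(C ∑|a_i|²) ‖f‖`.
 functions: `H = Lp ℂ 2 μ`, `MemLp.toLp`, `MeasureTheory.L2.inner_def`, `MemLp.coeFn_toLp`; `‖toLp f‖² = ∫ ‖f‖²`.
-/

set_option autoImplicit false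

namespace Claimed.Agent.R255

open MeasureTheory
open scoped InnerProductSpace ComplexConjugate

/-- Schur test for a finite matrix. -/
theorem pk_schur {ι κ : Type} (s : Finset ι) (t : Finset κ) (G : ι → κ → ℂ) {A B : ℝ}
    (hrow : ∀ i ∈ s, ∑ j ∈ t, ‖G i j‖ ≤ A) (hcol : ∀ j ∈ t, ∑ i ∈ s, ‖G i j‖ ≤ B) (hA : 0 ≤ A) (c : κ → ℂ) :
    ∑ i ∈ s, ‖∑ j ∈ t, G i j * c j‖ ^ 2 ≤ A * B * ∑ j ∈ t, ‖c j‖ ^ 2 := by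
  have h1 : ∀ i ∈ s, ‖∑ j ∈ t, G i j * c j‖ ^ 2 ≤ A * ∑ j ∈ t, ‖G i j‖ * ‖c j‖ ^ 2 := by
    intro i hi
    have a1 : ‖∑ j ∈ t, G i j * c j‖ ≤ ∑ j ∈ t, ‖G i j‖ * ‖c j‖ :=
      (norm_sum_le _ _).trans (le_of_eq (Finset.sum_congr rfl fun j _ => norm_mul _ _))
    have a2 : (∑ j ∈ t, ‖G i j‖ * ‖c j‖) ^ 2 ≤ (∑ j ∈ t, ‖G i j‖) * ∑ j ∈ t, ‖G i j‖ * ‖c j‖ ^ 2 :=
      Finset.sum_sq_le_sum_mul_sum_of_sq_le_mul t (fun j _ => norm_nonneg _)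
        (fun j _ => by positivity) (fun j _ => le_of_eq (by ring))
    have a3 : 0 ≤ ∑ j ∈ t, ‖G i j‖ * ‖c j‖ ^ 2 := Finset.sum_nonneg fun j _ => by positivity
    calc ‖∑ j ∈ t, G i j * c j‖ ^ 2 ≤ (∑ j ∈ t, ‖G i j‖ * ‖c j‖) ^ 2 :=
          pow_le_pow_left₀ (norm_nonneg _) a1 2
      _ ≤ (∑ j ∈ t, ‖G i j‖) * ∑ j ∈ t, ‖G i j‖ * ‖c j‖ ^ 2 := a2
      _ ≤ A * ∑ j ∈ t, ‖G i j‖ * ‖c j‖ ^ 2 := mul_le_mul_of_nonneg_right (hrow i hi) a3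
  calc ∑ i ∈ s, ‖∑ j ∈ t, G i j * c j‖ ^ 2 ≤ ∑ i ∈ s, A * ∑ j ∈ t, ‖G i j‖ * ‖c j‖ ^ 2 :=
        Finset.sum_le_sum h1
    _ = A * ∑ j ∈ t, (∑ i ∈ s, ‖G i j‖) * ‖c j‖ ^ 2 := by
        rw [← Finset.mul_sum, Finset.sum_comm]
        simp only [Finset.sum_mul]
    _ ≤ A * ∑ j ∈ t, B * ‖c j‖ ^ 2 :=
        mul_le_mul_of_nonneg_left
          (Finset.sum_le_sum fun j hj => mul_le_mul_of_nonneg_right (hcol j hj) (by positivity)) hA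
    _ = A * B * ∑ j ∈ t, ‖c j‖ ^ 2 := by rw [← Finset.mul_sum, mul_assoc]

/-- synthesis Bessel from the row sums of the Gram matrix. -/
theorem pk_bessel_synth {H : Type} [NormedAddCommGroup H] [InnerProductSpace ℂ H] {ι : Type} (s : Finset ι) (g : ι → H) {C : ℝ}
    (hrow : ∀ i ∈ s, ∑ j ∈ s, ‖⟪g i, g j⟫_ℂ‖ ≤ C) (c : ι → ℂ) :
    ‖∑ i ∈ s, c i • g i‖ ^ 2 ≤ C * ∑ i ∈ s, ‖c i‖ ^ 2 := by
  have e1 : ‖∑ i ∈ s, c i • g i‖ ^ 2 = ‖⟪∑ i ∈ s, c i • g i, ∑ j ∈ s, c j • g j⟫_ℂ‖ := by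
    rw [inner_self_eq_norm_sq_to_K]
    simp
  have e2 : ⟪∑ i ∈ s, c i • g i, ∑ j ∈ s, c j • g j⟫_ℂ =
      ∑ i ∈ s, ∑ j ∈ s, conj (c i) * (c j * ⟪g i, g j⟫_ℂ) := by
    rw [sum_inner]
    refine Finset.sum_congr rfl fun i _ => ?_
    rw [inner_sum]
    refine Finset.sum_congr rfl fun j _ => ?_
    rw [inner_smul_left, inner_smul_right]
  have h3 : ∀ i j, ‖conj (c i) * (c j * ⟪g i, g j⟫_ℂ)‖ ≤
      (‖c i‖ ^ 2 / 2) * ‖⟪g i, g j⟫_ℂ‖ + (‖c j‖ ^ 2 / 2) * ‖⟪g j, g i⟫_ℂ‖ := by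
    intro i j
    rw [norm_mul, norm_mul, RCLike.norm_conj, norm_inner_symm (g j) (g i)]
    nlinarith [sq_nonneg (‖c i‖ - ‖c j‖), norm_nonneg (⟪g i, g j⟫_ℂ)]
  have h4 : ∑ i ∈ s, ∑ j ∈ s, (‖c i‖ ^ 2 / 2) * ‖⟪g i, g j⟫_ℂ‖ ≤ C * (∑ i ∈ s, ‖c i‖ ^ 2) / 2 := by
    calc ∑ i ∈ s, ∑ j ∈ s, (‖c i‖ ^ 2 / 2) * ‖⟪g i, g j⟫_ℂ‖
        = ∑ i ∈ s, (‖c i‖ ^ 2 / 2) * ∑ j ∈ s, ‖⟪g i, g j⟫_ℂ‖ := by simp only [Finset.mul_sum]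
      _ ≤ ∑ i ∈ s, (‖c i‖ ^ 2 / 2) * C :=
          Finset.sum_le_sum fun i hi => mul_le_mul_of_nonneg_left (hrow i hi) (by positivity)
      _ = C * (∑ i ∈ s, ‖c i‖ ^ 2) / 2 := by
          rw [← Finset.sum_mul, ← Finset.sum_div]
          ring
  rw [e1, e2]
  calc ‖∑ i ∈ s, ∑ j ∈ s, conj (c i) * (c j * ⟪g i, g j⟫_ℂ)‖
      ≤ ∑ i ∈ s, ∑ j ∈ s, ‖conj (c i) * (c j * ⟪g i, g j⟫_ℂ)‖ :=
        (norm_sum_le _ _).trans (Finset.sum_le_sum fun i _ => norm_sum_le _ _)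
    _ ≤ ∑ i ∈ s, ∑ j ∈ s, ((‖c i‖ ^ 2 / 2) * ‖⟪g i, g j⟫_ℂ‖ + (‖c j‖ ^ 2 / 2) * ‖⟪g j, g i⟫_ℂ‖) :=
        Finset.sum_le_sum fun i _ => Finset.sum_le_sum fun j _ => h3 i j
    _ = ∑ i ∈ s, ∑ j ∈ s, (‖c i‖ ^ 2 / 2) * ‖⟪g i, g j⟫_ℂ‖ +
          ∑ i ∈ s, ∑ j ∈ s, (‖c i‖ ^ 2 / 2) * ‖⟪g i, g j⟫_ℂ‖ := by
        simp only [Finset.sum_add_distrib]
        congr 1
        exact Finset.sum_comm
    _ ≤ C * (∑ i ∈ s, ‖c i‖ ^ 2) / 2 + C * (∑ i ∈ s, ‖c i‖ ^ 2) / 2 := add_le_add h4 h4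
    _ = C * ∑ i ∈ s, ‖c i‖ ^ 2 := by ring

/-- analysis Bessel from the row sums of the Gram matrix. -/
theorem pk_bessel_anal {H : Type} [NormedAddCommGroup H] [InnerProductSpace ℂ H] {ι : Type} (s : Finset ι) (g : ι → H) {C : ℝ}
    (hrow : ∀ i ∈ s, ∑ j ∈ s, ‖⟪g i, g j⟫_ℂ‖ ≤ C) (hC : 0 ≤ C) (f : H) :
    ∑ i ∈ s, ‖⟪g i, f⟫_ℂ‖ ^ 2 ≤ C * ‖f‖ ^ 2 := by
  obtain ⟨S, hS⟩ : ∃ S : ℝ, S = ∑ i ∈ s, ‖⟪g i, f⟫_ℂ‖ ^ 2 := ⟨_, rfl⟩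
  have hS0 : 0 ≤ S := by
    rw [hS]
    exact Finset.sum_nonneg fun i _ => by positivity
  have e1 : ⟪∑ i ∈ s, ⟪g i, f⟫_ℂ • g i, f⟫_ℂ = (S : ℂ) := by
    rw [sum_inner, hS]
    push_cast
    refine Finset.sum_congr rfl fun i _ => ?_
    rw [inner_smul_left, ← Complex.normSq_eq_conj_mul_self, Complex.normSq_eq_norm_sq]
    push_cast
    rfl
  have h2 : S ≤ ‖∑ i ∈ s, ⟪g i, f⟫_ℂ • g i‖ * ‖f‖ := by
    have := norm_inner_le_norm (𝕜 := ℂ) (∑ i ∈ s, ⟪g i, f⟫_ℂ • g i) f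
    rwa [e1, Complex.norm_real, Real.norm_of_nonneg hS0] at this
  have h3 : ‖∑ i ∈ s, ⟪g i, f⟫_ℂ • g i‖ ^ 2 ≤ C * S := by
    rw [hS]
    exact pk_bessel_synth s g hrow _
  have h4 : S ^ 2 ≤ C * S * ‖f‖ ^ 2 := by
    calc S ^ 2 ≤ (‖∑ i ∈ s, ⟪g i, f⟫_ℂ • g i‖ * ‖f‖) ^ 2 := pow_le_pow_left₀ hS0 h2 2
      _ = ‖∑ i ∈ s, ⟪g i, f⟫_ℂ • g i‖ ^ 2 * ‖f‖ ^ 2 := mul_pow _ _ _
      _ ≤ C * S * ‖f‖ ^ 2 := mul_le_mul_of_nonneg_right h3 (by positivity)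
  rw [← hS]
  rcases hS0.eq_or_lt with h0 | h0
  · rw [← h0]
    positivity
  · have : S * S ≤ S * (C * ‖f‖ ^ 2) := by nlinarith
    exact le_of_mul_le_mul_left this h0

variable {α : Type} [MeasurableSpace α] (μ : Measure α)

theorem pk_l2_inner_toLp {f g : α → ℂ} (hf : MemLp f 2 μ) (hg : MemLp g 2 μ) :
    ⟪hf.toLp f, hg.toLp g⟫_ℂ = ∫ x, g x * conj (f x) ∂μ := by
  rw [L2.inner_def]
  refine integral_congr_ae ?_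
  filter_upwards [hf.coeFn_toLp, hg.coeFn_toLp] with x h1 h2
  rw [h1, h2, RCLike.inner_apply]

theorem pk_l2_norm_sq (F : Lp ℂ 2 μ) : ‖F‖ ^ 2 = ∫ x, ‖F x‖ ^ 2 ∂μ := by
  calc ‖F‖ ^ 2 = RCLike.re ⟪F, F⟫_ℂ := norm_sq_eq_re_inner F
    _ = RCLike.re (∫ a, ⟪F a, F a⟫_ℂ ∂μ) := by rw [L2.inner_def]
    _ = ∫ a, RCLike.re ⟪F a, F a⟫_ℂ ∂μ := (integral_re (L2.integrable_inner F F)).symm
    _ = ∫ x, ‖F x‖ ^ 2 ∂μ :=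
        integral_congr_ae (Filter.Eventually.of_forall fun a => (norm_sq_eq_re_inner (F a)).symm)

theorem pk_l2_norm_sq_toLp {f : α → ℂ} (hf : MemLp f 2 μ) :
    ‖hf.toLp f‖ ^ 2 = ∫ x, ‖f x‖ ^ 2 ∂μ := by
  rw [pk_l2_norm_sq]
  refine integral_congr_ae ?_
  filter_upwards [hf.coeFn_toLp] with x h1
  rw [h1]

theorem pk_memLp_conj {f : α → ℂ} (hf : MemLp f 2 μ) : MemLp (fun x => conj (f x)) 2 μ :=
  hf.congr_norm (Complex.continuous_conj.comp_aestronglyMeasurable hf.1)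
    (Filter.Eventually.of_forall fun x => (RCLike.norm_conj (f x)).symm)

/-- the family in `L²`. -/
noncomputable def pkToL2 {ι : Type} (s : Finset ι) (g : ι → α → ℂ) (hg : ∀ i ∈ s, MemLp (g i) 2 μ)
    (i : ι) : Lp ℂ 2 μ := by
  classical
  exact if h : i ∈ s then (hg i h).toLp (g i) else 0

theorem pkToL2_of_mem {ι : Type} (s : Finset ι) (g : ι → α → ℂ) (hg : ∀ i ∈ s, MemLp (g i) 2 μ)
    {i : ι} (h : i ∈ s) : pkToL2 μ s g hg i = (hg i h).toLp (g i) := by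
  unfold pkToL2
  rw [dif_pos h]

theorem pk_l2_gram {ι : Type} (s : Finset ι) (g : ι → α → ℂ) (hg : ∀ i ∈ s, MemLp (g i) 2 μ) {C : ℝ}
    (hrow : ∀ i ∈ s, ∑ j ∈ s, ‖∫ x, g i x * conj (g j x) ∂μ‖ ≤ C) :
    ∀ i ∈ s, ∑ j ∈ s, ‖⟪pkToL2 μ s g hg i, pkToL2 μ s g hg j⟫_ℂ‖ ≤ C := by
  intro i hi
  refine le_trans (le_of_eq (Finset.sum_congr rfl fun j hj => ?_)) (hrow i hi)
  rw [norm_inner_symm, pkToL2_of_mem μ s g hg hi, pkToL2_of_mem μ s g hg hj, pk_l2_inner_toLp]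

theorem pk_l2_coeFn_sum {ι : Type} (s : Finset ι) (g : ι → α → ℂ) (hg : ∀ i ∈ s, MemLp (g i) 2 μ)
    (c : ι → ℂ) :
    (∑ i ∈ s, c i • pkToL2 μ s g hg i : Lp ℂ 2 μ) =ᵐ[μ] fun x => ∑ i ∈ s, c i * g i x := by
  classical
  have key : ∀ t : Finset ι, t ⊆ s →
      (∑ i ∈ t, c i • pkToL2 μ s g hg i : Lp ℂ 2 μ) =ᵐ[μ] fun x => ∑ i ∈ t, c i * g i x := by
    intro t
    induction t using Finset.induction_on with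
    | empty =>
      intro _
      simp only [Finset.sum_empty]
      exact Lp.coeFn_zero _ _ _
    | insert a t ha ih =>
      intro hts
      have hat : a ∈ s := hts (Finset.mem_insert_self _ _)
      have ih' := ih fun i hi => hts (Finset.mem_insert_of_mem hi)
      rw [Finset.sum_insert ha]
      filter_upwards [Lp.coeFn_add (c a • pkToL2 μ s g hg a) (∑ i ∈ t, c i • pkToL2 μ s g hg i),
        Lp.coeFn_smul (c a) (pkToL2 μ s g hg a), ih', (hg a hat).coeFn_toLp] with x h1 h2 h3 h4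
      rw [h1, Pi.add_apply, h2, Pi.smul_apply, h3, Finset.sum_insert ha, pkToL2_of_mem μ s g hg hat,
        h4, smul_eq_mul]
  exact key s subset_rfl

/-- synthesis Bessel for functions. -/
theorem pk_bessel_fun_synth {ι : Type} (s : Finset ι) (g : ι → α → ℂ) (hg : ∀ i ∈ s, MemLp (g i) 2 μ) {C : ℝ}
    (hrow : ∀ i ∈ s, ∑ j ∈ s, ‖∫ x, g i x * conj (g j x) ∂μ‖ ≤ C) (c : ι → ℂ) :
    ∫ x, ‖∑ i ∈ s, c i * g i x‖ ^ 2 ∂μ ≤ C * ∑ i ∈ s, ‖c i‖ ^ 2 := by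
  have h := pk_bessel_synth s (pkToL2 μ s g hg) (pk_l2_gram μ s g hg hrow) c
  rw [pk_l2_norm_sq] at h
  refine le_trans (le_of_eq (integral_congr_ae ?_)) h
  filter_upwards [pk_l2_coeFn_sum μ s g hg c] with x hx
  rw [hx]

/-- analysis Bessel for functions, BILINEAR pairing. -/
theorem pk_bessel_fun_anal {ι : Type} (s : Finset ι) (g : ι → α → ℂ) (hg : ∀ i ∈ s, MemLp (g i) 2 μ) {C : ℝ}
    (hrow : ∀ i ∈ s, ∑ j ∈ s, ‖∫ x, g i x * conj (g j x) ∂μ‖ ≤ C) (hC : 0 ≤ C) (f : α → ℂ) (hf : MemLp f 2 μ) :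
    ∑ i ∈ s, ‖∫ x, f x * g i x ∂μ‖ ^ 2 ≤ C * ∫ x, ‖f x‖ ^ 2 ∂μ := by
  have h := pk_bessel_anal s (pkToL2 μ s g hg) (pk_l2_gram μ s g hg hrow) hC
    ((pk_memLp_conj μ hf).toLp _)
  rw [pk_l2_norm_sq_toLp] at h
  simp only [RCLike.norm_conj] at h
  refine le_trans (le_of_eq (Finset.sum_congr rfl fun i hi => ?_)) h
  rw [pkToL2_of_mem μ s g hg hi, pk_l2_inner_toLp]
  have e : ∫ x, conj (f x) * conj (g i x) ∂μ = conj (∫ x, f x * g i x ∂μ) := by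
    rw [← integral_conj]
    refine integral_congr_ae (Filter.Eventually.of_forall fun x => ?_)
    show conj (f x) * conj (g i x) = conj (f x * g i x)
    rw [map_mul]
  rw [e, RCLike.norm_conj]

/-- Cauchy-Schwarz for the bilinear pairing. -/
theorem pk_pair_le (f g : α → ℂ) (hf : MemLp f 2 μ) (hg : MemLp g 2 μ) :
    ‖∫ x, f x * g x ∂μ‖ ^ 2 ≤ (∫ x, ‖f x‖ ^ 2 ∂μ) * ∫ x, ‖g x‖ ^ 2 ∂μ := by
  have h := norm_inner_le_norm (𝕜 := ℂ) ((pk_memLp_conj μ hg).toLp _) (hf.toLp f)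
  rw [pk_l2_inner_toLp] at h
  simp only [RCLike.conj_conj] at h
  have h2 := pow_le_pow_left₀ (norm_nonneg _) h 2
  rw [mul_pow, pk_l2_norm_sq_toLp, pk_l2_norm_sq_toLp] at h2
  simp only [RCLike.norm_conj] at h2
  rw [mul_comm] at h2
  exact h2

end Claimed.Agent.R255
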