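import Claimed.Agent.R255.Pk.Gram
import Claimed.Agent.R255.Pk.Schur

/-!
# R255 / Pk / Bessel : BR LEMMA 9.2 = UNIFORM PACKET BESSEL ESTIMATES, CAP BESSEL      (architect helper91)

Families: finite `s : Finset ι`, sites `V X : ι → E2`, amplitudes `ψ : ι → E2 → ℂ`, one time `c`, one scale `ρ`, `σ = (lam ρ)⁻¹`, phase-space multiplicity `PkMult2 s V X ρ σ m`.
* `pk_mult2_slice`: the sites with `‖V i - V₀‖ ≤ r ρ` have position multiplicity `≤ C m (⌈r⌉+1)²` at scale `σ`.   PLAN: for `X₀` and `u ⊆ s` with `‖X i - X₀‖ ≤ σ`: `PkMult u V ρ m`; `pk_count_ball`.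
* `pk_row_sum`: `∑_i |⟨pkt₀, pkt_i⟩| ≤ C m (1+r)^{-(M-3)}` if every site is velocity-disjoint from the site `0` or at position distance `≥ r σ`.
    PLAN: drop the velocity-disjoint sites (`pk_gram_far`: entries vanish; `Finset.sum_subset`/`sum_filter`), the others have `‖V i - V₀‖ ≤ 2R ρ`: `pk_mult2_slice`, `pk_gram`, `pk_count`.
* `pk_bessel_anal2`, `pk_bessel_synth2`: `pk_row_sum` (`r = 0`, `M = 3`) + `pk_bessel_fun_anal/synth` (`Schur.lean`), with `g i = pkt …` (`pk_pkt_memLp`).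
* `pk_sum_iSup_le`: sums of suprema = suprema over sitewise choices (BR l.246-251).   PLAN: induction on `s` or `ε/card` near-maximisers; boundedness of each `F i` follows from `h`.
* `pk_cap_bessel` (BR (9.cap-bessel)): split `c = c 1_{FR} + c 1_{sT \ FR}`; first part: synthesis then analysis Bessel; second part: `pk_schur` with row and column sums from `pk_row_sum`; `‖a+b‖² ≤ 2‖a‖²+2‖b‖²`.
-/

set_option autoImplicit false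

namespace Claimed.Agent.R255

open MeasureTheory Metric Set Osc
open scoped ContDiff InnerProductSpace ComplexConjugate

theorem pk_mult2_slice : ∃ C : ℕ, ∀ (ι : Type) (s : Finset ι) (V X : ι → E2) (ρ σ : ℝ) (m : ℕ), 0 < ρ → PkMult2 s V X ρ σ m →
    ∀ (V₀ : E2) (r : ℝ), 0 ≤ r → (∀ i ∈ s, ‖V i - V₀‖ ≤ r * ρ) → PkMult s X σ (C * m * (⌈r⌉₊ + 1) ^ 2) := by
  obtain ⟨C₀, hC₀, hC⟩ := pk_count_ball
  refine ⟨⌈C₀⌉₊, fun ι s V X ρ σ m hρ hm V₀ r hr hV X₀ u hu hX => ?_⟩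
  have h1 : PkMult u V ρ m := fun y t ht hy =>
    hm y X₀ t (ht.trans hu) fun i hi => ⟨hy i hi, hX i (ht hi)⟩
  have h2 := hC ι u V ρ m hρ h1 V₀ r hr fun i hi => hV i (hu hi)
  have h3 : (u.card : ℝ) ≤ ((⌈C₀⌉₊ * m * (⌈r⌉₊ + 1) ^ 2 : ℕ) : ℝ) := by
    push_cast
    refine h2.trans ?_
    have a1 : C₀ ≤ (⌈C₀⌉₊ : ℝ) := Nat.le_ceil _
    have a2 : 1 + r ≤ (⌈r⌉₊ : ℝ) + 1 := by linarith [Nat.le_ceil r]
    have a3 : (1 + r) ^ 2 ≤ ((⌈r⌉₊ : ℝ) + 1) ^ 2 := pow_le_pow_left₀ (by linarith) a2 2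
    exact mul_le_mul (mul_le_mul_of_nonneg_right a1 (Nat.cast_nonneg m)) a3 (by positivity)
      (by positivity)
  exact_mod_cast h3

/-- row sums of the Gram matrix. -/
theorem pk_row_sum (K : OscBd) (h0 : 0 < K.a0) (cmax R : ℝ) (M : ℕ) (hM : 3 ≤ M) (b : ℕ → ℝ) : ∃ C : ℝ, 0 ≤ C ∧
    ∀ (Φ : ℝ → E2 → E2 → ℝ) (ζ : E2 → E2 → E2), IsPhase K Φ ζ → ∀ (lam ρ c : ℝ), 0 < lam → 0 < ρ → ρ ≤ 1 → 0 ≤ c → c ≤ cmax →
      ∀ (ι : Type) (s : Finset ι) (V X : ι → E2) (ψ : ι → E2 → ℂ) (m : ℕ), PkMult2 s V X ρ (lam * ρ)⁻¹ m → (∀ i ∈ s, PkAmp M R b (ψ i)) →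
      ∀ (V₀ X₀ : E2) (ψ₀ : E2 → ℂ), PkAmp M R b ψ₀ → ∀ r : ℝ, 0 ≤ r →
        (∀ i ∈ s, 2 * R * ρ < ‖V₀ - V i‖ ∨ r * (lam * ρ)⁻¹ ≤ ‖X i - X₀‖) →
        ∑ i ∈ s, ‖∫ v, pkt lam Φ c ρ V₀ X₀ ψ₀ v * conj (pkt lam Φ c ρ (V i) (X i) (ψ i) v)‖ ≤ C * m * ((1 + r) ^ (M - 3))⁻¹ := by
  classical
  obtain ⟨Cg, hCg0, hCg⟩ := pk_gram K h0 cmax R M b
  obtain ⟨Cc, hCc0, hCc⟩ := pk_count M hM
  obtain ⟨Cs, hCs⟩ := pk_mult2_slice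
  refine ⟨Cg * (Cc * (Cs * (⌈|2 * R|⌉₊ + 1) ^ 2 : ℕ)), by positivity, ?_⟩
  intro Φ ζ h lam ρ c hlam hρ hρ1 hc hcm ι s V X ψ m hm hψ V₀ X₀ ψ₀ hψ₀ r hr hsep
  have hσ : 0 < (lam * ρ)⁻¹ := by positivity
  obtain ⟨s', hs'⟩ : ∃ s' : Finset ι, s' = s.filter fun i => ‖V₀ - V i‖ ≤ 2 * R * ρ := ⟨_, rfl⟩
  have hsub : s' ⊆ s := by rw [hs']; exact Finset.filter_subset _ _
  have hmem : ∀ i ∈ s', ‖V₀ - V i‖ ≤ 2 * R * ρ := fun i hi => by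
    rw [hs'] at hi
    exact (Finset.mem_filter.1 hi).2
  have e1 : ∑ i ∈ s, ‖∫ v, pkt lam Φ c ρ V₀ X₀ ψ₀ v * conj (pkt lam Φ c ρ (V i) (X i) (ψ i) v)‖ =
      ∑ i ∈ s', ‖∫ v, pkt lam Φ c ρ V₀ X₀ ψ₀ v * conj (pkt lam Φ c ρ (V i) (X i) (ψ i) v)‖ := by
    refine (Finset.sum_subset hsub fun i hi hi' => ?_).symm
    have hfar : 2 * R * ρ < ‖V₀ - V i‖ := by
      by_contra hcon
      exact hi' (by rw [hs']; exact Finset.mem_filter.2 ⟨hi, not_lt.1 hcon⟩)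
    rw [pk_gram_far hψ₀ (hψ i hi) lam hρ c c V₀ (V i) X₀ (X i) hfar, norm_zero]
  have hmult : PkMult s' X (lam * ρ)⁻¹ (Cs * m * (⌈|2 * R|⌉₊ + 1) ^ 2) := by
    refine hCs ι s' V X ρ _ m hρ (hm.mono hsub) V₀ |2 * R| (abs_nonneg _) fun i hi => ?_
    rw [norm_sub_rev]
    exact (hmem i hi).trans (mul_le_mul_of_nonneg_right (le_abs_self _) hρ.le)
  have hfarX : ∀ i ∈ s', r * (lam * ρ)⁻¹ ≤ ‖X i - X₀‖ := fun i hi => by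
    rcases hsep i (hsub hi) with h1 | h1
    · exact absurd (hmem i hi) (not_le.2 h1)
    · exact h1
  have h2 := hCc ι s' X _ _ hσ hmult X₀ r hr hfarX
  rw [e1]
  calc ∑ i ∈ s', ‖∫ v, pkt lam Φ c ρ V₀ X₀ ψ₀ v * conj (pkt lam Φ c ρ (V i) (X i) (ψ i) v)‖
      ≤ ∑ i ∈ s', Cg * ((1 + ‖X i - X₀‖ / (lam * ρ)⁻¹) ^ M)⁻¹ := by
        refine Finset.sum_le_sum fun i hi => ?_
        have := hCg Φ ζ h lam ρ c V₀ (V i) X₀ (X i) ψ₀ (ψ i) hlam hρ hρ1 hc hcm hψ₀ (hψ i (hsub hi))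
        rw [div_inv_eq_mul, norm_sub_rev (X i) X₀, mul_comm ‖X₀ - X i‖]
        exact this
    _ = Cg * ∑ i ∈ s', ((1 + ‖X i - X₀‖ / (lam * ρ)⁻¹) ^ M)⁻¹ := by rw [Finset.mul_sum]
    _ ≤ Cg * (Cc * ((Cs * m * (⌈|2 * R|⌉₊ + 1) ^ 2 : ℕ) : ℝ) * ((1 + r) ^ (M - 3))⁻¹) :=
        mul_le_mul_of_nonneg_left h2 hCg0
    _ = _ := by
        push_cast
        ring

/-- row sums at `r = 0`, `M = 3`. -/
theorem pk_row_sum_zero (K : OscBd) (h0 : 0 < K.a0) (cmax R : ℝ) (b : ℕ → ℝ) : ∃ C : ℝ, 0 ≤ C ∧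
    ∀ (Φ : ℝ → E2 → E2 → ℝ) (ζ : E2 → E2 → E2), IsPhase K Φ ζ → ∀ (lam ρ c : ℝ), 0 < lam → 0 < ρ → ρ ≤ 1 → 0 ≤ c → c ≤ cmax →
      ∀ (ι : Type) (s : Finset ι) (V X : ι → E2) (ψ : ι → E2 → ℂ) (m : ℕ), PkMult2 s V X ρ (lam * ρ)⁻¹ m → (∀ i ∈ s, PkAmp 3 R b (ψ i)) →
      ∀ i ∈ s, ∑ j ∈ s, ‖∫ v, pkt lam Φ c ρ (V i) (X i) (ψ i) v * conj (pkt lam Φ c ρ (V j) (X j) (ψ j) v)‖ ≤ C * m := by
  obtain ⟨C, hC0, hC⟩ := pk_row_sum K h0 cmax R 3 le_rfl b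
  refine ⟨C, hC0, fun Φ ζ h lam ρ c hlam hρ hρ1 hc hcm ι s V X ψ m hm hψ i hi => ?_⟩
  have := hC Φ ζ h lam ρ c hlam hρ hρ1 hc hcm ι s V X ψ m hm hψ (V i) (X i) (ψ i) (hψ i hi) 0 le_rfl
    (fun j _ => Or.inr (by rw [zero_mul]; exact norm_nonneg _))
  simpa using this

/-- **BR (9.bessel), analysis**. -/
theorem pk_bessel_anal2 (K : OscBd) (h0 : 0 < K.a0) (cmax R : ℝ) (b : ℕ → ℝ) : ∃ C : ℝ, 0 ≤ C ∧
    ∀ (Φ : ℝ → E2 → E2 → ℝ) (ζ : E2 → E2 → E2), IsPhase K Φ ζ → ∀ (lam ρ c : ℝ), 0 < lam → 0 < ρ → ρ ≤ 1 → 0 ≤ c → c ≤ cmax →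
      ∀ (ι : Type) (s : Finset ι) (V X : ι → E2) (ψ : ι → E2 → ℂ) (m : ℕ), PkMult2 s V X ρ (lam * ρ)⁻¹ m → (∀ i ∈ s, PkAmp 3 R b (ψ i)) →
      ∀ f : E2 → ℂ, MemLp f 2 volume → ∑ i ∈ s, pkMass lam Φ c ρ (V i) (X i) (ψ i) f ≤ C * m * ∫ v, ‖f v‖ ^ 2 := by
  obtain ⟨C, hC0, hC⟩ := pk_row_sum_zero K h0 cmax R b
  refine ⟨C, hC0, fun Φ ζ h lam ρ c hlam hρ hρ1 hc hcm ι s V X ψ m hm hψ f hf => ?_⟩
  exact pk_bessel_fun_anal volume s (fun i => pkt lam Φ c ρ (V i) (X i) (ψ i))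
    (fun i hi => pk_pkt_memLp h (hψ i hi) lam hρ hc (V i) (X i))
    (hC Φ ζ h lam ρ c hlam hρ hρ1 hc hcm ι s V X ψ m hm hψ) (by positivity) f hf

/-- **BR (9.bessel), synthesis** (for `pkt`; the synthesis packets are the conjugates, same norm with conjugated coefficients). -/
theorem pk_bessel_synth2 (K : OscBd) (h0 : 0 < K.a0) (cmax R : ℝ) (b : ℕ → ℝ) : ∃ C : ℝ, 0 ≤ C ∧
    ∀ (Φ : ℝ → E2 → E2 → ℝ) (ζ : E2 → E2 → E2), IsPhase K Φ ζ → ∀ (lam ρ c : ℝ), 0 < lam → 0 < ρ → ρ ≤ 1 → 0 ≤ c → c ≤ cmax →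
      ∀ (ι : Type) (s : Finset ι) (V X : ι → E2) (ψ : ι → E2 → ℂ) (m : ℕ), PkMult2 s V X ρ (lam * ρ)⁻¹ m → (∀ i ∈ s, PkAmp 3 R b (ψ i)) →
      ∀ a : ι → ℂ, ∫ v, ‖∑ i ∈ s, a i * conj (pkt lam Φ c ρ (V i) (X i) (ψ i) v)‖ ^ 2 ≤ C * m * ∑ i ∈ s, ‖a i‖ ^ 2 := by
  obtain ⟨C, hC0, hC⟩ := pk_row_sum_zero K h0 cmax R b
  refine ⟨C, hC0, fun Φ ζ h lam ρ c hlam hρ hρ1 hc hcm ι s V X ψ m hm hψ a => ?_⟩
  have h1 := pk_bessel_fun_synth volume s (fun i => pkt lam Φ c ρ (V i) (X i) (ψ i))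
    (fun i hi => pk_pkt_memLp h (hψ i hi) lam hρ hc (V i) (X i))
    (hC Φ ζ h lam ρ c hlam hρ hρ1 hc hcm ι s V X ψ m hm hψ) (fun i => conj (a i))
  simp only [RCLike.norm_conj] at h1
  refine le_trans (le_of_eq (integral_congr_ae (Filter.Eventually.of_forall fun v => ?_))) h1
  show ‖∑ i ∈ s, a i * conj (pkt lam Φ c ρ (V i) (X i) (ψ i) v)‖ ^ 2 =
    ‖∑ i ∈ s, conj (a i) * pkt lam Φ c ρ (V i) (X i) (ψ i) v‖ ^ 2
  rw [← RCLike.norm_conj (∑ i ∈ s, conj (a i) * pkt lam Φ c ρ (V i) (X i) (ψ i) v), map_sum]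
  simp only [map_mul, RCLike.conj_conj]

/-- sums of suprema. -/
theorem pk_sum_iSup_le {ι α : Type} [Nonempty α] (s : Finset ι) (F : ι → α → ℝ) (B : ℝ) (h : ∀ g : ι → α, ∑ i ∈ s, F i (g i) ≤ B) :
    ∑ i ∈ s, ⨆ a, F i a ≤ B := by
  classical
  induction s using Finset.induction_on generalizing B with
  | empty => simpa using h (fun _ => Classical.arbitrary α)
  | insert i s hi ih =>
    rw [Finset.sum_insert hi]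
    have h1 : ∀ a, F i a ≤ B - ∑ j ∈ s, ⨆ a, F j a := by
      intro a
      have h2 : ∑ j ∈ s, ⨆ a, F j a ≤ B - F i a := by
        refine ih _ fun g => ?_
        have h3 := h (Function.update g i a)
        rw [Finset.sum_insert hi, Function.update_self] at h3
        have h4 : ∑ j ∈ s, F j (Function.update g i a j) = ∑ j ∈ s, F j (g j) :=
          Finset.sum_congr rfl fun j hj => by
            have hne : j ≠ i := fun e => hi (by rw [← e]; exact hj)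
            rw [Function.update_of_ne hne]
        rw [h4] at h3
        linarith
      linarith
    have := ciSup_le h1
    linarith

/-- **BR (9.cap-bessel)**.  `sO` = the analysis sites of the cap `F`, `FR ⊆ sT` = the synthesis sites of the enlarged cap. -/
theorem pk_cap_bessel (K : OscBd) (h0 : 0 < K.a0) (cmax R : ℝ) (M : ℕ) (hM : 3 ≤ M) (b : ℕ → ℝ) : ∃ C : ℝ, 0 ≤ C ∧
    ∀ (Φ : ℝ → E2 → E2 → ℝ) (ζ : E2 → E2 → E2), IsPhase K Φ ζ → ∀ (lam ρ c : ℝ), 0 < lam → 0 < ρ → ρ ≤ 1 → 0 ≤ c → c ≤ cmax →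
      ∀ (ι κ : Type) (sO : Finset ι) (VO XO : ι → E2) (ψO : ι → E2 → ℂ) (sT FR : Finset κ) (VT XT : κ → E2) (ηT : κ → E2 → ℂ) (m : ℕ),
      PkMult2 sO VO XO ρ (lam * ρ)⁻¹ m → (∀ i ∈ sO, PkAmp M R b (ψO i)) → PkMult2 sT VT XT ρ (lam * ρ)⁻¹ m → (∀ k ∈ sT, PkAmp M R b (ηT k)) →
      FR ⊆ sT → ∀ r : ℝ, 0 ≤ r → (∀ i ∈ sO, ∀ k ∈ sT, k ∉ FR → 2 * R * ρ < ‖VO i - VT k‖ ∨ r * (lam * ρ)⁻¹ ≤ ‖XO i - XT k‖) →
      ∀ a : κ → ℂ,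
        ∑ i ∈ sO, pkMass lam Φ c ρ (VO i) (XO i) (ψO i) (fun v => ∑ k ∈ sT, a k * conj (pkt lam Φ c ρ (VT k) (XT k) (ηT k) v))
          ≤ C * (m : ℝ) ^ 2 * ∑ k ∈ FR, ‖a k‖ ^ 2 + C * (m : ℝ) ^ 2 * (((1 + r) ^ (M - 3))⁻¹) ^ 2 * ∑ k ∈ sT, ‖a k‖ ^ 2 := by
  classical
  obtain ⟨Ca, hCa0, hCa⟩ := pk_bessel_anal2 K h0 cmax R b
  obtain ⟨Cs, hCs0, hCs⟩ := pk_bessel_synth2 K h0 cmax R b
  obtain ⟨Cr, hCr0, hCr⟩ := pk_row_sum K h0 cmax R M hM b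
  refine ⟨2 * (Ca * Cs) + 2 * Cr ^ 2, by positivity, ?_⟩
  intro Φ ζ h lam ρ c hlam hρ hρ1 hc hcm ι κ sO VO XO ψO sT FR VT XT ηT m hmO hψO hmT hηT hFR r hr hsep a
  obtain ⟨w, hw⟩ : ∃ w : ℝ, w = ((1 + r) ^ (M - 3))⁻¹ := ⟨_, rfl⟩
  have hw0 : 0 ≤ w := by rw [hw]; positivity
  rw [← hw]
  obtain ⟨p, hp⟩ : ∃ p : ι → E2 → ℂ, p = fun i => pkt lam Φ c ρ (VO i) (XO i) (ψO i) := ⟨_, rfl⟩
  obtain ⟨q, hq⟩ : ∃ q : κ → E2 → ℂ, q = fun k => pkt lam Φ c ρ (VT k) (XT k) (ηT k) := ⟨_, rfl⟩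
  have hpL : ∀ i ∈ sO, MemLp (p i) 2 volume := fun i hi => by
    rw [hp]; exact pk_pkt_memLp h (hψO i hi) lam hρ hc _ _
  have hqL : ∀ k ∈ sT, MemLp (q k) 2 volume := fun k hk => by
    rw [hq]; exact pk_pkt_memLp h (hηT k hk) lam hρ hc _ _
  have hqcL : ∀ k ∈ sT, MemLp (fun v => conj (q k v)) 2 volume := fun k hk =>
    pk_memLp_conj volume (hqL k hk)
  have hint : ∀ i ∈ sO, ∀ k ∈ sT, Integrable (fun v => a k * conj (q k v) * p i v) := by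
    intro i hi k hk
    have := ((hqcL k hk).integrable_mul (hpL i hi)).const_mul (a k)
    refine this.congr (Filter.Eventually.of_forall fun v => ?_)
    show a k * (conj (q k v) * p i v) = a k * conj (q k v) * p i v
    ring
  have hO3 : ∀ i ∈ sO, PkAmp 3 R b (ψO i) := fun i hi => (hψO i hi).mono hM le_rfl fun _ _ => le_rfl
  have hT3 : ∀ k ∈ FR, PkAmp 3 R b (ηT k) := fun k hk =>
    (hηT k (hFR hk)).mono hM le_rfl fun _ _ => le_rfl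
  -- the two pieces
  obtain ⟨F₁, hF₁⟩ : ∃ F₁ : E2 → ℂ, F₁ = fun v => ∑ k ∈ FR, a k * conj (q k v) := ⟨_, rfl⟩
  have hF₁L : MemLp F₁ 2 volume := by
    rw [hF₁]
    exact memLp_finsetSum _ fun k hk => (hqcL k (hFR hk)).const_mul (a k)
  have hsplit : ∀ i ∈ sO, ∫ v, (∑ k ∈ sT, a k * conj (q k v)) * p i v =
      (∫ v, F₁ v * p i v) + ∑ k ∈ sT \ FR, (∫ v, p i v * conj (q k v)) * a k := by
    intro i hi
    have e1 : ∀ t : Finset κ, t ⊆ sT → ∫ v, (∑ k ∈ t, a k * conj (q k v)) * p i v =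
        ∑ k ∈ t, (∫ v, p i v * conj (q k v)) * a k := by
      intro t ht
      simp_rw [Finset.sum_mul]
      rw [integral_finsetSum _ fun k hk => hint i hi k (ht hk)]
      refine Finset.sum_congr rfl fun k _ => ?_
      rw [← integral_mul_const]
      exact integral_congr_ae (Filter.Eventually.of_forall fun v => by
        show a k * conj (q k v) * p i v = p i v * conj (q k v) * a k
        ring)
    rw [e1 sT subset_rfl, hF₁, e1 FR hFR, ← Finset.sum_sdiff hFR, add_comm]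
  have hA : ∑ i ∈ sO, ‖∫ v, F₁ v * p i v‖ ^ 2 ≤ Ca * m * (Cs * m * ∑ k ∈ FR, ‖a k‖ ^ 2) := by
    have h1 := hCa Φ ζ h lam ρ c hlam hρ hρ1 hc hcm ι sO VO XO ψO m hmO hO3 F₁ hF₁L
    have h2 := hCs Φ ζ h lam ρ c hlam hρ hρ1 hc hcm κ FR VT XT ηT m (hmT.mono hFR) hT3 a
    have h3 : ∫ v, ‖F₁ v‖ ^ 2 ≤ Cs * m * ∑ k ∈ FR, ‖a k‖ ^ 2 := by
      rw [hF₁, hq]; exact h2
    have h4 : ∑ i ∈ sO, ‖∫ v, F₁ v * p i v‖ ^ 2 ≤ Ca * m * ∫ v, ‖F₁ v‖ ^ 2 := by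
      rw [hp]; exact h1
    exact h4.trans (mul_le_mul_of_nonneg_left h3 (by positivity))
  have hB : ∑ i ∈ sO, ‖∑ k ∈ sT \ FR, (∫ v, p i v * conj (q k v)) * a k‖ ^ 2 ≤
      (Cr * m * w) * (Cr * m * w) * ∑ k ∈ sT \ FR, ‖a k‖ ^ 2 := by
    refine pk_schur sO (sT \ FR) (fun i k => ∫ v, p i v * conj (q k v)) ?_ ?_ (by positivity) a
    · intro i hi
      have := hCr Φ ζ h lam ρ c hlam hρ hρ1 hc hcm κ (sT \ FR) VT XT ηT m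
        (hmT.mono Finset.sdiff_subset) (fun k hk => hηT k (Finset.sdiff_subset hk)) (VO i) (XO i) (ψO i)
        (hψO i hi) r hr (fun k hk => by
          have hk' := Finset.mem_sdiff.1 hk
          rw [norm_sub_rev (XT k)]
          exact hsep i hi k hk'.1 hk'.2)
      rw [hp, hq, hw]; exact this
    · intro k hk
      have hk' := Finset.mem_sdiff.1 hk
      have := hCr Φ ζ h lam ρ c hlam hρ hρ1 hc hcm ι sO VO XO ψO m hmO hψO (VT k) (XT k) (ηT k)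
        (hηT k hk'.1) r hr (fun i hi => by
          rw [norm_sub_rev (VT k)]
          exact hsep i hi k hk'.1 hk'.2)
      rw [hw]
      refine le_trans (le_of_eq (Finset.sum_congr rfl fun i _ => ?_)) this
      rw [hp, hq, ← RCLike.norm_conj, ← integral_conj]
      congr 1
      refine integral_congr_ae (Filter.Eventually.of_forall fun v => ?_)
      simp only [map_mul, RCLike.conj_conj]
      ring
  have hsum : ∑ k ∈ sT \ FR, ‖a k‖ ^ 2 ≤ ∑ k ∈ sT, ‖a k‖ ^ 2 :=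
    Finset.sum_le_sum_of_subset_of_nonneg Finset.sdiff_subset fun _ _ _ => by positivity
  have hmain : ∑ i ∈ sO, ‖∫ v, (∑ k ∈ sT, a k * conj (q k v)) * p i v‖ ^ 2 ≤
      2 * ∑ i ∈ sO, ‖∫ v, F₁ v * p i v‖ ^ 2 +
        2 * ∑ i ∈ sO, ‖∑ k ∈ sT \ FR, (∫ v, p i v * conj (q k v)) * a k‖ ^ 2 := by
    rw [Finset.mul_sum, Finset.mul_sum, ← Finset.sum_add_distrib]
    refine Finset.sum_le_sum fun i hi => ?_
    rw [hsplit i hi]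
    have h1 := norm_add_le (∫ v, F₁ v * p i v) (∑ k ∈ sT \ FR, (∫ v, p i v * conj (q k v)) * a k)
    have h2 := pow_le_pow_left₀ (norm_nonneg _) h1 2
    nlinarith [sq_nonneg (‖∫ v, F₁ v * p i v‖ - ‖∑ k ∈ sT \ FR, (∫ v, p i v * conj (q k v)) * a k‖)]
  have hgoal : ∑ i ∈ sO, pkMass lam Φ c ρ (VO i) (XO i) (ψO i)
      (fun v => ∑ k ∈ sT, a k * conj (pkt lam Φ c ρ (VT k) (XT k) (ηT k) v)) =
      ∑ i ∈ sO, ‖∫ v, (∑ k ∈ sT, a k * conj (q k v)) * p i v‖ ^ 2 := by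
    rw [hp, hq]; rfl
  rw [hgoal]
  have hS1 : 0 ≤ ∑ k ∈ FR, ‖a k‖ ^ 2 := Finset.sum_nonneg fun _ _ => by positivity
  have hS2 : 0 ≤ ∑ k ∈ sT, ‖a k‖ ^ 2 := Finset.sum_nonneg fun _ _ => by positivity
  have hB' : (Cr * m * w) * (Cr * m * w) * ∑ k ∈ sT \ FR, ‖a k‖ ^ 2 ≤
      (Cr * m * w) * (Cr * m * w) * ∑ k ∈ sT, ‖a k‖ ^ 2 :=
    mul_le_mul_of_nonneg_left hsum (by positivity)
  have t1 : 0 ≤ 2 * Cr ^ 2 * (m : ℝ) ^ 2 * ∑ k ∈ FR, ‖a k‖ ^ 2 := by positivity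
  have t2 : 0 ≤ 2 * (Ca * Cs) * (m : ℝ) ^ 2 * w ^ 2 * ∑ k ∈ sT, ‖a k‖ ^ 2 := by positivity
  calc ∑ i ∈ sO, ‖∫ v, (∑ k ∈ sT, a k * conj (q k v)) * p i v‖ ^ 2
      ≤ 2 * (Ca * m * (Cs * m * ∑ k ∈ FR, ‖a k‖ ^ 2)) +
          2 * ((Cr * m * w) * (Cr * m * w) * ∑ k ∈ sT, ‖a k‖ ^ 2) := by
        linarith [hmain, hA, hB, hB']
    _ ≤ _ := by nlinarith [t1, t2]

end Claimed.Agent.R255
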