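import Claimed.Agent.R255.Pkt.Base
import Claimed.Agent.R255.Pk.Bessel

/-!
# R255 / Pk / Bridge : FROM THE AN PRIMITIVES (`pkt`, `pkMass`, `PkAmp`, `PkMult2`) TO THE VOCABULARY OF `Pkt/Base.lean` (`Site`, `pairing`, `mass`, `atom`, `AmpC`, `CanC`)      (architect helper91)

* dictionary: `pk_pairing_eq`, `pk_mass_eq`, `pk_atom_eq`, `pk_ampC_iff`, `pk_canC_iff`.
* multiplicity: `PkSep`-type hypotheses of `PTest.Obeys.multS` / `PTest.IsRoot.sep` (counts in OPEN cells centred AT THE SITES) imply `PkMult2` (counts in arbitrary closed cells), with a universal factor.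
   PLAN `pk_mult2_of_local`: sites of `t` in a cell of radii `(ρ/3, σ/3)` are pairwise at distance `< ρ`, `< σ`, so all lie in the open cell centred at one of them: `PkMult2 s V X (ρ/3) (σ/3) m`.
   Then `pk_mult2_slice` (scale `ρ/3`, `r = 3`) and `pk_count_ball` (scale `σ/3`, `R = 3`).
* L9.2 for sites: `pk_site_bessel`, `pk_site_synth`, `pk_site_cap`: unfold the dictionary, cite `Bessel.lean`.
-/

set_option autoImplicit false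

namespace Claimed.Agent.R255

open MeasureTheory Metric Set Osc Pkt
open scoped ContDiff InnerProductSpace ComplexConjugate

theorem pk_pairing_eq (lam ρ : ℝ) (Φ : ℝ → E2 → E2 → ℝ) (f : E2 → ℂ) (s : Site) :
    pairing lam ρ Φ f s = ∫ v, f v * pkt lam Φ s.C ρ s.V s.X s.ψ v := by
  rw [pairing, ← integral_const_mul]
  refine integral_congr_ae (Filter.Eventually.of_forall fun v => ?_)
  simp only [pkt]
  ring

theorem pk_mass_eq (lam ρ : ℝ) (Φ : ℝ → E2 → E2 → ℝ) (f : E2 → ℂ) (s : Site) :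
    mass lam ρ Φ f s = pkMass lam Φ s.C ρ s.V s.X s.ψ f := by
  rw [mass, pkMass, pk_pairing_eq]

theorem pk_atom_eq (lam ρ : ℝ) (Φ : ℝ → E2 → E2 → ℝ) (s : Site) (v : E2) :
    atom lam ρ Φ s v = conj (pkt lam Φ s.C ρ s.V s.X (fun z => conj (s.ψ z)) v) := by
  simp only [atom, pkt, map_mul, Complex.conj_ofReal, Complex.conj_conj, ← Complex.exp_conj, Complex.conj_I, neg_mul]

theorem pk_ampC_iff (R : ℝ) (Bd : ℕ → ℝ) (ψ : E2 → ℂ) : AmpC R Bd ψ ↔ ∀ M, PkAmp M R Bd ψ := by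
  constructor
  · intro h M
    exact ⟨h.smooth, h.supp, fun j _ z => h.bound j z⟩
  · intro h
    exact ⟨(h 0).smooth, (h 0).supp, fun j z => (h j).bound j le_rfl z⟩

theorem pk_canC_iff (M : ℕ) (ψ : E2 → ℂ) : CanC M ψ ↔ PkAmp M 100 (fun _ => 1) ψ := by
  constructor
  · intro h
    exact ⟨h.smooth, h.supp, h.bound⟩
  · intro h
    exact ⟨h.smooth, h.supp, h.bound⟩

theorem pk_mult2_third {ι : Type} (s : Finset ι) (V X : ι → E2) (ρ σ : ℝ) (m : ℕ) (hρ : 0 < ρ) (hσ : 0 < σ)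
    (H : ∀ i ∈ s, ∀ t : Finset ι, t ⊆ s → (∀ j ∈ t, ‖V j - V i‖ < ρ ∧ ‖X j - X i‖ < σ) → t.card ≤ m) :
    PkMult2 s V X (ρ / 3) (σ / 3) m := by
  intro V₀ X₀ t hts ht
  rcases t.eq_empty_or_nonempty with rfl | ⟨i, hi⟩
  · simp
  refine H i (hts hi) t hts fun j hj => ?_
  have h1 := ht i hi
  have h2 := ht j hj
  constructor
  · calc ‖V j - V i‖ = ‖(V j - V₀) - (V i - V₀)‖ := by rw [sub_sub_sub_cancel_right]
      _ ≤ ‖V j - V₀‖ + ‖V i - V₀‖ := norm_sub_le _ _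
      _ < ρ := by linarith [h1.1, h2.1]
  · calc ‖X j - X i‖ = ‖(X j - X₀) - (X i - X₀)‖ := by rw [sub_sub_sub_cancel_right]
      _ ≤ ‖X j - X₀‖ + ‖X i - X₀‖ := norm_sub_le _ _
      _ < σ := by linarith [h1.2, h2.2]

/-- local counts (open cells centred at the sites) imply `PkMult2`. -/
theorem pk_mult2_of_local : ∃ C : ℕ, ∀ (ι : Type) (s : Finset ι) (V X : ι → E2) (ρ σ : ℝ) (m : ℕ), 0 < ρ → 0 < σ →
    (∀ i ∈ s, ∀ t : Finset ι, t ⊆ s → (∀ j ∈ t, ‖V j - V i‖ < ρ ∧ ‖X j - X i‖ < σ) → t.card ≤ m) → PkMult2 s V X ρ σ (C * m) := by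
  obtain ⟨C₁, hC₁⟩ := pk_mult2_slice
  obtain ⟨C₂, hC₂0, hC₂⟩ := pk_count_ball
  refine ⟨⌈C₂ * 256⌉₊ * C₁, fun ι s V X ρ σ m hρ hσ H V₀ X₀ t hts ht => ?_⟩
  have h1 : PkMult2 t V X (ρ / 3) (σ / 3) m := (pk_mult2_third s V X ρ σ m hρ hσ H).mono hts
  have h2 := hC₁ ι t V X (ρ / 3) (σ / 3) m (by positivity) h1 V₀ 3 (by norm_num)
    (fun i hi => by have := (ht i hi).1; linarith)
  have h3 := hC₂ ι t X (σ / 3) _ (by positivity) h2 X₀ 3 (by norm_num)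
    (fun i hi => by have := (ht i hi).2; linarith)
  have e3 : ⌈(3 : ℝ)⌉₊ = 3 := by
    have : ((3 : ℕ) : ℝ) = 3 := by norm_num
    rw [← this, Nat.ceil_natCast]
  rw [e3] at h3
  have h4 : (t.card : ℝ) ≤ ((⌈C₂ * 256⌉₊ * C₁ * m : ℕ) : ℝ) := by
    have h5 : C₂ * 256 ≤ (⌈C₂ * 256⌉₊ : ℝ) := Nat.le_ceil _
    have h6 : (0 : ℝ) ≤ (C₁ : ℝ) * m := by positivity
    have h7 : C₂ * ((C₁ * m * (3 + 1) ^ 2 : ℕ) : ℝ) * (1 + 3) ^ 2 = (C₂ * 256) * ((C₁ : ℝ) * m) := by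
      push_cast
      ring
    have h8 : ((⌈C₂ * 256⌉₊ * C₁ * m : ℕ) : ℝ) = (⌈C₂ * 256⌉₊ : ℝ) * ((C₁ : ℝ) * m) := by
      push_cast
      ring
    rw [h7] at h3
    rw [h8]
    exact h3.trans (mul_le_mul_of_nonneg_right h5 h6)
  exact_mod_cast h4

/-- separated families (root tests) have local count one. -/
theorem pk_local_of_sep {ι : Type} (s : Finset ι) (V X : ι → E2) (ρ : ℝ)
    (hsep : ∀ i ∈ s, ∀ j ∈ s, i ≠ j → ρ ≤ ‖V i - V j‖ ∨ ρ ≤ ‖X i - X j‖) :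
    ∀ i ∈ s, ∀ t : Finset ι, t ⊆ s → (∀ j ∈ t, ‖V j - V i‖ < ρ ∧ ‖X j - X i‖ < ρ) → t.card ≤ 1 := by
  intro i hi t hts ht
  refine Finset.card_le_one.2 fun a ha b hb => ?_
  have key : ∀ j ∈ t, j = i := by
    intro j hj
    by_contra hne
    rcases hsep j (hts hj) i hi hne with h1 | h1
    · exact absurd (ht j hj).1 (not_lt.2 h1)
    · exact absurd (ht j hj).2 (not_lt.2 h1)
  rw [key a ha, key b hb]

/-- **L9.2, analysis Bessel for sites** with one time anchor. -/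
theorem pk_site_bessel (K : OscBd) (h0 : 0 < K.a0) (R : ℝ) (b : ℕ → ℝ) : ∃ C : ℝ, 0 ≤ C ∧
    ∀ (Φ : ℝ → E2 → E2 → ℝ) (ζ : E2 → E2 → E2), IsPhase K Φ ζ → ∀ (lam ρ c : ℝ), 0 < lam → 0 < ρ → ρ ≤ 1 → 0 ≤ c → c ≤ 1 →
      ∀ (ι : Type) (s : Finset ι) (site : ι → Site) (m : ℕ), (∀ i ∈ s, (site i).C = c) → (∀ i ∈ s, PkAmp 3 R b (site i).ψ) →
      (∀ i ∈ s, ∀ t : Finset ι, t ⊆ s → (∀ j ∈ t, ‖(site j).V - (site i).V‖ < ρ ∧ ‖(site j).X - (site i).X‖ < (lam * ρ)⁻¹) → t.card ≤ m) →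
      ∀ f : E2 → ℂ, MemLp f 2 volume → ∑ i ∈ s, mass lam ρ Φ f (site i) ≤ C * m * ∫ v, ‖f v‖ ^ 2 := by
  obtain ⟨C₀, hC₀⟩ := pk_mult2_of_local
  obtain ⟨C, hC0, hC⟩ := pk_bessel_anal2 K h0 1 R b
  refine ⟨C * C₀, by positivity, fun Φ ζ h lam ρ c hlam hρ hρ1 hc hc1 ι s site m hsc hamp hloc f hf => ?_⟩
  have hm := hC₀ ι s (fun i => (site i).V) (fun i => (site i).X) ρ (lam * ρ)⁻¹ m hρ (by positivity) hloc
  have h1 := hC Φ ζ h lam ρ c hlam hρ hρ1 hc hc1 ι s _ _ (fun i => (site i).ψ) _ hm hamp f hf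
  have e : ∑ i ∈ s, mass lam ρ Φ f (site i) = ∑ i ∈ s, pkMass lam Φ c ρ (site i).V (site i).X (site i).ψ f :=
    Finset.sum_congr rfl fun i hi => by rw [pk_mass_eq, hsc i hi]
  rw [e]
  refine h1.trans (le_of_eq ?_)
  push_cast
  ring

/-- **L9.2, synthesis Bessel for sites** with one time anchor. -/
theorem pk_site_synth (K : OscBd) (h0 : 0 < K.a0) (R : ℝ) (b : ℕ → ℝ) : ∃ C : ℝ, 0 ≤ C ∧
    ∀ (Φ : ℝ → E2 → E2 → ℝ) (ζ : E2 → E2 → E2), IsPhase K Φ ζ → ∀ (lam ρ c : ℝ), 0 < lam → 0 < ρ → ρ ≤ 1 → 0 ≤ c → c ≤ 1 →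
      ∀ (ι : Type) (s : Finset ι) (site : ι → Site) (m : ℕ), (∀ i ∈ s, (site i).C = c) → (∀ i ∈ s, PkAmp 3 R b (site i).ψ) →
      (∀ i ∈ s, ∀ t : Finset ι, t ⊆ s → (∀ j ∈ t, ‖(site j).V - (site i).V‖ < ρ ∧ ‖(site j).X - (site i).X‖ < (lam * ρ)⁻¹) → t.card ≤ m) →
      ∀ a : ι → ℂ, ∫ v, ‖∑ i ∈ s, a i * atom lam ρ Φ (site i) v‖ ^ 2 ≤ C * m * ∑ i ∈ s, ‖a i‖ ^ 2 := by
  obtain ⟨C₀, hC₀⟩ := pk_mult2_of_local
  obtain ⟨C, hC0, hC⟩ := pk_bessel_synth2 K h0 1 R b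
  refine ⟨C * C₀, by positivity, fun Φ ζ h lam ρ c hlam hρ hρ1 hc hc1 ι s site m hsc hamp hloc a => ?_⟩
  have hm := hC₀ ι s (fun i => (site i).V) (fun i => (site i).X) ρ (lam * ρ)⁻¹ m hρ (by positivity) hloc
  have h1 := hC Φ ζ h lam ρ c hlam hρ hρ1 hc hc1 ι s _ _ (fun i z => conj ((site i).ψ z)) _ hm
    (fun i hi => pk_amp_conj (hamp i hi)) a
  have e : ∀ v, ∑ i ∈ s, a i * atom lam ρ Φ (site i) v
      = ∑ i ∈ s, a i * conj (pkt lam Φ c ρ (site i).V (site i).X (fun z => conj ((site i).ψ z)) v) :=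
    fun v => Finset.sum_congr rfl fun i hi => by rw [pk_atom_eq, hsc i hi]
  simp only [e]
  refine h1.trans (le_of_eq ?_)
  push_cast
  ring

/-- **(9.gram) for sites**: analysis site `s`, synthesis site `s'`, same time, same scale. -/
theorem pk_site_gram (K : OscBd) (h0 : 0 < K.a0) (R : ℝ) (M : ℕ) (b : ℕ → ℝ) : ∃ C : ℝ, 0 ≤ C ∧
    ∀ (Φ : ℝ → E2 → E2 → ℝ) (ζ : E2 → E2 → E2), IsPhase K Φ ζ → ∀ (lam ρ : ℝ), 0 < lam → 0 < ρ → ρ ≤ 1 →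
      ∀ s s' : Site, 0 ≤ s.C → s.C ≤ 1 → s'.C = s.C → PkAmp M R b s.ψ → PkAmp M R b s'.ψ →
        ‖pairing lam ρ Φ (atom lam ρ Φ s') s‖ ≤ C * ((1 + lam * ρ * ‖s.X - s'.X‖) ^ M)⁻¹ ∧
        (2 * R * ρ < ‖s.V - s'.V‖ → pairing lam ρ Φ (atom lam ρ Φ s') s = 0) := by
  obtain ⟨C, hC0, hC⟩ := pk_gram K h0 1 R M b
  refine ⟨C, hC0, fun Φ ζ h lam ρ hlam hρ hρ1 s s' hc hc1 hcc hψ hψ' => ?_⟩
  have e : pairing lam ρ Φ (atom lam ρ Φ s') s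
      = ∫ v, pkt lam Φ s.C ρ s.V s.X s.ψ v * conj (pkt lam Φ s.C ρ s'.V s'.X (fun z => conj (s'.ψ z)) v) := by
    rw [pk_pairing_eq]
    refine integral_congr_ae (Filter.Eventually.of_forall fun v => ?_)
    show atom lam ρ Φ s' v * _ = _
    rw [pk_atom_eq, hcc, mul_comm]
  rw [e]
  exact ⟨hC Φ ζ h lam ρ s.C s.V s'.V s.X s'.X _ _ hlam hρ hρ1 hc hc1 hψ (pk_amp_conj hψ'),
    fun hV => pk_gram_far hψ (pk_amp_conj hψ') lam hρ _ _ _ _ _ _ hV⟩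

/-- **(9.cap-bessel) for sites**. -/
theorem pk_site_cap (K : OscBd) (h0 : 0 < K.a0) (R : ℝ) (M : ℕ) (hM : 3 ≤ M) (b : ℕ → ℝ) : ∃ C : ℝ, 0 ≤ C ∧
    ∀ (Φ : ℝ → E2 → E2 → ℝ) (ζ : E2 → E2 → E2), IsPhase K Φ ζ → ∀ (lam ρ c : ℝ), 0 < lam → 0 < ρ → ρ ≤ 1 → 0 ≤ c → c ≤ 1 →
      ∀ (ι κ : Type) (sO : Finset ι) (sO' : ι → Site) (sT FR : Finset κ) (sT' : κ → Site) (m : ℕ),
      (∀ i ∈ sO, (sO' i).C = c) → (∀ i ∈ sO, PkAmp M R b (sO' i).ψ) → (∀ k ∈ sT, (sT' k).C = c) → (∀ k ∈ sT, PkAmp M R b (sT' k).ψ) →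
      (∀ i ∈ sO, ∀ t : Finset ι, t ⊆ sO → (∀ j ∈ t, ‖(sO' j).V - (sO' i).V‖ < ρ ∧ ‖(sO' j).X - (sO' i).X‖ < (lam * ρ)⁻¹) → t.card ≤ m) →
      (∀ i ∈ sT, ∀ t : Finset κ, t ⊆ sT → (∀ j ∈ t, ‖(sT' j).V - (sT' i).V‖ < ρ ∧ ‖(sT' j).X - (sT' i).X‖ < (lam * ρ)⁻¹) → t.card ≤ m) →
      FR ⊆ sT → ∀ r : ℝ, 0 ≤ r →
      (∀ i ∈ sO, ∀ k ∈ sT, k ∉ FR → 2 * R * ρ < ‖(sO' i).V - (sT' k).V‖ ∨ r * (lam * ρ)⁻¹ ≤ ‖(sO' i).X - (sT' k).X‖) →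
      ∀ a : κ → ℂ,
        ∑ i ∈ sO, mass lam ρ Φ (fun v => ∑ k ∈ sT, a k * atom lam ρ Φ (sT' k) v) (sO' i)
          ≤ C * (m : ℝ) ^ 2 * ∑ k ∈ FR, ‖a k‖ ^ 2 + C * (m : ℝ) ^ 2 * (((1 + r) ^ (M - 3))⁻¹) ^ 2 * ∑ k ∈ sT, ‖a k‖ ^ 2 := by
  obtain ⟨C₀, hC₀⟩ := pk_mult2_of_local
  obtain ⟨C, hC0, hC⟩ := pk_cap_bessel K h0 1 R M hM b
  refine ⟨C * (C₀ : ℝ) ^ 2, by positivity, fun Φ ζ h lam ρ c hlam hρ hρ1 hc hc1 ι κ sO sO' sT FR sT' m hOc hOa hTc hTa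
    hOl hTl hFR r hr hsep a => ?_⟩
  have hmO := hC₀ ι sO (fun i => (sO' i).V) (fun i => (sO' i).X) ρ (lam * ρ)⁻¹ m hρ (by positivity) hOl
  have hmT := hC₀ κ sT (fun i => (sT' i).V) (fun i => (sT' i).X) ρ (lam * ρ)⁻¹ m hρ (by positivity) hTl
  have h1 := hC Φ ζ h lam ρ c hlam hρ hρ1 hc hc1 ι κ sO _ _ (fun i => (sO' i).ψ) sT FR _ _
    (fun k z => conj ((sT' k).ψ z)) _ hmO hOa hmT (fun k hk => pk_amp_conj (hTa k hk)) hFR r hr hsep a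
  have e0 : (fun v => ∑ k ∈ sT, a k * atom lam ρ Φ (sT' k) v)
      = fun v => ∑ k ∈ sT, a k * conj (pkt lam Φ c ρ (sT' k).V (sT' k).X (fun z => conj ((sT' k).ψ z)) v) := by
    funext v
    exact Finset.sum_congr rfl fun k hk => by rw [pk_atom_eq, hTc k hk]
  have e : ∑ i ∈ sO, mass lam ρ Φ (fun v => ∑ k ∈ sT, a k * atom lam ρ Φ (sT' k) v) (sO' i)
      = ∑ i ∈ sO, pkMass lam Φ c ρ (sO' i).V (sO' i).X (sO' i).ψ
        (fun v => ∑ k ∈ sT, a k * conj (pkt lam Φ c ρ (sT' k).V (sT' k).X (fun z => conj ((sT' k).ψ z)) v)) :=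
    Finset.sum_congr rfl fun i hi => by rw [pk_mass_eq, hOc i hi, e0]
  rw [e]
  refine h1.trans (le_of_eq ?_)
  push_cast
  ring

end Claimed.Agent.R255
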