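import Mathlib

/-!
# R255 / Pk / Cb : SMOOTH MAPS WITH BOUNDS ON ALL DERIVATIVES      (architect helper91)   -- KEEP

Self-contained copy (Mathlib only) of the calculus `Lib.Ell.CbLe` (helper232) + `hr_cb_comp`, `hr_cb_rpow` (helper91), for the AN layer of BR Secs. 9-11.
`Cb Λ Ω f`: `f` is smooth on `Ω` (open in all uses) and `‖D^j f‖ ≤ Λ j` on `Ω` for all `j`.   EXPLICIT bound sequences: "the new bounds depend only on the old bounds" is visible.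
API: `Cb.mono  .congr  .at  .fd  .add  .sub  .neg  .clm_post  .comp_clm  .bilin  .prodMk  .comp  .fd_apply  .comp_add  .mul  .rmul  .ofReal  .const_smul  .conj`, `pk_cb_clm  pk_cb_const  pk_cb_rpow  pk_cb_of_fderiv`.
-/

set_option autoImplicit false

namespace Claimed.Agent.R255

open Metric Filter Set
open scoped ContDiff Topology Nat

variable {X X' Y Y₁ Y₂ Y₃ : Type} [NormedAddCommGroup X] [NormedSpace ℝ X] [NormedAddCommGroup X'] [NormedSpace ℝ X']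
  [NormedAddCommGroup Y] [NormedSpace ℝ Y] [NormedAddCommGroup Y₁] [NormedSpace ℝ Y₁]
  [NormedAddCommGroup Y₂] [NormedSpace ℝ Y₂] [NormedAddCommGroup Y₃] [NormedSpace ℝ Y₃]

/-- smooth on `Ω` with `‖D^j f‖ ≤ Λ j`. -/
structure Cb (Λ : ℕ → ℝ) (Ω : Set X) (f : X → Y) : Prop where
  smooth : ContDiffOn ℝ ∞ f Ω
  bd : ∀ j : ℕ, ∀ x ∈ Ω, ‖iteratedFDeriv ℝ j f x‖ ≤ Λ j

variable {Λ Λ' Λ₁ Λ₂ : ℕ → ℝ} {Ω Ω₀ : Set X} {f g : X → Y}

theorem Cb.mono (h : Cb Λ Ω f) (hΩ : Ω₀ ⊆ Ω) (hΛ : ∀ j, Λ j ≤ Λ' j) : Cb Λ' Ω₀ f := by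
  exact ⟨h.smooth.mono hΩ, fun j x hx => (h.bd j x (hΩ hx)).trans (hΛ j)⟩

theorem Cb.congr (hΩ : IsOpen Ω) (h : Cb Λ Ω f) (hfg : ∀ x ∈ Ω, g x = f x) : Cb Λ Ω g := by
  refine ⟨h.smooth.congr hfg, fun j x hx => ?_⟩
  have h1 : g =ᶠ[𝓝 x] f := by
    filter_upwards [hΩ.mem_nhds hx] with y hy using hfg y hy
  rw [(h1.iteratedFDeriv (𝕜 := ℝ) j).self_of_nhds]
  exact h.bd j x hx

/-- smoothness at a point of the open set. -/
theorem Cb.at (hΩ : IsOpen Ω) (h : Cb Λ Ω f) {x : X} (hx : x ∈ Ω) (j : ℕ) : ContDiffAt ℝ j f x :=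
  (h.smooth.contDiffAt (hΩ.mem_nhds hx)).of_le (by exact_mod_cast le_top)

theorem Cb.fd (hΩ : IsOpen Ω) (h : Cb Λ Ω f) : Cb (fun j => Λ (j + 1)) Ω (fderiv ℝ f) := by
  refine ⟨h.smooth.fderiv_of_isOpen hΩ (m := ∞) (by simp), fun j x hx => ?_⟩
  rw [norm_iteratedFDeriv_fderiv]
  exact h.bd (j + 1) x hx

theorem Cb.add (hΩ : IsOpen Ω) (hf : Cb Λ₁ Ω f) (hg : Cb Λ₂ Ω g) :
    Cb (fun j => Λ₁ j + Λ₂ j) Ω (fun x => f x + g x) := by
  refine ⟨hf.smooth.add hg.smooth, fun j x hx => ?_⟩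
  have e : iteratedFDeriv ℝ j (fun x => f x + g x) x = iteratedFDeriv ℝ j f x + iteratedFDeriv ℝ j g x :=
    iteratedFDeriv_add_apply (hf.at hΩ hx j) (hg.at hΩ hx j)
  rw [e]
  exact (norm_add_le _ _).trans (add_le_add (hf.bd j x hx) (hg.bd j x hx))

theorem Cb.sub (hΩ : IsOpen Ω) (hf : Cb Λ₁ Ω f) (hg : Cb Λ₂ Ω g) :
    Cb (fun j => Λ₁ j + Λ₂ j) Ω (fun x => f x - g x) := by
  refine ⟨hf.smooth.sub hg.smooth, fun j x hx => ?_⟩
  have e : iteratedFDeriv ℝ j (fun x => f x - g x) x = iteratedFDeriv ℝ j f x - iteratedFDeriv ℝ j g x :=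
    iteratedFDeriv_sub_apply (hf.at hΩ hx j) (hg.at hΩ hx j)
  rw [e]
  exact (norm_sub_le _ _).trans (add_le_add (hf.bd j x hx) (hg.bd j x hx))

theorem Cb.neg (hΩ : IsOpen Ω) (hf : Cb Λ Ω f) : Cb Λ Ω (fun x => - f x) := by
  refine ⟨hf.smooth.neg, fun j x hx => ?_⟩
  have e : iteratedFDeriv ℝ j (fun x => - f x) x = - iteratedFDeriv ℝ j f x :=
    iteratedFDeriv_neg_apply
  rw [e, norm_neg]
  exact hf.bd j x hx

/-- post-composition with a continuous linear map. -/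
theorem Cb.clm_post (hΩ : IsOpen Ω) (hf : Cb Λ Ω f) (T : Y →L[ℝ] Y₁) :
    Cb (fun j => ‖T‖ * Λ j) Ω (fun x => T (f x)) := by
  refine ⟨T.contDiff.comp_contDiffOn hf.smooth, fun j x hx => ?_⟩
  have e : iteratedFDeriv ℝ j (fun x => T (f x)) x
      = T.compContinuousMultilinearMap (iteratedFDeriv ℝ j f x) :=
    T.iteratedFDeriv_comp_left (hf.at hΩ hx j) le_rfl
  rw [e]
  exact (T.norm_compContinuousMultilinearMap_le _).trans
    (mul_le_mul_of_nonneg_left (hf.bd j x hx) (norm_nonneg _))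

/-- pre-composition with a continuous linear map. -/
theorem Cb.comp_clm (hΩ : IsOpen Ω) (hf : Cb Λ Ω f) {Ω' : Set X'} (hΩ' : IsOpen Ω') (π : X' →L[ℝ] X)
    (hπ : Set.MapsTo π Ω' Ω) : Cb (fun j => Λ j * ‖π‖ ^ j) Ω' (fun x => f (π x)) := by
  refine ⟨hf.smooth.comp π.contDiff.contDiffOn hπ, fun j x hx => ?_⟩
  have ho : IsOpen (π ⁻¹' Ω) := hΩ.preimage π.continuous
  have hx' : x ∈ π ⁻¹' Ω := hπ hx
  have e := π.iteratedFDerivWithin_comp_right (f := f) (n := ∞) hf.smooth hΩ.uniqueDiffOn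
    ho.uniqueDiffOn (x := x) (hπ hx) (i := j) (by exact_mod_cast le_top)
  rw [iteratedFDerivWithin_of_isOpen j ho hx', iteratedFDerivWithin_of_isOpen j hΩ (hπ hx)] at e
  have e' : iteratedFDeriv ℝ j (fun x => f (π x)) x
      = (iteratedFDeriv ℝ j f (π x)).compContinuousLinearMap fun _ => π := e
  rw [e']
  refine (ContinuousMultilinearMap.norm_compContinuousLinearMap_le _ _).trans ?_
  rw [Finset.prod_const, Finset.card_univ, Fintype.card_fin]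
  exact mul_le_mul_of_nonneg_right (hf.bd j _ (hπ hx)) (by positivity)

/-- bilinear pairings. -/
theorem Cb.bilin (hΩ : IsOpen Ω) {f₁ : X → Y₁} {f₂ : X → Y₂} (h₁ : Cb Λ₁ Ω f₁) (h₂ : Cb Λ₂ Ω f₂)
    (Bm : Y₁ →L[ℝ] Y₂ →L[ℝ] Y₃) :
    Cb (fun n => ‖Bm‖ * ∑ i ∈ Finset.range (n + 1), (n.choose i : ℝ) * Λ₁ i * Λ₂ (n - i)) Ω
      (fun x => Bm (f₁ x) (f₂ x)) := by
  refine ⟨Bm.isBoundedBilinearMap.contDiff.comp_contDiffOn (h₁.smooth.prodMk h₂.smooth),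
    fun n x hx => ?_⟩
  have h := Bm.norm_iteratedFDerivWithin_le_of_bilinear h₁.smooth h₂.smooth hΩ.uniqueDiffOn hx
    (n := n) (by exact_mod_cast le_top)
  rw [iteratedFDerivWithin_of_isOpen n hΩ hx] at h
  refine h.trans (mul_le_mul_of_nonneg_left (Finset.sum_le_sum fun i _ => ?_) (norm_nonneg Bm))
  rw [iteratedFDerivWithin_of_isOpen i hΩ hx, iteratedFDerivWithin_of_isOpen (n - i) hΩ hx]
  have a1 := h₁.bd i x hx
  have a2 := h₂.bd (n - i) x hx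
  have a0 : (0 : ℝ) ≤ (n.choose i : ℝ) := Nat.cast_nonneg _
  exact mul_le_mul (mul_le_mul_of_nonneg_left a1 a0) a2 (norm_nonneg _)
    (mul_nonneg a0 ((norm_nonneg _).trans a1))

/-- pairs. -/
theorem Cb.prodMk (hΩ : IsOpen Ω) {f₁ : X → Y₁} {f₂ : X → Y₂} (h₁ : Cb Λ₁ Ω f₁) (h₂ : Cb Λ₂ Ω f₂) :
    Cb (fun j => Λ₁ j + Λ₂ j) Ω (fun x => (f₁ x, f₂ x)) := by
  have h := (h₁.clm_post hΩ (ContinuousLinearMap.inl ℝ Y₁ Y₂)).add hΩ
    (h₂.clm_post hΩ (ContinuousLinearMap.inr ℝ Y₁ Y₂))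
  have e : (fun x => (ContinuousLinearMap.inl ℝ Y₁ Y₂) (f₁ x) + (ContinuousLinearMap.inr ℝ Y₁ Y₂) (f₂ x))
      = fun x => (f₁ x, f₂ x) := by
    funext x
    simp
  rw [e] at h
  refine ⟨h.smooth, fun j x hx => (h.bd j x hx).trans ?_⟩
  have a1 : 0 ≤ Λ₁ j := (norm_nonneg _).trans (h₁.bd j x hx)
  have a2 : 0 ≤ Λ₂ j := (norm_nonneg _).trans (h₂.bd j x hx)
  have b1 : ‖ContinuousLinearMap.inl ℝ Y₁ Y₂‖ * Λ₁ j ≤ 1 * Λ₁ j :=
    mul_le_mul_of_nonneg_right (ContinuousLinearMap.norm_inl_le_one ℝ Y₁ Y₂) a1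
  have b2 : ‖ContinuousLinearMap.inr ℝ Y₁ Y₂‖ * Λ₂ j ≤ 1 * Λ₂ j :=
    mul_le_mul_of_nonneg_right (ContinuousLinearMap.norm_inr_le_one ℝ Y₁ Y₂) a2
  linarith

/-- a continuous linear map which is bounded by `ρ` on `Ω`. -/
theorem pk_cb_clm (T : X →L[ℝ] Y) {ρ : ℝ} (hρ : ∀ x ∈ Ω, ‖T x‖ ≤ ρ) :
    Cb (fun j => if j = 0 then ρ else ‖T‖) Ω (fun x => T x) := by
  refine ⟨T.contDiff.contDiffOn, fun j x hx => ?_⟩
  cases j with
  | zero =>
    rw [norm_iteratedFDeriv_zero]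
    simpa using hρ x hx
  | succ n =>
    rw [if_neg (Nat.succ_ne_zero n), ← norm_iteratedFDeriv_fderiv]
    have e : fderiv ℝ (fun x => T x) = fun _ => T := by
      funext y
      exact T.fderiv
    rw [e]
    rcases Nat.eq_zero_or_pos n with rfl | hn
    · rw [norm_iteratedFDeriv_zero]
    · rw [iteratedFDeriv_const_of_ne hn.ne']
      simp

theorem pk_cb_const (c : Y) : Cb (fun _ => ‖c‖) Ω (fun _ : X => c) := by
  refine ⟨contDiffOn_const, fun j x _ => ?_⟩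
  rcases Nat.eq_zero_or_pos j with rfl | hj
  · rw [norm_iteratedFDeriv_zero]
  · rw [iteratedFDeriv_const_of_ne hj.ne']
    simp

/-- from a bound of `f` and bounds of all derivatives of `Df` to bounds of `f`. -/
theorem pk_cb_of_fderiv (hΩ : IsOpen Ω) {K : ℝ} (hd : DifferentiableOn ℝ f Ω) (h0 : ∀ x ∈ Ω, ‖f x‖ ≤ K)
    (h : Cb Λ Ω (fderiv ℝ f)) : Cb (fun j => if j = 0 then K else Λ (j - 1)) Ω f := by
  refine ⟨(contDiffOn_infty_iff_fderiv_of_isOpen hΩ).2 ⟨hd, h.smooth⟩, fun j x hx => ?_⟩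
  cases j with
  | zero =>
    rw [norm_iteratedFDeriv_zero]
    simpa using h0 x hx
  | succ n =>
    rw [if_neg (Nat.succ_ne_zero n), ← norm_iteratedFDeriv_fderiv]
    simpa using h.bd n x hx

/-- the chain rule for maps with bounds on all derivatives. -/
theorem Cb.comp {Ω' : Set Y} (hΩ : IsOpen Ω) (hΩ' : IsOpen Ω') {f : X → Y} {g : Y → Y₁}
    {Λf Λg : ℕ → ℝ} (hf : Cb Λf Ω f) (hg : Cb Λg Ω' g) (hm : MapsTo f Ω Ω') :
    Cb (fun k => k ! * (∑ i ∈ Finset.range (k + 1), Λg i) *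
      (1 + ∑ i ∈ Finset.range (k + 1), Λf i) ^ k) Ω (fun x => g (f x)) := by
  refine ⟨hg.smooth.comp hf.smooth hm, fun k x hx => ?_⟩
  have hg0 : ∀ i, 0 ≤ Λg i := fun i => (norm_nonneg _).trans (hg.bd i (f x) (hm hx))
  have hf0 : ∀ i, 0 ≤ Λf i := fun i => (norm_nonneg _).trans (hf.bd i x hx)
  have h := norm_iteratedFDerivWithin_comp_le (n := k) (N := ∞) hg.smooth hf.smooth
    (by exact_mod_cast le_top) hΩ'.uniqueDiffOn hΩ.uniqueDiffOn hm hx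
    (C := ∑ i ∈ Finset.range (k + 1), Λg i) (D := 1 + ∑ i ∈ Finset.range (k + 1), Λf i)
    (by
      intro i hi
      rw [iteratedFDerivWithin_of_isOpen i hΩ' (hm hx)]
      exact (hg.bd i _ (hm hx)).trans (Finset.single_le_sum (f := Λg) (fun j _ => hg0 j)
        (Finset.mem_range.2 (Nat.lt_succ_of_le hi))))
    (by
      intro i hi1 hi
      rw [iteratedFDerivWithin_of_isOpen i hΩ hx]
      have h1 : Λf i ≤ ∑ i ∈ Finset.range (k + 1), Λf i :=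
        Finset.single_le_sum (f := Λf) (fun j _ => hf0 j) (Finset.mem_range.2 (Nat.lt_succ_of_le hi))
      have h2 : 0 ≤ ∑ i ∈ Finset.range (k + 1), Λf i := Finset.sum_nonneg fun j _ => hf0 j
      have h3 : (1 : ℝ) ≤ 1 + ∑ i ∈ Finset.range (k + 1), Λf i := by linarith
      calc _ ≤ Λf i := hf.bd i x hx
        _ ≤ 1 + ∑ i ∈ Finset.range (k + 1), Λf i := by linarith
        _ ≤ _ := le_self_pow₀ h3 (by omega))
  rw [iteratedFDerivWithin_of_isOpen k hΩ hx] at h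
  exact h

/-- directional derivatives. -/
theorem Cb.fd_apply (hΩ : IsOpen Ω) (hf : Cb Λ Ω f) (v : X) :
    Cb (fun j => ‖v‖ * Λ (j + 1)) Ω (fun x => fderiv ℝ f x v) := by
  have h := (hf.fd hΩ).clm_post hΩ (ContinuousLinearMap.apply ℝ Y v)
  refine ⟨h.smooth, fun j x hx => (h.bd j x hx).trans ?_⟩
  have h0 : 0 ≤ Λ (j + 1) := (norm_nonneg _).trans (hf.bd (j + 1) x hx)
  refine mul_le_mul_of_nonneg_right ?_ h0
  refine ContinuousLinearMap.opNorm_le_bound _ (norm_nonneg v) fun T => ?_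
  simpa [mul_comm] using T.le_opNorm v

/-- translation of the variable. -/
theorem Cb.comp_add (hf : Cb Λ Ω f) (a : X) : Cb Λ {x | a + x ∈ Ω} (fun x => f (a + x)) := by
  refine ⟨hf.smooth.comp (contDiff_const.add contDiff_id).contDiffOn fun x hx => hx, fun j x hx => ?_⟩
  rw [iteratedFDeriv_comp_add_left]
  exact hf.bd j _ hx

/-- negative powers on a half line away from zero. -/
theorem pk_cb_rpow {a r : ℝ} (ha : 0 < a) (hr : r ≤ 0) :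
    Cb (fun k : ℕ => |(descPochhammer ℝ k).eval r| * a ^ (r - k)) (Ioi a) (fun s : ℝ => s ^ r) := by
  refine ⟨fun s hs => (Real.contDiffAt_rpow_const_of_ne (ha.trans hs).ne').contDiffWithinAt, fun k s hs => ?_⟩
  have hs0 : 0 < s := ha.trans hs
  rw [norm_iteratedFDeriv_eq_norm_iteratedDeriv, iteratedDeriv_eq_iterate, Real.iter_deriv_rpow_const,
    norm_mul, Real.norm_eq_abs, Real.norm_eq_abs, abs_of_nonneg (Real.rpow_nonneg hs0.le _)]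
  refine mul_le_mul_of_nonneg_left ?_ (abs_nonneg _)
  exact Real.rpow_le_rpow_of_nonpos ha (le_of_lt hs) (by
    have : (0 : ℝ) ≤ k := Nat.cast_nonneg k
    linarith)

/-- products of complex valued maps. -/
theorem Cb.mul (hΩ : IsOpen Ω) {f₁ f₂ : X → ℂ} (h₁ : Cb Λ₁ Ω f₁) (h₂ : Cb Λ₂ Ω f₂) :
    Cb (fun n => ∑ i ∈ Finset.range (n + 1), (n.choose i : ℝ) * Λ₁ i * Λ₂ (n - i)) Ω (fun x => f₁ x * f₂ x) := by
  have h := h₁.bilin hΩ h₂ (ContinuousLinearMap.mul ℝ ℂ)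
  refine ⟨h.smooth, fun n x hx => (h.bd n x hx).trans ?_⟩
  have h0 : 0 ≤ ∑ i ∈ Finset.range (n + 1), (n.choose i : ℝ) * Λ₁ i * Λ₂ (n - i) :=
    Finset.sum_nonneg fun i _ => mul_nonneg (mul_nonneg (Nat.cast_nonneg _)
      ((norm_nonneg _).trans (h₁.bd i x hx))) ((norm_nonneg _).trans (h₂.bd (n - i) x hx))
  calc _ ≤ 1 * ∑ i ∈ Finset.range (n + 1), (n.choose i : ℝ) * Λ₁ i * Λ₂ (n - i) :=
        mul_le_mul_of_nonneg_right (ContinuousLinearMap.opNorm_mul_le ℝ ℂ) h0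
    _ = _ := one_mul _

/-- products of real valued maps. -/
theorem Cb.rmul (hΩ : IsOpen Ω) {f₁ f₂ : X → ℝ} (h₁ : Cb Λ₁ Ω f₁) (h₂ : Cb Λ₂ Ω f₂) :
    Cb (fun n => ∑ i ∈ Finset.range (n + 1), (n.choose i : ℝ) * Λ₁ i * Λ₂ (n - i)) Ω (fun x => f₁ x * f₂ x) := by
  have h := h₁.bilin hΩ h₂ (ContinuousLinearMap.mul ℝ ℝ)
  refine ⟨h.smooth, fun n x hx => (h.bd n x hx).trans ?_⟩
  have h0 : 0 ≤ ∑ i ∈ Finset.range (n + 1), (n.choose i : ℝ) * Λ₁ i * Λ₂ (n - i) :=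
    Finset.sum_nonneg fun i _ => mul_nonneg (mul_nonneg (Nat.cast_nonneg _)
      ((norm_nonneg _).trans (h₁.bd i x hx))) ((norm_nonneg _).trans (h₂.bd (n - i) x hx))
  calc _ ≤ 1 * ∑ i ∈ Finset.range (n + 1), (n.choose i : ℝ) * Λ₁ i * Λ₂ (n - i) :=
        mul_le_mul_of_nonneg_right (ContinuousLinearMap.opNorm_mul_le ℝ ℝ) h0
    _ = _ := one_mul _

/-- real valued maps as complex valued maps. -/
theorem Cb.ofReal (hΩ : IsOpen Ω) {f : X → ℝ} (h : Cb Λ Ω f) : Cb Λ Ω (fun x => ((f x : ℝ) : ℂ)) := by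
  have h1 := h.clm_post hΩ Complex.ofRealCLM
  refine ⟨h1.smooth, fun n x hx => (h1.bd n x hx).trans ?_⟩
  rw [Complex.ofRealCLM_norm, one_mul]

/-- multiplication by a real constant. -/
theorem Cb.const_smul (hΩ : IsOpen Ω) (h : Cb Λ Ω f) (t : ℝ) : Cb (fun j => |t| * Λ j) Ω (fun x => t • f x) := by
  have h1 := h.clm_post hΩ (t • ContinuousLinearMap.id ℝ Y)
  refine ⟨h1.smooth, fun n x hx => (h1.bd n x hx).trans ?_⟩
  have h0 : 0 ≤ Λ n := (norm_nonneg _).trans (h.bd n x hx)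
  refine mul_le_mul_of_nonneg_right ?_ h0
  rw [norm_smul, Real.norm_eq_abs]
  calc |t| * ‖ContinuousLinearMap.id ℝ Y‖ ≤ |t| * 1 :=
        mul_le_mul_of_nonneg_left ContinuousLinearMap.norm_id_le (abs_nonneg t)
    _ = |t| := mul_one _

/-- complex conjugation. -/
theorem Cb.conj (hΩ : IsOpen Ω) {f : X → ℂ} (h : Cb Λ Ω f) : Cb Λ Ω (fun x => (starRingEnd ℂ) (f x)) := by
  have h1 := h.clm_post hΩ (Complex.conjCLE : ℂ →L[ℝ] ℂ)
  refine ⟨h1.smooth, fun n x hx => (h1.bd n x hx).trans ?_⟩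
  rw [Complex.conjCLE_norm, one_mul]

end Claimed.Agent.R255
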