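import Mathlib

/-!
# R255 / Pk / Mono : TOOL T4 = A STRONGLY MONOTONE LIPSCHITZ MAP OF A HILBERT SPACE IS BIJECTIVE      (architect helper91)

PLAN.  Injective: `a0 ‖p-q‖² ≤ ⟪F p - F q, p - q⟫ = 0`.   Surjective: for `y`, `T p = p - τ (F p - y)`, `τ = a0 / a1²` (note `a0 ≤ a1`; if the space is trivial everything is trivial):
 `‖T p - T q‖² = ‖p-q‖² - 2τ⟪F p - F q, p-q⟫ + τ²‖F p - F q‖² ≤ (1 - 2τ a0 + τ² a1²)‖p-q‖² = (1 - a0²/a1²)‖p-q‖²`;  `ContractingWith.exists_fixedPoint'` / `ContractingWith.fixedPoint`.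
-/

set_option autoImplicit false

namespace Claimed.Agent.R255

open scoped InnerProductSpace

/-- **T4**. -/
theorem pk_mono_bijective {H : Type} [NormedAddCommGroup H] [InnerProductSpace ℝ H] [CompleteSpace H] {F : H → H} {a0 a1 : ℝ}
    (h0 : 0 < a0) (hmono : ∀ p q, a0 * ‖p - q‖ ^ 2 ≤ ⟪F p - F q, p - q⟫_ℝ) (hlip : ∀ p q, ‖F p - F q‖ ≤ a1 * ‖p - q‖) :
    Function.Bijective F := by
  have hlow : ∀ p q, a0 * ‖p - q‖ ≤ ‖F p - F q‖ := by
    intro p q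
    have h1 := hmono p q
    have h2 := real_inner_le_norm (F p - F q) (p - q)
    rcases eq_or_lt_of_le (norm_nonneg (p - q)) with h0' | h0'
    · rw [← h0', mul_zero]
      exact norm_nonneg _
    · have h3 : a0 * ‖p - q‖ * ‖p - q‖ ≤ ‖F p - F q‖ * ‖p - q‖ := by nlinarith
      exact le_of_mul_le_mul_right h3 h0'
  have hinj : Function.Injective F := by
    intro p q hpq
    have h1 := hlow p q
    rw [hpq, sub_self, norm_zero] at h1
    have h2 : ‖p - q‖ ≤ 0 := by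
      by_contra hne
      have : 0 < a0 * ‖p - q‖ := mul_pos h0 (not_le.1 hne)
      linarith
    exact sub_eq_zero.1 (norm_le_zero_iff.1 h2)
  refine ⟨hinj, ?_⟩
  rcases subsingleton_or_nontrivial H with hsub | hnt
  · intro y
    exact ⟨y, Subsingleton.elim _ _⟩
  obtain ⟨p0, q0, hpq0⟩ := exists_pair_ne H
  have hn0 : 0 < ‖p0 - q0‖ := norm_pos_iff.2 (sub_ne_zero.2 hpq0)
  have ha01 : a0 ≤ a1 := by
    have h1 := (hlow p0 q0).trans (hlip p0 q0)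
    exact le_of_mul_le_mul_right h1 hn0
  have ha1 : 0 < a1 := lt_of_lt_of_le h0 ha01
  intro y
  obtain ⟨τ, hτ⟩ : ∃ τ : ℝ, τ = a0 / a1 ^ 2 := ⟨_, rfl⟩
  have hτ0 : 0 < τ := by rw [hτ]; positivity
  obtain ⟨κ, hκ⟩ : ∃ κ : ℝ, κ = 1 - a0 ^ 2 / a1 ^ 2 := ⟨_, rfl⟩
  have hκ0 : 0 ≤ κ := by
    rw [hκ, sub_nonneg, div_le_one (by positivity)]
    exact pow_le_pow_left₀ h0.le ha01 2
  have hκ1 : κ < 1 := by
    rw [hκ]
    have : 0 < a0 ^ 2 / a1 ^ 2 := by positivity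
    linarith
  obtain ⟨T, hT⟩ : ∃ T : H → H, ∀ p, T p = p - τ • (F p - y) := ⟨_, fun _ => rfl⟩
  have hsq : ∀ p q, ‖T p - T q‖ ^ 2 ≤ κ * ‖p - q‖ ^ 2 := by
    intro p q
    have e1 : T p - T q = (p - q) - τ • (F p - F q) := by
      rw [hT, hT, smul_sub, smul_sub, smul_sub]
      abel
    rw [e1, norm_sub_sq_real, inner_smul_right, norm_smul, Real.norm_eq_abs, abs_of_pos hτ0,
      real_inner_comm]
    have h1 := hmono p q
    have h2 := hlip p q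
    have h3 : ‖F p - F q‖ ^ 2 ≤ (a1 * ‖p - q‖) ^ 2 := pow_le_pow_left₀ (norm_nonneg _) h2 2
    have h4 : (τ * ‖F p - F q‖) ^ 2 ≤ τ ^ 2 * (a1 * ‖p - q‖) ^ 2 := by
      rw [mul_pow]
      exact mul_le_mul_of_nonneg_left h3 (by positivity)
    have h5 : τ * (a0 * ‖p - q‖ ^ 2) ≤ τ * ⟪F p - F q, p - q⟫_ℝ := mul_le_mul_of_nonneg_left h1 hτ0.le
    have e2 : κ * ‖p - q‖ ^ 2 = ‖p - q‖ ^ 2 - 2 * (τ * (a0 * ‖p - q‖ ^ 2)) + τ ^ 2 * (a1 * ‖p - q‖) ^ 2 := by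
      rw [hκ, hτ]
      field_simp
      ring
    rw [e2]
    linarith
  have hlipT : LipschitzWith (Real.toNNReal (Real.sqrt κ)) T := by
    refine LipschitzWith.of_dist_le_mul fun p q => ?_
    rw [dist_eq_norm, dist_eq_norm, Real.coe_toNNReal _ (Real.sqrt_nonneg _)]
    have h1 := Real.sqrt_le_sqrt (hsq p q)
    rw [Real.sqrt_sq (norm_nonneg _), Real.sqrt_mul hκ0, Real.sqrt_sq (norm_nonneg _)] at h1
    exact h1
  have hcontr : ContractingWith (Real.toNNReal (Real.sqrt κ)) T := by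
    refine ⟨?_, hlipT⟩
    rw [← NNReal.coe_lt_coe, Real.coe_toNNReal _ (Real.sqrt_nonneg _), NNReal.coe_one]
    rw [Real.sqrt_lt' (by norm_num)]
    simpa using hκ1
  have hfix := hcontr.fixedPoint_isFixedPt
  obtain ⟨p, hp⟩ : ∃ p, p = ContractingWith.fixedPoint T hcontr := ⟨_, rfl⟩
  rw [← hp] at hfix
  refine ⟨p, ?_⟩
  have h1 : T p = p := hfix
  rw [hT, sub_eq_self, smul_eq_zero] at h1
  rcases h1 with h1 | h1
  · exact absurd h1 hτ0.ne'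
  · exact sub_eq_zero.1 h1

/-- lower Lipschitz bound. -/
theorem pk_mono_lower {H : Type} [NormedAddCommGroup H] [InnerProductSpace ℝ H] {F : H → H} {a0 : ℝ}
    (hmono : ∀ p q, a0 * ‖p - q‖ ^ 2 ≤ ⟪F p - F q, p - q⟫_ℝ) (p q : H) : a0 * ‖p - q‖ ≤ ‖F p - F q‖ := by
  have h1 := hmono p q
  have h2 := real_inner_le_norm (F p - F q) (p - q)
  rcases eq_or_lt_of_le (norm_nonneg (p - q)) with h0 | h0
  · rw [← h0, mul_zero]
    exact norm_nonneg _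
  · have h3 : a0 * ‖p - q‖ * ‖p - q‖ ≤ ‖F p - F q‖ * ‖p - q‖ := by nlinarith
    exact le_of_mul_le_mul_right h3 h0

end Claimed.Agent.R255
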