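import Claimed.Agent.R255.Pk.Cb
import Claimed.Agent.R255.Pk.Mono
import Claimed.Agent.R255.Osc.Contract

/-!
# R255 / Pk / Zeta : PK0 = ELEMENTARY CONSEQUENCES OF THE PHASE CLASS `Osc.IsPhase`      (architect helper91)

`ζ(v,·)` is strongly monotone (up to the sign `pkSg`), Lipschitz, bijective; `dpZ ζ` is `Cb K.A univ`; fundamental theorem of calculus along segments.
PLAN.  `pk_dpZ_eq`: `dpZ ζ q = (fderiv ℝ (fun q => ζ q.1 q.2) q).comp (ContinuousLinearMap.inr ℝ E2 E2)` (chain rule for `p ↦ (v,p)`), hence smooth.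
 `pk_zeta_mono`: `k(s) = sg ⟪ζ v (q + s (p - q)), p - q⟫` has `k' = sg ⟪dpZ (…) (p-q), p-q⟫ ≥ a0 |p-q|²`; mean value inequality on `[0,1]` (`Convex.mul_sub_le_image_sub_of_le_deriv` / `image_sub_le…`), or integrate `pk_zeta_sub`.
 `pk_zeta_lip`: `Convex.norm_image_sub_le_of_norm_hasFDerivWithin_le` with `‖dpZ ζ q‖ ≤ K.A 0` (`norm_iteratedFDeriv_zero`).
 `pk_zeta_bij`: `pk_mono_bijective` applied to `sg • ζ v`.    `pk_zeta_sub`: `intervalIntegral.integral_eq_sub_of_hasDerivAt`.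
-/

set_option autoImplicit false

namespace Claimed.Agent.R255

open Metric Set Osc
open scoped ContDiff InnerProductSpace

variable {K : OscBd} {Φ : ℝ → E2 → E2 → ℝ} {ζ : E2 → E2 → E2}

/-- the sign of the phase -/
noncomputable def pkSg (h : IsPhase K Φ ζ) : ℝ := Classical.choose h.definite

theorem pk_sg_cases (h : IsPhase K Φ ζ) : pkSg h = 1 ∨ pkSg h = -1 := (Classical.choose_spec h.definite).1

theorem pk_sg_lower (h : IsPhase K Φ ζ) (q : E2 × E2) (a : E2) : K.a0 * ‖a‖ ^ 2 ≤ pkSg h * ⟪dpZ ζ q a, a⟫_ℝ :=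
  ((Classical.choose_spec h.definite).2 q a).1

theorem pk_zeta_hasFDerivAt_aux (h : IsPhase K Φ ζ) (q : E2 × E2) :
    HasFDerivAt (ζ q.1) ((fderiv ℝ (fun q : E2 × E2 => ζ q.1 q.2) q).comp (ContinuousLinearMap.inr ℝ E2 E2)) q.2 := by
  have h1 : HasFDerivAt (fun q : E2 × E2 => ζ q.1 q.2) (fderiv ℝ (fun q : E2 × E2 => ζ q.1 q.2) q) (q.1, q.2) :=
    ((h.smooth.differentiable (by simp)) q).hasFDerivAt
  exact h1.comp q.2 (hasFDerivAt_prodMk_right q.1 q.2)

theorem pk_dpZ_eq (h : IsPhase K Φ ζ) (q : E2 × E2) :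
    dpZ ζ q = (fderiv ℝ (fun q : E2 × E2 => ζ q.1 q.2) q).comp (ContinuousLinearMap.inr ℝ E2 E2) :=
  (pk_zeta_hasFDerivAt_aux h q).fderiv

theorem pk_zeta_hasFDerivAt (h : IsPhase K Φ ζ) (v p : E2) : HasFDerivAt (ζ v) (dpZ ζ (v, p)) p := by
  rw [pk_dpZ_eq h]
  exact pk_zeta_hasFDerivAt_aux h (v, p)

theorem pk_dpZ_contDiff (h : IsPhase K Φ ζ) : ContDiff ℝ ∞ (dpZ ζ) := by
  have e : dpZ ζ = fun q => ((ContinuousLinearMap.compL ℝ E2 (E2 × E2) E2).flip (ContinuousLinearMap.inr ℝ E2 E2))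
      (fderiv ℝ (fun q : E2 × E2 => ζ q.1 q.2) q) := by
    funext q
    rw [pk_dpZ_eq h]
    rfl
  rw [e]
  exact (ContinuousLinearMap.contDiff _).comp (h.smooth.fderiv_right (m := ∞) (by simp))

theorem pk_dpZ_cb (h : IsPhase K Φ ζ) : Cb K.A univ (dpZ ζ) :=
  ⟨(pk_dpZ_contDiff h).contDiffOn, fun j q _ => h.bound j q⟩

theorem pk_dpZ_norm_le (h : IsPhase K Φ ζ) (q : E2 × E2) : ‖dpZ ζ q‖ ≤ K.A 0 := by
  have := h.bound 0 q
  rwa [norm_iteratedFDeriv_zero] at this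

theorem pk_zeta_seg_continuous (h : IsPhase K Φ ζ) (v p q : E2) :
    Continuous (fun s : ℝ => dpZ ζ (v, q + s • (p - q)) (p - q)) := by
  have h1 : Continuous (fun s : ℝ => dpZ ζ (v, q + s • (p - q))) :=
    (pk_dpZ_contDiff h).continuous.comp (by fun_prop)
  exact h1.clm_apply continuous_const

theorem pk_zeta_sub (h : IsPhase K Φ ζ) (v p q : E2) :
    ζ v p - ζ v q = ∫ s in (0 : ℝ)..1, dpZ ζ (v, q + s • (p - q)) (p - q) := by
  have hd : ∀ s ∈ uIcc (0 : ℝ) 1, HasDerivAt (fun s : ℝ => ζ v (q + s • (p - q)))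
      (dpZ ζ (v, q + s • (p - q)) (p - q)) s := by
    intro s _
    have h1 : HasDerivAt (fun s : ℝ => q + s • (p - q)) (p - q) s := by
      have h2 : HasDerivAt (fun s : ℝ => s • (p - q)) ((1 : ℝ) • (p - q)) s := (hasDerivAt_id s).smul_const (p - q)
      rw [one_smul] at h2
      exact h2.const_add q
    exact (pk_zeta_hasFDerivAt h v (q + s • (p - q))).comp_hasDerivAt s h1
  rw [intervalIntegral.integral_eq_sub_of_hasDerivAt hd ((pk_zeta_seg_continuous h v p q).intervalIntegrable _ _)]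
  simp

theorem pk_zeta_mono (h : IsPhase K Φ ζ) (v p q : E2) : K.a0 * ‖p - q‖ ^ 2 ≤ pkSg h * ⟪ζ v p - ζ v q, p - q⟫_ℝ := by
  have hc := pk_zeta_seg_continuous h v p q
  have e1 : ⟪ζ v p - ζ v q, p - q⟫_ℝ = ∫ s in (0 : ℝ)..1, ⟪dpZ ζ (v, q + s • (p - q)) (p - q), p - q⟫_ℝ := by
    rw [pk_zeta_sub h v p q, real_inner_comm]
    have := (innerSL ℝ (p - q)).intervalIntegral_comp_comm (hc.intervalIntegrable (μ := MeasureTheory.volume) 0 1)
    simp only [innerSL_apply_apply] at this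
    rw [← this]
    refine intervalIntegral.integral_congr fun s _ => ?_
    exact real_inner_comm _ _
  rw [e1, ← intervalIntegral.integral_const_mul]
  have hc2 : Continuous (fun s : ℝ => pkSg h * ⟪dpZ ζ (v, q + s • (p - q)) (p - q), p - q⟫_ℝ) :=
    continuous_const.mul (hc.inner continuous_const)
  have h2 : ∫ _s in (0 : ℝ)..1, K.a0 * ‖p - q‖ ^ 2 ≤
      ∫ s in (0 : ℝ)..1, pkSg h * ⟪dpZ ζ (v, q + s • (p - q)) (p - q), p - q⟫_ℝ :=
    intervalIntegral.integral_mono_on zero_le_one (continuous_const.intervalIntegrable _ _)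
      (hc2.intervalIntegrable _ _) fun s _ => pk_sg_lower h _ _
  simpa using h2

theorem pk_zeta_lip (h : IsPhase K Φ ζ) (v p q : E2) : ‖ζ v p - ζ v q‖ ≤ K.A 0 * ‖p - q‖ := by
  refine Convex.norm_image_sub_le_of_norm_fderiv_le (𝕜 := ℝ) (s := univ)
    (fun x _ => (pk_zeta_hasFDerivAt h v x).differentiableAt) (fun x _ => ?_) convex_univ (mem_univ q) (mem_univ p)
  rw [(pk_zeta_hasFDerivAt h v x).fderiv]
  exact pk_dpZ_norm_le h _

theorem pk_sg_abs (h : IsPhase K Φ ζ) : |pkSg h| = 1 := by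
  rcases pk_sg_cases h with h1 | h1 <;> rw [h1] <;> simp

theorem pk_zeta_mono_smul (h : IsPhase K Φ ζ) (v p q : E2) :
    K.a0 * ‖p - q‖ ^ 2 ≤ ⟪pkSg h • ζ v p - pkSg h • ζ v q, p - q⟫_ℝ := by
  rw [← smul_sub, real_inner_smul_left]
  exact pk_zeta_mono h v p q

theorem pk_zeta_lower (h : IsPhase K Φ ζ) (v p q : E2) : K.a0 * ‖p - q‖ ≤ ‖ζ v p - ζ v q‖ := by
  have h1 := pk_mono_lower (F := fun p => pkSg h • ζ v p) (pk_zeta_mono_smul h v) p q
  rwa [← smul_sub, norm_smul, Real.norm_eq_abs, pk_sg_abs h, one_mul] at h1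

theorem pk_zeta_bij (h : IsPhase K Φ ζ) (h0 : 0 < K.a0) (v : E2) : Function.Bijective (ζ v) := by
  have h1 : Function.Bijective (fun p => pkSg h • ζ v p) := by
    refine pk_mono_bijective (a1 := K.A 0) h0 (pk_zeta_mono_smul h v) fun p q => ?_
    rw [← smul_sub, norm_smul, Real.norm_eq_abs, pk_sg_abs h, one_mul]
    exact pk_zeta_lip h v p q
  have hs : pkSg h ≠ 0 := by
    intro h2
    have := pk_sg_abs h
    rw [h2] at this
    simp at this
  have e : ζ v = (fun y : E2 => (pkSg h)⁻¹ • y) ∘ (fun p => pkSg h • ζ v p) := by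
    funext p
    simp [smul_smul, inv_mul_cancel₀ hs]
  rw [e]
  refine Function.Bijective.comp ?_ h1
  exact (MulAction.bijective₀ (inv_ne_zero hs) : Function.Bijective fun y : E2 => (pkSg h)⁻¹ • y)

end Claimed.Agent.R255
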