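import Claimed.Agent.R255.Pkt.Base
import Claimed.Agent.R255.Pk.Zeta

/-!
# R255 / Pk / RescAux : proofs of PK-RESCb, PK-RESCc (phase class, pairing, norm under the rescaling)      (helper151)
-/

set_option autoImplicit false

namespace Claimed.Agent.R255

open MeasureTheory Metric Set Osc Pkt
open scoped ContDiff InnerProductSpace

/-! ### affine change of variables on `E2` -/

theorem pkx_finrank : Module.finrank ℝ E2 = 2 := by simp

theorem pkx_integral_affine {G : Type} [NormedAddCommGroup G] [NormedSpace ℝ G] (F : E2 → G) (V : E2) {ρ : ℝ}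
    (hρ : 0 < ρ) : ∫ z, F (V + ρ • z) = (ρ ^ 2)⁻¹ • ∫ v, F v := by
  have h1 := Measure.integral_comp_smul (volume : Measure E2) (fun x => F (V + x)) ρ
  rw [pkx_finrank, integral_add_left_eq_self F V, abs_of_pos (by positivity)] at h1
  exact h1

theorem pkx_map_affine (V : E2) {ρ : ℝ} (hρ : 0 < ρ) :
    Measure.map (fun z : E2 => V + ρ • z) volume = ENNReal.ofReal ((ρ ^ 2)⁻¹) • (volume : Measure E2) := by
  have h1 : (fun z : E2 => V + ρ • z) = (fun x => V + x) ∘ (fun z => ρ • z) := rfl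
  rw [h1, ← Measure.map_map (measurable_const_add V) (measurable_const_smul ρ),
    Measure.map_addHaar_smul volume hρ.ne', pkx_finrank, abs_of_pos (by positivity), Measure.map_smul,
    map_add_left_eq_self]

theorem pkx_memLp_affine {h : E2 → ℂ} (hh : MemLp h 2 volume) (V : E2) {ρ : ℝ} (hρ : 0 < ρ) :
    MemLp (fun z : E2 => h (V + ρ • z)) 2 volume := by
  have hm : Measurable (fun z : E2 => V + ρ • z) := (measurable_const_smul ρ).const_add V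
  have h1 : MemLp h 2 (Measure.map (fun z : E2 => V + ρ • z) volume) := by
    rw [pkx_map_affine V hρ]
    exact hh.smul_measure ENNReal.ofReal_ne_top
  exact h1.comp_of_map hm.aemeasurable

/-! ### scales -/

variable (E : PEnv) (r bs Cr : ℝ) (VJ XJ : E2) (h : E2 → ℂ)

theorem pkx_lam (hε : 0 < E.ε) : (E.resc r bs Cr VJ XJ h).lam = E.lam * (E.ε ^ r * (E.ε ^ bs) ^ 2) := by
  show E.ε ^ (-(E.H - r - 2 * bs)) = E.ε ^ (-E.H) * (E.ε ^ r * (E.ε ^ bs) ^ 2)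
  rw [← Real.rpow_natCast (E.ε ^ bs) 2, ← Real.rpow_mul hε.le, ← Real.rpow_add hε, ← Real.rpow_add hε]
  congr 1
  push_cast
  ring

theorem pkx_rho (hε : 0 < E.ε) (t : ℝ) : (E.resc r bs Cr VJ XJ h).rho (t - r) = E.rho t / E.ε ^ bs := by
  show E.ε ^ ((E.H - r - 2 * bs - (t - r)) / 2) = E.ε ^ ((E.H - t) / 2) / E.ε ^ bs
  rw [← Real.rpow_sub hε]
  congr 1
  ring

/-! ### the pairing -/

theorem pkx_pairing (hε : 0 < E.ε) (t : ℝ) (s : Site) :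
    pairing (E.resc r bs Cr VJ XJ h).lam ((E.resc r bs Cr VJ XJ h).rho (t - r)) (E.rescΦ r bs Cr VJ XJ) (E.rescIn bs Cr VJ XJ h)
      (s.resc E.ε r bs Cr VJ XJ) = pairing E.lam (E.rho t) E.Φ h s := by
  have hs : 0 < E.ε ^ bs := Real.rpow_pos_of_pos hε bs
  have hc : 0 < E.ε ^ r := Real.rpow_pos_of_pos hε r
  have hρ : 0 < E.rho t := Real.rpow_pos_of_pos hε _
  rw [pkx_lam E r bs Cr VJ XJ h hε, pkx_rho E r bs Cr VJ XJ h hε]
  unfold pairing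
  set sv := E.ε ^ bs with hsv
  set sc := E.ε ^ r with hsc
  set ρ := E.rho t with hρdef
  set G : E2 → ℂ := fun v => h v * s.ψ (ρ⁻¹ • (v - s.V)) * Complex.exp (Complex.I * ((E.lam * E.Φ s.C s.X v : ℝ) : ℂ)) with hG
  have key : ∀ v' : E2, E.rescIn bs Cr VJ XJ h v' * (s.resc E.ε r bs Cr VJ XJ).ψ ((ρ / sv)⁻¹ • (v' - (s.resc E.ε r bs Cr VJ XJ).V)) *
      Complex.exp (Complex.I * ((E.lam * (sc * sv ^ 2) * E.rescΦ r bs Cr VJ XJ (s.resc E.ε r bs Cr VJ XJ).C (s.resc E.ε r bs Cr VJ XJ).X v' : ℝ) : ℂ))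
      = (sv : ℂ) * G (VJ + sv • v') := by
    intro v'
    have e1 : (ρ / sv)⁻¹ • (v' - (s.resc E.ε r bs Cr VJ XJ).V) = ρ⁻¹ • (VJ + sv • v' - s.V) := by
      show (ρ / sv)⁻¹ • (v' - sv⁻¹ • (s.V - VJ)) = ρ⁻¹ • (VJ + sv • v' - s.V)
      have : VJ + sv • v' - s.V = sv • (v' - sv⁻¹ • (s.V - VJ)) := by
        rw [smul_sub, smul_smul, mul_inv_cancel₀ hs.ne', one_smul]
        abel
      rw [this, smul_smul]
      congr 1
      field_simp
    have e2 : Cr + sc * (s.resc E.ε r bs Cr VJ XJ).C = s.C := by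
      show Cr + sc * ((s.C - Cr) / sc) = s.C
      field_simp
      ring
    have e2' : sc * (s.resc E.ε r bs Cr VJ XJ).C = s.C - Cr := by linarith
    have e3 : XJ + (sc * (s.resc E.ε r bs Cr VJ XJ).C) • VJ + (sc * sv) • (s.resc E.ε r bs Cr VJ XJ).X = s.X := by
      rw [e2']
      show XJ + (s.C - Cr) • VJ + (sc * sv) • ((sc * sv)⁻¹ • (s.X - XJ - (s.C - Cr) • VJ)) = s.X
      rw [smul_smul, mul_inv_cancel₀ (mul_pos hc hs).ne', one_smul]
      abel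
    have e4 : E.lam * (sc * sv ^ 2) * E.rescΦ r bs Cr VJ XJ (s.resc E.ε r bs Cr VJ XJ).C (s.resc E.ε r bs Cr VJ XJ).X v'
        = E.lam * E.Φ s.C s.X (VJ + sv • v') - E.lam * E.Φ Cr XJ (VJ + sv • v') := by
      show E.lam * (sc * sv ^ 2) * ((E.Φ (Cr + sc * (s.resc E.ε r bs Cr VJ XJ).C)
        (XJ + (sc * (s.resc E.ε r bs Cr VJ XJ).C) • VJ + (sc * sv) • (s.resc E.ε r bs Cr VJ XJ).X) (VJ + sv • v')
          - E.Φ Cr XJ (VJ + sv • v')) / (sc * sv ^ 2)) = _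
      rw [e2, e3]
      field_simp
    rw [e1, e4]
    show ((sv : ℝ) : ℂ) * h (VJ + sv • v') * Complex.exp (Complex.I * ((E.lam * E.Φ Cr XJ (VJ + sv • v') : ℝ) : ℂ)) *
      s.ψ (ρ⁻¹ • (VJ + sv • v' - s.V)) * _ = _
    simp only [hG]
    have e5 : Complex.exp (Complex.I * ((E.lam * E.Φ s.C s.X (VJ + sv • v') : ℝ) : ℂ)) =
        Complex.exp (Complex.I * ((E.lam * E.Φ Cr XJ (VJ + sv • v') : ℝ) : ℂ)) *
        Complex.exp (Complex.I * ((E.lam * E.Φ s.C s.X (VJ + sv • v') - E.lam * E.Φ Cr XJ (VJ + sv • v') : ℝ) : ℂ)) := by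
      rw [← Complex.exp_add]
      congr 1
      push_cast
      ring
    rw [e5]
    ring
  simp only [key]
  rw [integral_const_mul, pkx_integral_affine G VJ hs]
  rw [Complex.real_smul]
  push_cast
  have hs' : (sv : ℂ) ≠ 0 := by exact_mod_cast hs.ne'
  have hρ' : (ρ : ℂ) ≠ 0 := by exact_mod_cast hρ.ne'
  field_simp

theorem pkx_mass (hε : 0 < E.ε) (t : ℝ) (s : Site) :
    (E.resc r bs Cr VJ XJ h).m (t - r) (s.resc E.ε r bs Cr VJ XJ) = (E.withInput h).m t s := by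
  show ‖pairing (E.resc r bs Cr VJ XJ h).lam ((E.resc r bs Cr VJ XJ h).rho (t - r)) (E.rescΦ r bs Cr VJ XJ)
    (E.rescIn bs Cr VJ XJ h) (s.resc E.ε r bs Cr VJ XJ)‖ ^ 2 = ‖pairing E.lam (E.rho t) E.Φ h s‖ ^ 2
  rw [pkx_pairing E r bs Cr VJ XJ h hε]

theorem pkx_norm_rescIn (hε : 0 < E.ε) (v' : E2) :
    ‖E.rescIn bs Cr VJ XJ h v'‖ = E.ε ^ bs * ‖h (VJ + E.ε ^ bs • v')‖ := by
  have hs : 0 < E.ε ^ bs := Real.rpow_pos_of_pos hε bs
  show ‖((E.ε ^ bs : ℝ) : ℂ) * h (VJ + E.ε ^ bs • v') *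
    Complex.exp (Complex.I * ((E.lam * E.Φ Cr XJ (VJ + E.ε ^ bs • v') : ℝ) : ℂ))‖ = _
  rw [norm_mul, norm_mul, mul_comm Complex.I, Complex.norm_exp_ofReal_mul_I, mul_one, Complex.norm_real,
    Real.norm_of_nonneg hs.le]

theorem pkx_nrm2 (hε : 0 < E.ε) : (E.resc r bs Cr VJ XJ h).nrm2 = (E.withInput h).nrm2 := by
  have hs : 0 < E.ε ^ bs := Real.rpow_pos_of_pos hε bs
  show ∫ v' : E2, ‖E.rescIn bs Cr VJ XJ h v'‖ ^ 2 = ∫ v : E2, ‖h v‖ ^ 2
  simp only [pkx_norm_rescIn E bs Cr VJ XJ h hε, mul_pow]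
  rw [integral_const_mul, pkx_integral_affine (fun v => ‖h v‖ ^ 2) VJ hs, smul_eq_mul, ← mul_assoc,
    mul_inv_cancel₀ (by positivity), one_mul]

theorem pkx_memLp {K : OscBd} (hE : IsPhase K E.Φ E.ζ) (hε : 0 < E.ε) (hC : 0 ≤ Cr) (hh : MemLp h 2 volume) :
    MemLp (E.rescIn bs Cr VJ XJ h) 2 volume := by
  have hs : 0 < E.ε ^ bs := Real.rpow_pos_of_pos hε bs
  have h1 := pkx_memLp_affine hh VJ hs
  have hcΦ : Continuous (fun v => E.Φ Cr XJ v) :=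
    continuous_iff_continuousAt.2 fun v => (hE.grad Cr hC XJ v).continuousAt
  have hc2 : Continuous (fun v' : E2 => Complex.exp (Complex.I * ((E.lam * E.Φ Cr XJ (VJ + E.ε ^ bs • v') : ℝ) : ℂ))) := by
    have : Continuous (fun v' : E2 => E.Φ Cr XJ (VJ + E.ε ^ bs • v')) :=
      hcΦ.comp (continuous_const.add (continuous_const_smul _))
    exact Complex.continuous_exp.comp (continuous_const.mul
      (Complex.continuous_ofReal.comp (continuous_const.mul this)))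
  refine MemLp.of_le_mul (c := E.ε ^ bs) h1 ?_ (Filter.Eventually.of_forall fun v' => ?_)
  · exact (h1.aestronglyMeasurable.const_mul _).mul hc2.aestronglyMeasurable
  · rw [pkx_norm_rescIn E bs Cr VJ XJ h hε]

theorem pkx_supp (hε : 0 < E.ε) {R' : ℝ} (hh : ∀ v, h v ≠ 0 → ‖v - VJ‖ ≤ R' * E.ε ^ bs) (v' : E2)
    (hv : E.rescIn bs Cr VJ XJ h v' ≠ 0) : ‖v'‖ ≤ R' := by
  have hs : 0 < E.ε ^ bs := Real.rpow_pos_of_pos hε bs
  have h1 : h (VJ + E.ε ^ bs • v') ≠ 0 := by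
    intro h0
    apply hv
    show ((E.ε ^ bs : ℝ) : ℂ) * h (VJ + E.ε ^ bs • v') * _ = 0
    rw [h0, mul_zero, zero_mul]
  have h2 := hh _ h1
  rw [add_sub_cancel_left, norm_smul, Real.norm_of_nonneg hs.le, mul_comm] at h2
  exact le_of_mul_le_mul_right h2 hs

/-! ### the phase class -/

/-- the linear part of the change of variables `(v', p') ↦ (v, p)`. -/
noncomputable def pkxL (sv sx Cr : ℝ) : E2 × E2 →L[ℝ] E2 × E2 :=
  (sv • ContinuousLinearMap.fst ℝ E2 E2).prod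
    ((-(Cr * sv)) • ContinuousLinearMap.fst ℝ E2 E2 + sx • ContinuousLinearMap.snd ℝ E2 E2)

theorem pkxL_apply (sv sx Cr : ℝ) (q : E2 × E2) :
    pkxL sv sx Cr q = (sv • q.1, (-(Cr * sv)) • q.1 + sx • q.2) := rfl

theorem pkxL_norm {sv sx Cr : ℝ} (h0 : 0 ≤ sv) (h1 : sv ≤ 1) (k0 : 0 ≤ sx) (k1 : sx ≤ 1) (c0 : 0 ≤ Cr) (c1 : Cr ≤ 1) :
    ‖pkxL sv sx Cr‖ ≤ 2 := by
  refine ContinuousLinearMap.opNorm_le_bound _ (by norm_num) fun q => ?_
  rw [pkxL_apply]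
  have a1 : ‖q.1‖ ≤ ‖q‖ := norm_fst_le q
  have a2 : ‖q.2‖ ≤ ‖q‖ := norm_snd_le q
  have b1 : ‖sv • q.1‖ ≤ ‖q‖ := by
    rw [norm_smul, Real.norm_of_nonneg h0]
    exact (mul_le_of_le_one_left (norm_nonneg _) h1).trans a1
  have b2 : ‖(-(Cr * sv)) • q.1‖ ≤ ‖q‖ := by
    rw [norm_smul, norm_neg, Real.norm_of_nonneg (mul_nonneg c0 h0)]
    exact (mul_le_of_le_one_left (norm_nonneg _) (mul_le_one₀ c1 h0 h1)).trans a1
  have b3 : ‖sx • q.2‖ ≤ ‖q‖ := by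
    rw [norm_smul, Real.norm_of_nonneg k0]
    exact (mul_le_of_le_one_left (norm_nonneg _) k1).trans a2
  refine max_le (by linarith [norm_nonneg q]) ?_
  exact (norm_add_le _ _).trans (by linarith)

theorem pkx_grad_affine {f : E2 → ℝ} {g V v' : E2} {s : ℝ} (hf : HasGradientAt f g (V + s • v')) :
    HasGradientAt (fun w => f (V + s • w)) (s • g) v' := by
  rw [hasGradientAt_iff_hasFDerivAt] at hf ⊢
  have h1 : HasFDerivAt (fun w : E2 => V + s • w) (s • ContinuousLinearMap.id ℝ E2) v' :=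
    ((hasFDerivAt_id v').const_smul s).const_add V
  have h2 := hf.comp v' h1
  have e : (InnerProductSpace.toDual ℝ E2) (s • g) =
      ((InnerProductSpace.toDual ℝ E2) g).comp (s • ContinuousLinearMap.id ℝ E2) := by
    ext w
    simp
  rw [e]
  exact h2

theorem pkx_dpZ {K : OscBd} (hE : IsPhase K E.Φ E.ζ) (hε : 0 < E.ε) (q : E2 × E2) :
    dpZ (E.rescζ r bs Cr VJ XJ) q =
      dpZ E.ζ ((VJ, XJ - Cr • VJ) + pkxL (E.ε ^ bs) (E.ε ^ r * E.ε ^ bs) Cr q) := by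
  have hs : 0 < E.ε ^ bs := Real.rpow_pos_of_pos hε bs
  have hc : 0 < E.ε ^ r := Real.rpow_pos_of_pos hε r
  set sv := E.ε ^ bs with hsv
  set sx := E.ε ^ r * E.ε ^ bs with hsx
  have hx : 0 < sx := mul_pos hc hs
  have e0 : (VJ, XJ - Cr • VJ) + pkxL sv sx Cr q =
      (VJ + sv • q.1, XJ - Cr • (VJ + sv • q.1) + sx • q.2) := by
    rw [pkxL_apply]
    ext1
    · rfl
    · show XJ - Cr • VJ + ((-(Cr * sv)) • q.1 + sx • q.2) = XJ - Cr • (VJ + sv • q.1) + sx • q.2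
      rw [smul_add, smul_smul, neg_smul]
      abel
  rw [e0]
  have h1 := pk_zeta_hasFDerivAt hE (VJ + sv • q.1) (XJ - Cr • (VJ + sv • q.1) + sx • q.2)
  have h2 : HasFDerivAt (fun p' : E2 => XJ - Cr • (VJ + sv • q.1) + sx • p') (sx • ContinuousLinearMap.id ℝ E2) q.2 :=
    ((hasFDerivAt_id q.2).const_smul sx).const_add _
  have h3 := ((h1.comp q.2 h2).sub_const (E.ζ (VJ + sv • q.1) (XJ - Cr • (VJ + sv • q.1)))).const_smul sx⁻¹
  have h4 : HasFDerivAt (E.rescζ r bs Cr VJ XJ q.1) _ q.2 := h3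
  unfold dpZ at h4 ⊢
  rw [h4.fderiv]
  ext w : 1
  simp only [smul_apply, ContinuousLinearMap.comp_apply, ContinuousLinearMap.id_apply, map_smul,
    smul_smul, inv_mul_cancel₀ hx.ne', one_smul]

theorem pkx_phase {K : OscBd} (hE : IsPhase K E.Φ E.ζ) (hε : 0 < E.ε) (hε1 : E.ε ≤ 1) (hr : 0 ≤ r) (hbs : 0 ≤ bs)
    (hC : 0 ≤ Cr) (hC1 : Cr ≤ 1) :
    IsPhase { K with A := fun j => 3 ^ j * K.A j } (E.rescΦ r bs Cr VJ XJ) (E.rescζ r bs Cr VJ XJ) := by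
  have hs : 0 < E.ε ^ bs := Real.rpow_pos_of_pos hε bs
  have hc : 0 < E.ε ^ r := Real.rpow_pos_of_pos hε r
  have hs1 : E.ε ^ bs ≤ 1 := Real.rpow_le_one hε.le hε1 hbs
  have hc1 : E.ε ^ r ≤ 1 := Real.rpow_le_one hε.le hε1 hr
  have hx : 0 < E.ε ^ r * E.ε ^ bs := mul_pos hc hs
  have hx1 : E.ε ^ r * E.ε ^ bs ≤ 1 := mul_le_one₀ hc1 hs.le hs1
  have hdp := pkx_dpZ E r bs Cr VJ XJ hE hε
  refine ⟨?_, ?_, ?_, ?_, ?_⟩
  · -- smooth
    have h1 : ContDiff ℝ ∞ (fun q : E2 × E2 => E.ζ (VJ + E.ε ^ bs • q.1)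
        (XJ - Cr • (VJ + E.ε ^ bs • q.1) + (E.ε ^ r * E.ε ^ bs) • q.2)) :=
      hE.smooth.comp (g := fun q : E2 × E2 => E.ζ q.1 q.2)
        (f := fun q : E2 × E2 => (VJ + E.ε ^ bs • q.1, XJ - Cr • (VJ + E.ε ^ bs • q.1) + (E.ε ^ r * E.ε ^ bs) • q.2))
        (by fun_prop)
    have h2 : ContDiff ℝ ∞ (fun q : E2 × E2 => E.ζ (VJ + E.ε ^ bs • q.1) (XJ - Cr • (VJ + E.ε ^ bs • q.1))) :=
      hE.smooth.comp (g := fun q : E2 × E2 => E.ζ q.1 q.2)
        (f := fun q : E2 × E2 => (VJ + E.ε ^ bs • q.1, XJ - Cr • (VJ + E.ε ^ bs • q.1)))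
        (by fun_prop)
    exact (h1.sub h2).const_smul _
  · -- gradient
    intro c' hc' x' v'
    have g1 := hE.grad (Cr + E.ε ^ r * c') (add_nonneg hC (mul_nonneg hc.le hc'))
      (XJ + (E.ε ^ r * c') • VJ + (E.ε ^ r * E.ε ^ bs) • x') (VJ + E.ε ^ bs • v')
    have g2 := hE.grad Cr hC XJ (VJ + E.ε ^ bs • v')
    have e1 : XJ + (E.ε ^ r * c') • VJ + (E.ε ^ r * E.ε ^ bs) • x' - (Cr + E.ε ^ r * c') • (VJ + E.ε ^ bs • v') =
        XJ - Cr • (VJ + E.ε ^ bs • v') + (E.ε ^ r * E.ε ^ bs) • (x' - c' • v') := by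
      simp only [smul_add, smul_sub, add_smul, smul_smul]
      have : (Cr + E.ε ^ r * c') * E.ε ^ bs = Cr * E.ε ^ bs + E.ε ^ r * E.ε ^ bs * c' := by ring
      rw [this, add_smul]
      abel
    rw [e1] at g1
    have k1 := (hasGradientAt_iff_hasFDerivAt.1 (pkx_grad_affine g1))
    have k2 := (hasGradientAt_iff_hasFDerivAt.1 (pkx_grad_affine g2))
    have k3 := (k1.sub k2).const_mul ((E.ε ^ r * (E.ε ^ bs) ^ 2)⁻¹)
    rw [hasGradientAt_iff_hasFDerivAt]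
    have e2 : (InnerProductSpace.toDual ℝ E2) (E.rescζ r bs Cr VJ XJ v' (x' - c' • v')) =
        (E.ε ^ r * (E.ε ^ bs) ^ 2)⁻¹ • ((InnerProductSpace.toDual ℝ E2) (E.ε ^ bs •
          E.ζ (VJ + E.ε ^ bs • v') (XJ - Cr • (VJ + E.ε ^ bs • v') + (E.ε ^ r * E.ε ^ bs) • (x' - c' • v'))) -
          (InnerProductSpace.toDual ℝ E2) (E.ε ^ bs • E.ζ (VJ + E.ε ^ bs • v') (XJ - Cr • (VJ + E.ε ^ bs • v')))) := by
      rw [← map_sub, ← smul_sub]
      show (InnerProductSpace.toDual ℝ E2) ((E.ε ^ r * E.ε ^ bs)⁻¹ • _) = _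
      ext w
      simp only [InnerProductSpace.toDual_apply_apply, smul_apply, real_inner_smul_left, smul_eq_mul]
      rw [← mul_assoc]
      congr 1
      field_simp
    rw [e2]
    refine k3.congr_of_eventuallyEq (Filter.Eventually.of_forall fun w => ?_)
    show (E.Φ _ _ _ - E.Φ _ _ _) / _ = _
    rw [div_eq_inv_mul]
    rfl
  · -- symmetry
    intro q a b
    rw [hdp]
    exact hE.symm _ a b
  · -- definite
    obtain ⟨sg, hsg, hd⟩ := hE.definite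
    refine ⟨sg, hsg, fun q a => ?_⟩
    rw [hdp]
    exact hd _ a
  · -- bounds
    intro j q
    have hcb := ((pk_dpZ_cb hE).comp_add (VJ, XJ - Cr • VJ))
    have hu : {x : E2 × E2 | (VJ, XJ - Cr • VJ) + x ∈ (univ : Set (E2 × E2))} = univ := by
      ext x; simp
    rw [hu] at hcb
    have hcb2 := hcb.comp_clm isOpen_univ isOpen_univ (pkxL (E.ε ^ bs) (E.ε ^ r * E.ε ^ bs) Cr) (mapsTo_univ _ _)
    have e : dpZ (E.rescζ r bs Cr VJ XJ) =
        fun x => dpZ E.ζ ((VJ, XJ - Cr • VJ) + pkxL (E.ε ^ bs) (E.ε ^ r * E.ε ^ bs) Cr x) := funext hdp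
    rw [e]
    refine (hcb2.bd j q (mem_univ _)).trans ?_
    have hA : 0 ≤ K.A j := (norm_nonneg _).trans (hE.bound j 0)
    show K.A j * ‖pkxL (E.ε ^ bs) (E.ε ^ r * E.ε ^ bs) Cr‖ ^ j ≤ 3 ^ j * K.A j
    rw [mul_comm]
    refine mul_le_mul_of_nonneg_right ?_ hA
    exact pow_le_pow_left₀ (norm_nonneg _) ((pkxL_norm hs.le hs1 hx.le hx1 hC hC1).trans (by norm_num)) j

end Claimed.Agent.R255
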