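import Claimed.Agent.R255.Pkt.Base
import Claimed.Agent.R255.Pk.Cb
import Claimed.Agent.R255.Pk.RescAux

/-!
# R255 / Pk / Resc : BR (9.10)-(9.11) = THE EXACT INVARIANCES OF THE RESCALING `PEnv.resc`      (architect helper91)

Notation: `s_c = ε^r`, `s_v = ε^bs`, `s_x = s_c s_v`;  `v = V_J + s_v v'`, `c = C_r + s_c c'`, `x = X_J + (c - C_r) V_J + s_x x'`;   `x - c v = X_J - C_r v + s_x (x' - c' v')`.
`E' = E.resc r bs Cr VJ XJ h`:  `λ' = λ s_c s_v²`, `ρ'_{t-r} = ρ_t / s_v`, `σ'_{t-r} = σ_t / s_x`, `u'_{t-r} = u_t - bs`   (`Real.rpow_add`, `Real.rpow_neg`, `Real.rpow_sub`, `ε > 0`).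
* `pk_resc_phase`: `dpZ ζ' (v',p') = dpZ ζ (A (v',p'))`, `A` affine with linear part `(v',p') ↦ (s_v v', - C_r s_v v' + s_x p')` of norm `≤ 2` (sup norm on `E2 × E2`, `0 ≤ C_r ≤ 1`, `s_v, s_x ≤ 1`):
    `‖D^j (dpZ ζ')‖ ≤ 2^j K.A j ≤ 3^j K.A j` (`ContinuousLinearMap.iteratedFDeriv_comp_right`, `iteratedFDeriv_comp_add_left`, or `Cb.comp_clm`, `Cb.comp_add`).  Gradient identity: chain rule + the identity for `x - c v`.
* `pk_resc_pairing`: substitute `v = V_J + s_v v'` (`dv = s_v² dv'`; `Measure.integral_comp_smul`/`integral_comp_smul_of_pos`-type lemma on `E2`, `finrank = 2`; `integral_add_left_eq_self`);  `λ' Φ'(C',X',v') = λ [Φ(C,X,v) - Φ(C_r,X_J,v)]`.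
* `pk_resc_geo`: divide the four rectangle inequalities by `s_v` resp. `s_x`.
* `pk_resc_score`: same law, same labels, equal masses, `wt γ (gresc g) = wt γ g - 2 bs`, `P.ev` of a constant `= ` the constant (`FLaw.sum_one`).
-/

set_option autoImplicit false

namespace Claimed.Agent.R255

open MeasureTheory Metric Set Osc Pkt
open scoped ContDiff InnerProductSpace

/-- the phase constants of the rescaled class -/
def pkRescK (K : OscBd) : OscBd := { K with A := fun j => 3 ^ j * K.A j }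

variable (E : PEnv) (r bs Cr : ℝ) (VJ XJ : E2) (h : E2 → ℂ)

theorem pk_resc_lam (hε : 0 < E.ε) : (E.resc r bs Cr VJ XJ h).lam = E.lam * (E.ε ^ r * (E.ε ^ bs) ^ 2) := by
  show E.ε ^ (-(E.H - r - 2 * bs)) = E.ε ^ (-E.H) * (E.ε ^ r * (E.ε ^ bs) ^ 2)
  rw [← Real.rpow_natCast (E.ε ^ bs) 2, ← Real.rpow_mul hε.le, ← Real.rpow_add hε, ← Real.rpow_add hε]
  congr 1
  push_cast
  ring

theorem pk_resc_u (t : ℝ) : (E.resc r bs Cr VJ XJ h).u (t - r) = E.u t - bs := by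
  show (E.H - r - 2 * bs - (t - r)) / 2 = (E.H - t) / 2 - bs
  ring

theorem pk_resc_rho (hε : 0 < E.ε) (t : ℝ) : (E.resc r bs Cr VJ XJ h).rho (t - r) = E.rho t / E.ε ^ bs := by
  show E.ε ^ ((E.resc r bs Cr VJ XJ h).u (t - r)) = E.ε ^ (E.u t) / E.ε ^ bs
  rw [pk_resc_u, Real.rpow_sub hε]

theorem pk_resc_sig (hε : 0 < E.ε) (t : ℝ) : (E.resc r bs Cr VJ XJ h).sig (t - r) = E.sig t / (E.ε ^ r * E.ε ^ bs) := by
  show E.ε ^ ((E.resc r bs Cr VJ XJ h).u (t - r) + (t - r)) = E.ε ^ (E.u t + t) / (E.ε ^ r * E.ε ^ bs)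
  rw [pk_resc_u, ← Real.rpow_add hε, ← Real.rpow_sub hε]
  congr 1
  ring

/-- `λ ρ_t σ_t = 1`, `λ ρ_t² ε^t = 1`. -/
theorem pk_env_scales (hε : 0 < E.ε) (t : ℝ) : E.lam * E.rho t * E.sig t = 1 ∧ E.lam * E.rho t ^ 2 * E.ε ^ t = 1 ∧ E.sig t = E.ε ^ t * E.rho t := by
  refine ⟨?_, ?_, ?_⟩
  · show E.ε ^ (-E.H) * E.ε ^ (E.u t) * E.ε ^ (E.u t + t) = 1
    rw [← Real.rpow_add hε, ← Real.rpow_add hε]
    have : -E.H + E.u t + (E.u t + t) = 0 := by unfold PEnv.u; ring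
    rw [this, Real.rpow_zero]
  · show E.ε ^ (-E.H) * (E.ε ^ (E.u t)) ^ 2 * E.ε ^ t = 1
    rw [← Real.rpow_natCast (E.ε ^ (E.u t)) 2, ← Real.rpow_mul hε.le, ← Real.rpow_add hε, ← Real.rpow_add hε]
    have : -E.H + E.u t * ((2 : ℕ) : ℝ) + t = 0 := by unfold PEnv.u; push_cast; ring
    rw [this, Real.rpow_zero]
  · show E.ε ^ (E.u t + t) = E.ε ^ t * E.ε ^ (E.u t)
    rw [← Real.rpow_add hε, add_comm]

/-- **the phase class is closed under the rescaling**. -/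
theorem pk_resc_phase {K : OscBd} (hE : IsPhase K E.Φ E.ζ) (hε : 0 < E.ε) (hε1 : E.ε ≤ 1) (hr : 0 ≤ r) (hbs : 0 ≤ bs) (hC : 0 ≤ Cr) (hC1 : Cr ≤ 1) :
    IsPhase (pkRescK K) (E.rescΦ r bs Cr VJ XJ) (E.rescζ r bs Cr VJ XJ) :=
  pkx_phase E r bs Cr VJ XJ hE hε hε1 hr hbs hC hC1

/-- **the pairing is invariant**. -/
theorem pk_resc_pairing (hε : 0 < E.ε) (t : ℝ) (s : Site) :
    pairing (E.resc r bs Cr VJ XJ h).lam ((E.resc r bs Cr VJ XJ h).rho (t - r)) (E.rescΦ r bs Cr VJ XJ) (E.rescIn bs Cr VJ XJ h)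
      (s.resc E.ε r bs Cr VJ XJ) = pairing E.lam (E.rho t) E.Φ h s :=
  pkx_pairing E r bs Cr VJ XJ h hε t s

/-- **the mass is invariant**. -/
theorem pk_resc_mass (hε : 0 < E.ε) (t : ℝ) (s : Site) :
    (E.resc r bs Cr VJ XJ h).m (t - r) (s.resc E.ε r bs Cr VJ XJ) = (E.withInput h).m t s :=
  pkx_mass E r bs Cr VJ XJ h hε t s

/-- **the norm is invariant**. -/
theorem pk_resc_nrm2 (hε : 0 < E.ε) : (E.resc r bs Cr VJ XJ h).nrm2 = (E.withInput h).nrm2 :=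
  pkx_nrm2 E r bs Cr VJ XJ h hε

theorem pk_resc_memLp {K : OscBd} (hE : IsPhase K E.Φ E.ζ) (hε : 0 < E.ε) (hC : 0 ≤ Cr) (hh : MemLp h 2 volume) :
    MemLp (E.rescIn bs Cr VJ XJ h) 2 volume :=
  pkx_memLp E bs Cr VJ XJ h hE hε hC hh

theorem pk_resc_supp (hε : 0 < E.ε) {R' : ℝ} (hh : ∀ v, h v ≠ 0 → ‖v - VJ‖ ≤ R' * E.ε ^ bs) (v' : E2) (hv : E.rescIn bs Cr VJ XJ h v' ≠ 0) :
    ‖v'‖ ≤ R' :=
  pkx_supp E bs Cr VJ XJ h hε hh v' hv

theorem pk_ip_smul (c : ℝ) (z w : ℝ × ℝ) : ip (c • z) w = c * ip z w := by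
  simp only [ip, Prod.smul_fst, Prod.smul_snd, smul_eq_mul]
  ring

/-- rectangles scale exactly -/
theorem pk_inRect_smul {ε : ℝ} (hε : 0 < ε) (K b a th c : ℝ) (z : ℝ × ℝ) :
    InRect K ε (b - c) (a - c) th ((ε ^ c)⁻¹ • z) ↔ InRect K ε b a th z := by
  have hc : 0 < ε ^ c := Real.rpow_pos_of_pos hε c
  unfold InRect
  rw [pk_ip_smul, pk_ip_smul, abs_mul, abs_mul, abs_of_pos (inv_pos.2 hc), Real.rpow_sub hε, Real.rpow_sub hε,
    ← mul_div_assoc, ← mul_div_assoc, inv_mul_eq_div, inv_mul_eq_div, div_le_div_iff_of_pos_right hc,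
    div_le_div_iff_of_pos_right hc]

theorem pk_toP_sub (x y : E2) : toP (x - y) = toP x - toP y := rfl

theorem pk_toP_smul (c : ℝ) (x : E2) : toP (c • x) = c • toP x := rfl

/-- **aperture compatibility is invariant**. -/
theorem pk_resc_geo {ε : ℝ} (hε : 0 < ε) (hbs : 0 ≤ bs) (g : Geo) (Ke t L u : ℝ) (s : Site) :
    GeoOK (gresc g ε r bs Cr VJ XJ) Ke ε (t - r) (L - r - bs) (u - bs) (s.resc ε r bs Cr VJ XJ) ↔ (GeoOK g Ke ε t L u s ∧ bs ≤ g.b) := by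
  have h1 : 0 < ε ^ r := Real.rpow_pos_of_pos hε r
  have h2 : 0 < ε ^ bs := Real.rpow_pos_of_pos hε bs
  have eV : toP (s.resc ε r bs Cr VJ XJ).V - (gresc g ε r bs Cr VJ XJ).vc = (ε ^ bs)⁻¹ • (toP s.V - g.vc) := by
    show toP ((ε ^ bs)⁻¹ • (s.V - VJ)) - (ε ^ bs)⁻¹ • (g.vc - toP VJ) = _
    rw [pk_toP_smul, pk_toP_sub, ← smul_sub]
    congr 1
    abel
  have eX : g.tc = s.C → toP (s.resc ε r bs Cr VJ XJ).X - (gresc g ε r bs Cr VJ XJ).xc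
      = (ε ^ (r + bs))⁻¹ • (toP s.X - g.xc) := by
    intro htc
    show toP ((ε ^ r * ε ^ bs)⁻¹ • (s.X - XJ - (s.C - Cr) • VJ)) - (ε ^ r * ε ^ bs)⁻¹ • (g.xc - toP XJ - (g.tc - Cr) • toP VJ) = _
    rw [pk_toP_smul, pk_toP_sub, pk_toP_sub, pk_toP_smul, ← smul_sub, htc, Real.rpow_add hε]
    congr 1
    abel
  have eC : (gresc g ε r bs Cr VJ XJ).tc = (s.resc ε r bs Cr VJ XJ).C ↔ g.tc = s.C := by
    show (g.tc - Cr) / ε ^ r = (s.C - Cr) / ε ^ r ↔ _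
    rw [div_left_inj' h1.ne']
    constructor <;> intro h <;> linarith
  have eb : (gresc g ε r bs Cr VJ XJ).b = g.b - bs := rfl
  have ea : (gresc g ε r bs Cr VJ XJ).a = g.a - bs := rfl
  have eth : (gresc g ε r bs Cr VJ XJ).th = g.th := rfl
  have e1 : g.b - bs + (t - r) = g.b + t - (r + bs) := by ring
  have e2 : g.a - bs + (t - r) = g.a + t - (r + bs) := by ring
  unfold GeoOK
  rw [eC, eV, eb, ea, eth, pk_inRect_smul hε, e1, e2]
  constructor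
  · rintro ⟨a1, a2, a3, a4, a5, a6, a7⟩
    rw [eX a5, pk_inRect_smul hε] at a7
    exact ⟨⟨by linarith, by linarith, by linarith, by linarith, a5, a6, a7⟩, by linarith⟩
  · rintro ⟨⟨a1, a2, a3, a4, a5, a6, a7⟩, a8⟩
    refine ⟨by linarith, by linarith, by linarith, by linarith, a5, a6, ?_⟩
    rw [eX a5, pk_inRect_smul hε]
    exact a7

theorem pk_resc_wt (γ ε : ℝ) (g : Geo) : wt γ (gresc g ε r bs Cr VJ XJ) = wt γ g - 2 * bs := by
  show (1 + γ) * (g.b - bs) + (1 - γ) * (g.a - bs) = (1 + γ) * g.b + (1 - γ) * g.a - 2 * bs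
  ring

/-- **the score is invariant up to the weight shift `b_*`**. -/
theorem pk_resc_score (hε : 0 < E.ε) (γ : ℝ) (T : PTest) :
    score γ (E.resc r bs Cr VJ XJ h) (T.resc E.ε r bs Cr VJ XJ) = score γ (E.withInput h) T - bs := by
  have hm : ∀ o, (E.resc r bs Cr VJ XJ h).m (T.resc E.ε r bs Cr VJ XJ).t ((T.resc E.ε r bs Cr VJ XJ).site ((T.resc E.ε r bs Cr VJ XJ).O o))
      = (E.withInput h).m T.t (T.site (T.O o)) := fun o => pk_resc_mass E r bs Cr VJ XJ h hε T.t (T.site (T.O o))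
  have hw : ∀ o, wt γ ((T.resc E.ε r bs Cr VJ XJ).geo ((T.resc E.ε r bs Cr VJ XJ).D o)) = wt γ (T.geo (T.D o)) - 2 * bs :=
    fun o => pk_resc_wt r bs Cr VJ XJ γ E.ε (T.geo (T.D o))
  unfold score
  simp only [hm, hw]
  have hev : T.P.ev (fun o => wt γ (T.geo (T.D o)) - 2 * bs) = T.P.ev (fun o => wt γ (T.geo (T.D o))) - 2 * bs := by
    unfold FLaw.ev
    simp only [mul_sub, Finset.sum_sub_distrib, ← Finset.sum_mul, T.P.sum_one, one_mul]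
  show (T.P.ent T.O + T.P.entC T.O T.D / 2) / lg E.ε + 3 / 2 * T.P.ev (fun o => Real.log ((E.withInput h).m T.t (T.site (T.O o))) / lg E.ε)
      + 1 / 2 * T.P.ev (fun o => wt γ (T.geo (T.D o)) - 2 * bs) = _
  rw [hev]
  show _ = (T.P.ent T.O + T.P.entC T.O T.D / 2) / lg E.ε + 3 / 2 * T.P.ev (fun o => Real.log ((E.withInput h).m T.t (T.site (T.O o))) / lg E.ε)
      + 1 / 2 * T.P.ev (fun o => wt γ (T.geo (T.D o))) - bs
  ring

theorem pk_resc_act (T : PTest) (ε : ℝ) (i : T.ι) : (T.resc ε r bs Cr VJ XJ).act i ↔ T.act i := Iff.rfl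

/-- the rescaled environment obeys the package `B'`. -/
theorem pk_resc_env_obeys {B B' : PBd} (hE : E.Obeys B) (hr : 0 ≤ r) (hbs : 0 ≤ bs) (hC : 0 ≤ Cr) (hC1 : Cr ≤ 1) (hH : 0 < E.H - r - 2 * bs)
    (hK : B'.K.a0 = B.K.a0 ∧ B'.K.a1 = B.K.a1 ∧ B'.K.A = fun j => 3 ^ j * B.K.A j) (hHm : B.Hmax ≤ B'.Hmax) (hLm : B.Lmax ≤ B'.Lmax)
    (hh : MemLp h 2 volume) (hs : ∀ v, h v ≠ 0 → ‖v - VJ‖ ≤ B'.K.Rv * E.ε ^ bs) : (E.resc r bs Cr VJ XJ h).Obeys B' := by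
  have hε := hE.ε0
  refine ⟨hε, hE.ε1, hH, ?_, ?_, ?_, ?_, ?_⟩
  · show E.H - r - 2 * bs ≤ B'.Hmax
    linarith [hE.H1]
  · show E.L - r - bs ≤ B'.Lmax
    linarith [hE.L1]
  · have hp := pk_resc_phase E r bs Cr VJ XJ hE.phase hε hE.ε1.le hr hbs hC hC1
    refine ⟨hp.smooth, hp.grad, hp.symm, ?_, ?_⟩
    · obtain ⟨sg, hsg, h0⟩ := hp.definite
      refine ⟨sg, hsg, ?_⟩
      rw [hK.1, hK.2.1]
      exact h0
    · intro j q
      rw [hK.2.2]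
      exact hp.bound j q
  · exact pk_resc_memLp E bs Cr VJ XJ h hE.phase hε hC hh
  · exact pk_resc_supp E bs Cr VJ XJ h hε hs

theorem pk_card_filter_le {ι : Type} [Fintype ι] (p q : ι → Prop) {_ : DecidablePred p} {_ : DecidablePred q} (hpq : ∀ j, p j → q j) :
    (Finset.univ.filter p).card ≤ (Finset.univ.filter q).card :=
  Finset.card_le_card fun j hj => by
    rw [Finset.mem_filter] at hj ⊢
    exact ⟨hj.1, hpq j hj.2⟩

/-- the rescaled test obeys the package `B'`. -/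
theorem pk_resc_test_obeys {B B' : PBd} (hε : 0 < E.ε) (hbs : 0 ≤ bs) (T : PTest) (hT : T.Obeys B (E.withInput h)) (ht : B'.tmin ≤ T.t - r)
    (hRa : B'.Ra = B.Ra) (hBb : B'.K.Bb = B.K.Bb) (hMu : B'.Mu = B.Mu) (hKe : B'.Ke = B.Ke)
    (htime : ∀ i, T.act i → Cr ≤ (T.site i).C ∧ (T.site i).C < Cr + E.ε ^ r)
    (hvel : ∀ i, T.act i → ‖(T.site i).V - VJ‖ ≤ B'.K.Rv * E.ε ^ bs)
    (hpos : ∀ i, T.act i → ‖(T.site i).X - XJ - ((T.site i).C - Cr) • VJ‖ ≤ B'.K.Rx * (E.ε ^ r * E.ε ^ bs))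
    (hb : ∀ o, 0 < T.P.p o → bs ≤ (T.geo (T.D o)).b) :
    (T.resc E.ε r bs Cr VJ XJ).Obeys B' (E.resc r bs Cr VJ XJ h) := by
  have h1 : 0 < E.ε ^ r := Real.rpow_pos_of_pos hε r
  have h2 : 0 < E.ε ^ bs := Real.rpow_pos_of_pos hε bs
  have h12 : 0 < E.ε ^ r * E.ε ^ bs := mul_pos h1 h2
  refine ⟨ht, ?_, ?_, ?_, ?_, ?_, ?_, ?_, ?_⟩
  · intro i hi
    rw [hRa, hBb]
    exact hT.amp i hi
  · intro i hi
    obtain ⟨a1, a2⟩ := htime i hi
    constructor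
    · show 0 ≤ ((T.site i).C - Cr) / E.ε ^ r
      exact div_nonneg (by linarith) h1.le
    · show ((T.site i).C - Cr) / E.ε ^ r < 1
      rw [div_lt_one h1]
      linarith
  · intro i hi
    show ‖(E.ε ^ bs)⁻¹ • ((T.site i).V - VJ)‖ ≤ B'.K.Rv
    rw [norm_smul, Real.norm_of_nonneg (inv_pos.2 h2).le, inv_mul_le_iff₀ h2, mul_comm]
    exact hvel i hi
  · intro i hi
    show ‖(E.ε ^ r * E.ε ^ bs)⁻¹ • ((T.site i).X - XJ - ((T.site i).C - Cr) • VJ)‖ ≤ B'.K.Rx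
    rw [norm_smul, Real.norm_of_nonneg (inv_pos.2 h12).le, inv_mul_le_iff₀ h12, mul_comm]
    exact hpos i hi
  · intro i hi
    rw [hMu]
    refine le_trans ?_ (hT.multT i hi)
    refine le_trans (Finset.card_le_card (t := Finset.image (fun c => (c - Cr) / E.ε ^ r) _) ?_) Finset.card_image_le
    intro c hc
    rw [Finset.mem_filter, Finset.mem_image] at hc
    obtain ⟨⟨j, hj, rfl⟩, hlt⟩ := hc
    rw [Finset.mem_image]
    refine ⟨(T.site j).C, ?_, rfl⟩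
    rw [Finset.mem_filter, Finset.mem_image]
    refine ⟨⟨j, hj, rfl⟩, ?_⟩
    have hlt' : |((T.site j).C - Cr) / E.ε ^ r - ((T.site i).C - Cr) / E.ε ^ r| < E.ε ^ (T.t - r) := hlt
    rw [← sub_div, abs_div, abs_of_pos h1, Real.rpow_sub hε, div_lt_div_iff_of_pos_right h1] at hlt'
    show |(T.site j).C - (T.site i).C| < E.ε ^ T.t
    have e : (T.site j).C - Cr - ((T.site i).C - Cr) = (T.site j).C - (T.site i).C := by ring
    rwa [e] at hlt'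
  · intro i hi
    rw [hMu]
    refine le_trans (pk_card_filter_le _ _ ?_) (hT.multS i hi)
    intro j hj
    obtain ⟨hact, hC, hV, hX⟩ := hj
    have hC' : (T.site j).C = (T.site i).C := by
      have : ((T.site j).C - Cr) / E.ε ^ r = ((T.site i).C - Cr) / E.ε ^ r := hC
      rw [div_left_inj' h1.ne'] at this
      linarith
    refine ⟨hact, hC', ?_, ?_⟩
    · have hV' : ‖(E.ε ^ bs)⁻¹ • ((T.site j).V - VJ) - (E.ε ^ bs)⁻¹ • ((T.site i).V - VJ)‖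
          < (E.resc r bs Cr VJ XJ h).rho (T.t - r) := hV
      rw [pk_resc_rho E r bs Cr VJ XJ h hε, ← smul_sub, norm_smul, Real.norm_of_nonneg (inv_pos.2 h2).le, inv_mul_eq_div,
        div_lt_div_iff_of_pos_right h2, sub_sub_sub_cancel_right] at hV'
      exact hV'
    · have hX' : ‖(E.ε ^ r * E.ε ^ bs)⁻¹ • ((T.site j).X - XJ - ((T.site j).C - Cr) • VJ)
          - (E.ε ^ r * E.ε ^ bs)⁻¹ • ((T.site i).X - XJ - ((T.site i).C - Cr) • VJ)‖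
          < (E.resc r bs Cr VJ XJ h).sig (T.t - r) := hX
      rw [pk_resc_sig E r bs Cr VJ XJ h hε, ← smul_sub, norm_smul, Real.norm_of_nonneg (inv_pos.2 h12).le, inv_mul_eq_div,
        div_lt_div_iff_of_pos_right h12, hC', sub_sub_sub_cancel_right, sub_sub_sub_cancel_right] at hX'
      exact hX'
  · intro o ho
    show 0 < (E.resc r bs Cr VJ XJ h).m (T.t - r) ((T.site (T.O o)).resc E.ε r bs Cr VJ XJ)
    rw [pk_resc_mass E r bs Cr VJ XJ h hε]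
    exact hT.mpos o ho
  · intro o ho
    show GeoOK (gresc (T.geo (T.D o)) E.ε r bs Cr VJ XJ) B'.Ke E.ε (T.t - r) (E.L - r - bs)
      ((E.resc r bs Cr VJ XJ h).u (T.t - r)) ((T.site (T.O o)).resc E.ε r bs Cr VJ XJ)
    rw [pk_resc_u, hKe, pk_resc_geo r bs Cr VJ XJ hε hbs]
    exact ⟨hT.geo o ho, hb o ho⟩

/-- the inverse of `Site.resc` -/
noncomputable def pkSiteUn (s : Site) (ε r bs Cr : ℝ) (VJ XJ : E2) : Site where
  C := Cr + ε ^ r * s.C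
  V := VJ + ε ^ bs • s.V
  X := XJ + (ε ^ r * s.C) • VJ + (ε ^ r * ε ^ bs) • s.X
  ψ := s.ψ

/-- the inverse of `gresc` -/
noncomputable def pkGeoUn (g : Geo) (ε r bs Cr : ℝ) (VJ XJ : E2) : Geo where
  b := g.b + bs
  a := g.a + bs
  tc := Cr + ε ^ r * g.tc
  th := g.th
  vc := toP VJ + ε ^ bs • g.vc
  xc := toP XJ + (ε ^ r * g.tc) • toP VJ + (ε ^ r * ε ^ bs) • g.xc

/-- the inverse of `PTest.resc` -/
noncomputable def pkTestUn (T : PTest) (ε r bs Cr : ℝ) (VJ XJ : E2) : PTest :=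
  { T with
    t := T.t + r
    site := fun i => pkSiteUn (T.site i) ε r bs Cr VJ XJ
    geo := fun g => pkGeoUn (T.geo g) ε r bs Cr VJ XJ }

theorem pk_site_un_resc {ε : ℝ} (hε : 0 < ε) (s : Site) : (pkSiteUn s ε r bs Cr VJ XJ).resc ε r bs Cr VJ XJ = s := by
  have h1 : ε ^ r ≠ 0 := (Real.rpow_pos_of_pos hε r).ne'
  have h2 : ε ^ bs ≠ 0 := (Real.rpow_pos_of_pos hε bs).ne'
  obtain ⟨C, V, X, ψ⟩ := s
  simp only [pkSiteUn, Site.resc, Site.mk.injEq, and_true]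
  refine ⟨?_, ?_, ?_⟩
  · field_simp
    ring
  · rw [add_sub_cancel_left, smul_smul, inv_mul_cancel₀ h2, one_smul]
  · have e : XJ + (ε ^ r * C) • VJ + (ε ^ r * ε ^ bs) • X - XJ - (Cr + ε ^ r * C - Cr) • VJ = (ε ^ r * ε ^ bs) • X := by
      rw [add_sub_cancel_left Cr]
      abel
    rw [e, smul_smul, inv_mul_cancel₀ (mul_ne_zero h1 h2), one_smul]

theorem pk_geo_un_resc {ε : ℝ} (hε : 0 < ε) (g : Geo) : gresc (pkGeoUn g ε r bs Cr VJ XJ) ε r bs Cr VJ XJ = g := by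
  have h1 : ε ^ r ≠ 0 := (Real.rpow_pos_of_pos hε r).ne'
  have h2 : ε ^ bs ≠ 0 := (Real.rpow_pos_of_pos hε bs).ne'
  obtain ⟨b, a, tc, th, vc, xc⟩ := g
  simp only [pkGeoUn, gresc, Geo.mk.injEq, and_true, true_and, add_sub_cancel_right]
  refine ⟨?_, ?_, ?_⟩
  · field_simp
    ring
  · rw [add_sub_cancel_left, smul_smul, inv_mul_cancel₀ h2, one_smul]
  · have e : toP XJ + (ε ^ r * tc) • toP VJ + (ε ^ r * ε ^ bs) • xc - toP XJ - (Cr + ε ^ r * tc - Cr) • toP VJ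
        = (ε ^ r * ε ^ bs) • xc := by
      rw [add_sub_cancel_left Cr]
      abel
    rw [e, smul_smul, inv_mul_cancel₀ (mul_ne_zero h1 h2), one_smul]

theorem pk_test_un_resc {ε : ℝ} (hε : 0 < ε) (T : PTest) : (pkTestUn T ε r bs Cr VJ XJ).resc ε r bs Cr VJ XJ = T := by
  obtain ⟨t, Ω, finΩ, P, ι, finι, site, O, Γ, D, geo⟩ := T
  simp only [pkTestUn, PTest.resc, add_sub_cancel_right, pk_site_un_resc r bs Cr VJ XJ hε, pk_geo_un_resc r bs Cr VJ XJ hε]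

/-- a local score, read in the original coordinates (BR l.345-348: "returning a score adds `b_*`"). -/
theorem pk_un_score (hε : 0 < E.ε) (γ : ℝ) (T : PTest) :
    score γ (E.withInput h) (pkTestUn T E.ε r bs Cr VJ XJ) = score γ (E.resc r bs Cr VJ XJ h) T + bs := by
  have h1 := pk_resc_score E r bs Cr VJ XJ h hε γ (pkTestUn T E.ε r bs Cr VJ XJ)
  rw [pk_test_un_resc r bs Cr VJ XJ hε] at h1
  linarith

end Claimed.Agent.R255
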