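import Claimed.Agent.R255.Pk.Atoms

/-!
# R255 / Pk / AtomsMix : BR LEMMA 9.3, part 2 = MIXED GRAM ESTIMATE, TRANSPORT, QUANTIFIED TAILS      (architect helper91)

SCALE FREE.  Atoms at time `c`, scale `ρ`, reference position `XJ` (`Atoms.lean`);  endpoint test `pkt lam Φ c' ρ' V X ψ`, `ρ ≤ ρ' ≤ 1`, `ψ ∈ PkAmp M R b`,
LOCALISATION HYPOTHESIS  `lam ρ² (‖X - XJ - (c'-c) V‖ + |c'-c|) ≤ C₀`      (in BR: `lam ρ_r² ε^r = 1`, `|C_t - C_r| ≤ ε^r`, back-transported position within `C ε^{r+b_*}` of `X_J`).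
 `d_q = lam ρ ‖X - X_{j,n} - (c'-c) V_j‖`, `q = (j,n)`.
* `pk_mix_eq`   : change of variables `v = V_j + ρ z` (`pk_integral_scale`).
* `pk_mix_far`  : disjoint supports (`pk_win_supp`: `‖v - V_j‖ < 2ρ`; `pk_pkt_supp`: `‖v - V‖ ≤ R ρ'`).
* `pk_mix_gram` (9.mixed-gram): if the supports meet, `‖V_j - V‖ ≤ R ρ' + 2ρ ≤ R + 2`, so `lam ρ² (‖X - XJ - (c'-c) V_j‖ + |c'-c|) ≤ C₀ (R+3)`; amplitude `a(z) = ½ χ(z) ψ(u + (ρ/ρ') z) ∈ PkAmp M 2 (…)` (`pk_amp_affine_bdd`, `pk_amp_mul_bdd`);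
    `pk_nsp_lin` with `ξ = π n`;   `lam ρ pkD(0) + π n = lam ρ [ζ(V_j, X - c' V_j) - ζ(V_j, X_{j,n} - c V_j)]` (`pk_pos_spec`), of norm `≥ a0 d_q` (`pk_zeta_lower`);  `(1 + a0 d)^{-M} ≤ max(1, 1/a0)^M (1+d)^{-M}`.
* `pk_mix_tail` (l.505-512): for each window `pk_count` (exponent `2M`, family `n ↦ X_{j,n}`, `pk_pos_mult1`, centre `y = X - (c'-c) V_j`); at most `(2(R ρ'/ρ + 3) + 1)² ≤ C (ρ'/ρ)²` windows meet the test (`pk_lat_count`).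
* `pk_mix_subset`: Cauchy-Schwarz.
* `pk_mix_expand` (9.summed-tail): `∫ f h = ∑_{j∈S} ∑'_n c_{j,n} ⟨g_{j,n},h⟩` (`pk_window_sum_pair`, `pk_coef_pair`); the remainder after removing the finite set `P₀` is a limit of finite sums, each bounded by
    `(∑ |c|²)^{1/2} (∑ |⟨g,h⟩|²)^{1/2}` (`pk_coef_sum_le`, `pk_mix_tail`).
-/

set_option autoImplicit false

namespace Claimed.Agent.R255

open MeasureTheory Metric Set Osc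
open scoped ContDiff InnerProductSpace ComplexConjugate

/-- the atom in window coordinates. -/
theorem pk_mix_atom_scale (lam : ℝ) (Φ : ℝ → E2 → E2 → ℝ) (c : ℝ) {ρ : ℝ} (hρ : 0 < ρ) (XJ : E2) (j n : ℤ × ℤ) (z : E2) :
    pkAtomL lam Φ c ρ XJ j n (pkVc ρ j + ρ • z)
      = ((pkWin z : ℝ) : ℂ) * ((((2 * ρ)⁻¹ : ℝ) : ℂ) * Complex.exp (Complex.I * ((⟪Real.pi • pkLat n, z⟫_ℝ : ℝ) : ℂ)))
        * Complex.exp (-(Complex.I * ((lam * Φ c XJ (pkVc ρ j + ρ • z) : ℝ) : ℂ))) := by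
  have e1 : pkWinV ρ j (pkVc ρ j + ρ • z) = pkWin z := by
    show pkWin (ρ⁻¹ • (pkVc ρ j + ρ • z - pkVc ρ j)) = pkWin z
    rw [add_sub_cancel_left, smul_smul, inv_mul_cancel₀ hρ.ne', one_smul]
  have e2 : 2 * Real.pi * pkDot n (pkVc ρ j + ρ • z - pkVc ρ j) / (2 * ρ) = ⟪Real.pi • pkLat n, z⟫_ℝ := by
    rw [add_sub_cancel_left, pk_dot_eq_inner, inner_smul_right, inner_smul_left]
    simp only [conj_trivial]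
    field_simp
  show ((pkWinV ρ j (pkVc ρ j + ρ • z) : ℝ) : ℂ) * ((((2 * ρ)⁻¹ : ℝ) : ℂ) * Complex.exp (Complex.I *
    ((2 * Real.pi * pkDot n (pkVc ρ j + ρ • z - pkVc ρ j) / (2 * ρ) : ℝ) : ℂ))) * _ = _
  rw [e1, e2]

/-- the pairing of an atom with an endpoint test, in window coordinates. -/
theorem pk_mix_eq (lam : ℝ) (Φ : ℝ → E2 → E2 → ℝ) (c c' : ℝ) {ρ ρ' : ℝ} (hρ : 0 < ρ) (hρ' : 0 < ρ') (XJ V X : E2) (ψ : E2 → ℂ) (j n : ℤ × ℤ) :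
    ∫ v, pkAtomL lam Φ c ρ XJ j n v * pkt lam Φ c' ρ' V X ψ v
      = ((ρ / ρ' : ℝ) : ℂ) * ∫ z, ((1 / 2 : ℂ) * ((pkWin z : ℝ) : ℂ) * ψ (ρ'⁻¹ • (pkVc ρ j - V) + (ρ / ρ') • z)) *
          Complex.exp (Complex.I * ((pkPh lam Φ (pkVc ρ j) ρ c' c X XJ z + ⟪Real.pi • pkLat n, z⟫_ℝ : ℝ) : ℂ)) := by
  rw [pk_integral_scale _ (pkVc ρ j) hρ, ← integral_const_mul, ← integral_const_mul]
  refine integral_congr_ae (Filter.Eventually.of_forall fun z => ?_)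
  show ((ρ ^ 2 : ℝ) : ℂ) * (pkAtomL lam Φ c ρ XJ j n (pkVc ρ j + ρ • z) * pkt lam Φ c' ρ' V X ψ (pkVc ρ j + ρ • z))
    = ((ρ / ρ' : ℝ) : ℂ) * (((1 / 2 : ℂ) * ((pkWin z : ℝ) : ℂ) * ψ (ρ'⁻¹ • (pkVc ρ j - V) + (ρ / ρ') • z)) *
          Complex.exp (Complex.I * ((pkPh lam Φ (pkVc ρ j) ρ c' c X XJ z + ⟪Real.pi • pkLat n, z⟫_ℝ : ℝ) : ℂ)))
  have e1 : pkt lam Φ c' ρ' V X ψ (pkVc ρ j + ρ • z) = ((ρ'⁻¹ : ℝ) : ℂ) * ψ (ρ'⁻¹ • (pkVc ρ j - V) + (ρ / ρ') • z)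
      * Complex.exp (Complex.I * ((lam * Φ c' X (pkVc ρ j + ρ • z) : ℝ) : ℂ)) := by
    have e : ρ'⁻¹ • (pkVc ρ j + ρ • z - V) = ρ'⁻¹ • (pkVc ρ j - V) + (ρ / ρ') • z := by
      rw [add_sub_right_comm, smul_add, smul_smul, div_eq_inv_mul]
    show ((ρ'⁻¹ : ℝ) : ℂ) * ψ (ρ'⁻¹ • (pkVc ρ j + ρ • z - V)) * _ = _
    rw [e]
  have e2 : Complex.exp (Complex.I * ((pkPh lam Φ (pkVc ρ j) ρ c' c X XJ z + ⟪Real.pi • pkLat n, z⟫_ℝ : ℝ) : ℂ))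
      = Complex.exp (Complex.I * ((⟪Real.pi • pkLat n, z⟫_ℝ : ℝ) : ℂ))
        * Complex.exp (-(Complex.I * ((lam * Φ c XJ (pkVc ρ j + ρ • z) : ℝ) : ℂ)))
        * Complex.exp (Complex.I * ((lam * Φ c' X (pkVc ρ j + ρ • z) : ℝ) : ℂ)) := by
    rw [← Complex.exp_add, ← Complex.exp_add]
    congr 1
    show Complex.I * ((lam * (Φ c' X (pkVc ρ j + ρ • z) - Φ c XJ (pkVc ρ j + ρ • z)) + ⟪Real.pi • pkLat n, z⟫_ℝ : ℝ) : ℂ) = _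
    push_cast
    ring
  rw [pk_mix_atom_scale lam Φ c hρ, e1, e2]
  have hρc : (ρ : ℂ) ≠ 0 := Complex.ofReal_ne_zero.2 hρ.ne'
  have hρc' : (ρ' : ℂ) ≠ 0 := Complex.ofReal_ne_zero.2 hρ'.ne'
  push_cast
  field_simp

theorem pk_mix_far (lam : ℝ) (Φ : ℝ → E2 → E2 → ℝ) (c c' : ℝ) {ρ ρ' : ℝ} (hρ : 0 < ρ) (hρ' : 0 < ρ') (XJ V X : E2) {M : ℕ} {R : ℝ} {b : ℕ → ℝ}
    {ψ : E2 → ℂ} (hψ : PkAmp M R b ψ) (j n : ℤ × ℤ) (hfar : R * ρ' + 2 * ρ < ‖pkVc ρ j - V‖) :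
    ∫ v, pkAtomL lam Φ c ρ XJ j n v * pkt lam Φ c' ρ' V X ψ v = 0 := by
  refine integral_eq_zero_of_ae (Filter.Eventually.of_forall fun v => ?_)
  show pkAtomL lam Φ c ρ XJ j n v * pkt lam Φ c' ρ' V X ψ v = 0
  by_contra h0
  have h1 : pkWin (ρ⁻¹ • (v - pkVc ρ j)) ≠ 0 := fun h =>
    left_ne_zero_of_mul (left_ne_zero_of_mul (left_ne_zero_of_mul h0)) (by
      show ((pkWin (ρ⁻¹ • (v - pkVc ρ j)) : ℝ) : ℂ) = 0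
      rw [h, Complex.ofReal_zero])
  have h2 := (pk_win_supp _ h1).2.2
  rw [norm_smul, Real.norm_eq_abs, abs_of_pos (inv_pos.2 hρ), ← div_eq_inv_mul, div_lt_iff₀ hρ] at h2
  have h3 := pk_pkt_supp hψ lam hρ' c' V X v (right_ne_zero_of_mul h0)
  have h4 : ‖pkVc ρ j - V‖ ≤ ‖v - V‖ + ‖v - pkVc ρ j‖ := by
    have := norm_sub_le (v - V) (v - pkVc ρ j)
    rwa [sub_sub_sub_cancel_left] at this
  linarith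

/-- the localisation hypothesis at the window centre. -/
theorem pk_mix_loc {lam ρ ρ' c c' R C₀ : ℝ} {XJ V X W : E2} (hlam : 0 < lam) (hρ : 0 < ρ) (hρρ' : ρ ≤ ρ') (hρ'1 : ρ' ≤ 1)
    (hC₀ : lam * ρ ^ 2 * (‖X - XJ - (c' - c) • V‖ + |c' - c|) ≤ C₀) (hW : ‖W - V‖ ≤ R * ρ' + 2 * ρ) :
    lam * ρ ^ 2 * (‖X - XJ - (c' - c) • W‖ + |c' - c|) ≤ |C₀| * (|R| + 3) := by
  have hρ' : 0 < ρ' := hρ.trans_le hρρ'
  have h1 : ‖W - V‖ ≤ |R| + 2 := by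
    have a1 : R * ρ' ≤ |R| * 1 := (mul_le_mul_of_nonneg_right (le_abs_self R) hρ'.le).trans
      (mul_le_mul_of_nonneg_left hρ'1 (abs_nonneg R))
    linarith
  have h2 : ‖X - XJ - (c' - c) • W‖ ≤ ‖X - XJ - (c' - c) • V‖ + |c' - c| * ‖W - V‖ := by
    have e : X - XJ - (c' - c) • W = (X - XJ - (c' - c) • V) - (c' - c) • (W - V) := by
      rw [smul_sub]
      abel
    rw [e]
    refine (norm_sub_le _ _).trans ?_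
    rw [norm_smul, Real.norm_eq_abs]
  have h3 : |c' - c| * ‖W - V‖ ≤ |c' - c| * (|R| + 2) := mul_le_mul_of_nonneg_left h1 (abs_nonneg _)
  have h4 : ‖X - XJ - (c' - c) • W‖ + |c' - c| ≤ (‖X - XJ - (c' - c) • V‖ + |c' - c|) * (|R| + 3) := by
    have a1 : 0 ≤ ‖X - XJ - (c' - c) • V‖ * (|R| + 2) := by positivity
    nlinarith
  have h5 : 0 ≤ lam * ρ ^ 2 := by positivity
  calc lam * ρ ^ 2 * (‖X - XJ - (c' - c) • W‖ + |c' - c|)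
      ≤ lam * ρ ^ 2 * ((‖X - XJ - (c' - c) • V‖ + |c' - c|) * (|R| + 3)) := mul_le_mul_of_nonneg_left h4 h5
    _ = (lam * ρ ^ 2 * (‖X - XJ - (c' - c) • V‖ + |c' - c|)) * (|R| + 3) := by ring
    _ ≤ |C₀| * (|R| + 3) := mul_le_mul_of_nonneg_right (hC₀.trans (le_abs_self _)) (by positivity)

/-- the gradient of the mixed phase at the window centre. -/
theorem pk_mix_grad {K : OscBd} {Φ : ℝ → E2 → E2 → ℝ} {ζ : E2 → E2 → E2} (h : IsPhase K Φ ζ) (h0 : 0 < K.a0) {lam ρ : ℝ}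
    (hlam : 0 < lam) (hρ : 0 < ρ) (c c' : ℝ) (XJ X : E2) (j n : ℤ × ℤ) :
    K.a0 * (lam * ρ * ‖X - pkPos lam ζ c ρ XJ j n - (c' - c) • pkVc ρ j‖)
      ≤ ‖(lam * ρ) • pkD ζ (pkVc ρ j) ρ c' c X XJ 0 + Real.pi • pkLat n‖ := by
  have hG : (lam * ρ) • pkD ζ (pkVc ρ j) ρ c' c X XJ 0 + Real.pi • pkLat n
      = (lam * ρ) • (ζ (pkVc ρ j) (X - c' • pkVc ρ j) - ζ (pkVc ρ j) (pkPos lam ζ c ρ XJ j n - c • pkVc ρ j)) := by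
    show (lam * ρ) • (ζ (pkVc ρ j + ρ • (0 : E2)) (X - c' • (pkVc ρ j + ρ • (0 : E2)))
      - ζ (pkVc ρ j + ρ • (0 : E2)) (XJ - c • (pkVc ρ j + ρ • (0 : E2)))) + Real.pi • pkLat n = _
    have e : lam * ρ * (Real.pi / (lam * ρ)) = Real.pi := by
      field_simp
    rw [smul_zero, add_zero, pk_pos_spec h h0, ← sub_add, smul_add, smul_smul, e]
  have e2 : X - c' • pkVc ρ j - (pkPos lam ζ c ρ XJ j n - c • pkVc ρ j)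
      = X - pkPos lam ζ c ρ XJ j n - (c' - c) • pkVc ρ j := by
    rw [sub_smul]
    abel
  have h1 := pk_zeta_lower h (pkVc ρ j) (X - c' • pkVc ρ j) (pkPos lam ζ c ρ XJ j n - c • pkVc ρ j)
  rw [e2] at h1
  rw [hG, norm_smul, Real.norm_eq_abs, abs_of_pos (mul_pos hlam hρ)]
  calc K.a0 * (lam * ρ * ‖X - pkPos lam ζ c ρ XJ j n - (c' - c) • pkVc ρ j‖)
      = lam * ρ * (K.a0 * ‖X - pkPos lam ζ c ρ XJ j n - (c' - c) • pkVc ρ j‖) := by ring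
    _ ≤ _ := mul_le_mul_of_nonneg_left h1 (mul_pos hlam hρ).le

/-- `(1 + g)^{-M} ≤ max(1, 1/a)^M (1 + d)^{-M}` if `a d ≤ g`. -/
theorem pk_mix_inv_pow {a d g : ℝ} (ha : 0 < a) (hd : 0 ≤ d) (hg : a * d ≤ g) (M : ℕ) :
    ((1 + g) ^ M)⁻¹ ≤ (max 1 a⁻¹) ^ M * ((1 + d) ^ M)⁻¹ := by
  have hg0 : 0 ≤ g := (mul_nonneg ha.le hd).trans hg
  have hk1 : 1 ≤ max 1 a⁻¹ := le_max_left _ _
  have hk2 : 1 ≤ max 1 a⁻¹ * a := by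
    calc (1 : ℝ) = a⁻¹ * a := (inv_mul_cancel₀ ha.ne').symm
      _ ≤ _ := mul_le_mul_of_nonneg_right (le_max_right _ _) ha.le
  have h1 : 1 + d ≤ max 1 a⁻¹ * (1 + g) := by
    have a1 : max 1 a⁻¹ * (a * d) ≤ max 1 a⁻¹ * g := mul_le_mul_of_nonneg_left hg (by positivity)
    have a2 : 1 * d ≤ max 1 a⁻¹ * a * d := mul_le_mul_of_nonneg_right hk2 hd
    nlinarith
  have h2 : (1 + d) ^ M ≤ (max 1 a⁻¹) ^ M * (1 + g) ^ M := by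
    rw [← mul_pow]
    exact pow_le_pow_left₀ (by positivity) h1 M
  have hP : 0 < (1 + g) ^ M := by positivity
  have hQ : 0 < (1 + d) ^ M := by positivity
  rw [← div_eq_mul_inv, le_div_iff₀ hQ, inv_mul_le_iff₀ hP]
  linarith

/-- **BR (9.mixed-gram)**. -/
theorem pk_mix_gram (K : OscBd) (h0 : 0 < K.a0) (cmax R C₀ : ℝ) (M : ℕ) (b : ℕ → ℝ) : ∃ C : ℝ, 0 ≤ C ∧
    ∀ (Φ : ℝ → E2 → E2 → ℝ) (ζ : E2 → E2 → E2), IsPhase K Φ ζ → ∀ (lam ρ ρ' c c' : ℝ) (XJ V X : E2) (ψ : E2 → ℂ) (j n : ℤ × ℤ),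
      0 < lam → 0 < ρ → ρ ≤ ρ' → ρ' ≤ 1 → 0 ≤ c → c ≤ cmax → 0 ≤ c' → c' ≤ cmax →
      lam * ρ ^ 2 * (‖X - XJ - (c' - c) • V‖ + |c' - c|) ≤ C₀ → PkAmp M R b ψ →
      ‖∫ v, pkAtomL lam Φ c ρ XJ j n v * pkt lam Φ c' ρ' V X ψ v‖
        ≤ C * (ρ / ρ') * ((1 + lam * ρ * ‖X - pkPos lam ζ c ρ XJ j n - (c' - c) • pkVc ρ j‖) ^ M)⁻¹ := by
  obtain ⟨Λw, hΛw⟩ := pk_win_cb
  obtain ⟨Cn, hCn0, hCn⟩ := pk_nsp_lin K cmax 2 (|C₀| * (|R| + 3)) M (pkLeib (fun j => ‖(1 / 2 : ℂ)‖ * Λw j) b)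
  refine ⟨Cn * (max 1 K.a0⁻¹) ^ M, by positivity,
    fun Φ ζ h lam ρ ρ' c c' XJ V X ψ j n hlam hρ hρρ' hρ'1 hc hcm hc' hcm' hC₀ hψ => ?_⟩
  have hρ' : 0 < ρ' := hρ.trans_le hρρ'
  by_cases hfar : R * ρ' + 2 * ρ < ‖pkVc ρ j - V‖
  · rw [pk_mix_far lam Φ c c' hρ hρ' XJ V X hψ j n hfar, norm_zero]
    positivity
  · rw [not_lt] at hfar
    rw [pk_mix_eq lam Φ c c' hρ hρ' XJ V X ψ j n, norm_mul, Complex.norm_real, Real.norm_eq_abs,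
      abs_of_pos (div_pos hρ hρ')]
    have hamp : PkAmp M 2 (pkLeib (fun j => ‖(1 / 2 : ℂ)‖ * Λw j) b)
        (fun z => (1 / 2 : ℂ) * ((pkWin z : ℝ) : ℂ) * ψ (ρ'⁻¹ • (pkVc ρ j - V) + (ρ / ρ') • z)) := by
      obtain ⟨g1, g2⟩ := pk_amp_affine_bdd hψ (ρ'⁻¹ • (pkVc ρ j - V)) (t := ρ / ρ') (by
        rw [abs_of_pos (div_pos hρ hρ'), div_le_one hρ']
        exact hρρ')
      exact pk_amp_mul_bdd (pk_amp_smul (pk_amp_of_cb pk_win_smooth hΛw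
        (fun z hz => (pk_win_supp z hz).2.2.le) M) (1 / 2)) g1 g2
    have key := hCn Φ ζ h lam ρ c' c (pkVc ρ j) X XJ (Real.pi • pkLat n) _ hlam hρ (hρρ'.trans hρ'1) hc' hcm' hc hcm
      (pk_mix_loc hlam hρ hρρ' hρ'1 hC₀ hfar) hamp
    have h2 := pk_mix_inv_pow h0 (d := lam * ρ * ‖X - pkPos lam ζ c ρ XJ j n - (c' - c) • pkVc ρ j‖) (by positivity)
      (pk_mix_grad h h0 hlam hρ c c' XJ X j n) M
    calc _ ≤ ρ / ρ' * (Cn * ((1 + ‖(lam * ρ) • pkD ζ (pkVc ρ j) ρ c' c X XJ 0 + Real.pi • pkLat n‖) ^ M)⁻¹) :=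
          mul_le_mul_of_nonneg_left key (div_pos hρ hρ').le
      _ ≤ ρ / ρ' * (Cn * ((max 1 K.a0⁻¹) ^ M *
            ((1 + lam * ρ * ‖X - pkPos lam ζ c ρ XJ j n - (c' - c) • pkVc ρ j‖) ^ M)⁻¹)) :=
          mul_le_mul_of_nonneg_left (mul_le_mul_of_nonneg_left h2 hCn0) (div_pos hρ hρ').le
      _ = _ := by ring

/-- multiplicity of the positions over one window, indexed by pairs. -/
theorem pk_mix_fiber_mult {m₁ : ℕ} {σ : ℝ} {x : ℤ × ℤ → ℤ × ℤ → E2} (j : ℤ × ℤ) (hm : ∀ N : Finset (ℤ × ℤ), PkMult N (x j) σ m₁)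
    (S : Finset ((ℤ × ℤ) × (ℤ × ℤ))) (hS : ∀ q ∈ S, q.1 = j) : PkMult S (fun q => x q.1 q.2) σ m₁ := by
  classical
  intro y t hts ht
  have hinj : Set.InjOn Prod.snd (t : Set ((ℤ × ℤ) × (ℤ × ℤ))) := by
    intro q hq q' hq' h
    exact Prod.ext ((hS q (hts hq)).trans (hS q' (hts hq')).symm) h
  rw [← Finset.card_image_of_injOn hinj]
  refine hm (t.image Prod.snd) y (t.image Prod.snd) subset_rfl fun n hn => ?_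
  obtain ⟨q, hq, rfl⟩ := Finset.mem_image.1 hn
  have : ‖x q.1 q.2 - y‖ ≤ σ := ht q hq
  rwa [hS q (hts hq)] at this

/-- number of windows which meet the test. -/
theorem pk_mix_window_count {ρ ρ' R : ℝ} (hρ : 0 < ρ) (hρρ' : ρ ≤ ρ') (V : E2) (J : Finset (ℤ × ℤ))
    (hJ : ∀ j ∈ J, ‖pkVc ρ j - V‖ ≤ R * ρ' + 2 * ρ) : (J.card : ℝ) ≤ ((2 * |R| + 7) * (ρ' / ρ)) ^ 2 := by
  have h1 : 1 ≤ ρ' / ρ := (one_le_div hρ).2 hρρ'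
  have h2 := pk_lat_count (ρ⁻¹ • V) (|R| * (ρ' / ρ) + 3) (by positivity) J (fun j hj => by
    have e : ρ⁻¹ • V - pkLat j = ρ⁻¹ • (V - pkVc ρ j) := by
      show _ = ρ⁻¹ • (V - ρ • pkLat j)
      rw [smul_sub, smul_smul, inv_mul_cancel₀ hρ.ne', one_smul]
    rw [e, norm_smul, Real.norm_eq_abs, abs_of_pos (inv_pos.2 hρ), norm_sub_rev, ← div_eq_inv_mul, div_lt_iff₀ hρ]
    have := hJ j hj
    have a1 : R * ρ' ≤ |R| * ρ' := mul_le_mul_of_nonneg_right (le_abs_self R) (hρ.trans_le hρρ').le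
    have a2 : (|R| * (ρ' / ρ) + 3) * ρ = |R| * ρ' + 3 * ρ := by field_simp
    rw [a2]
    linarith)
  refine h2.trans (pow_le_pow_left₀ (by positivity) ?_ 2)
  calc 2 * (|R| * (ρ' / ρ) + 3) + 1 = 2 * |R| * (ρ' / ρ) + 7 := by ring
    _ ≤ 2 * |R| * (ρ' / ρ) + 7 * (ρ' / ρ) := by linarith
    _ = _ := by ring

/-- **square sums of the far entries** (finite sets of indices). -/
theorem pk_mix_tail (K : OscBd) (h0 : 0 < K.a0) (cmax R C₀ : ℝ) (M : ℕ) (hM : 2 ≤ M) (b : ℕ → ℝ) : ∃ C : ℝ, 0 ≤ C ∧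
    ∀ (Φ : ℝ → E2 → E2 → ℝ) (ζ : E2 → E2 → E2), IsPhase K Φ ζ → ∀ (lam ρ ρ' c c' : ℝ) (XJ V X : E2) (ψ : E2 → ℂ),
      0 < lam → 0 < ρ → ρ ≤ ρ' → ρ' ≤ 1 → 0 ≤ c → c ≤ cmax → 0 ≤ c' → c' ≤ cmax →
      lam * ρ ^ 2 * (‖X - XJ - (c' - c) • V‖ + |c' - c|) ≤ C₀ → PkAmp M R b ψ → ∀ R₁ : ℝ, 0 ≤ R₁ → ∀ P : Finset ((ℤ × ℤ) × (ℤ × ℤ)),
      (∀ q ∈ P, R₁ ≤ lam * ρ * ‖X - pkPos lam ζ c ρ XJ q.1 q.2 - (c' - c) • pkVc ρ q.1‖) →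
      ∑ q ∈ P, ‖∫ v, pkAtomL lam Φ c ρ XJ q.1 q.2 v * pkt lam Φ c' ρ' V X ψ v‖ ^ 2 ≤ C * ((1 + R₁) ^ (2 * M - 3))⁻¹ := by
  classical
  obtain ⟨Cg, hCg0, hCg⟩ := pk_mix_gram K h0 cmax R C₀ M b
  obtain ⟨Cc, hCc0, hCc⟩ := pk_count (2 * M) (by omega)
  obtain ⟨m₁, hm₁⟩ := pk_pos_mult1 K h0
  refine ⟨(2 * |R| + 7) ^ 2 * (Cg ^ 2 * (Cc * m₁)), by positivity,
    fun Φ ζ h lam ρ ρ' c c' XJ V X ψ hlam hρ hρρ' hρ'1 hc hcm hc' hcm' hC₀ hψ R₁ hR₁ P hP => ?_⟩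
  have hρ' : 0 < ρ' := hρ.trans_le hρρ'
  have hσ : 0 < (lam * ρ)⁻¹ := by positivity
  have hW : 0 ≤ ((1 + R₁) ^ (2 * M - 3))⁻¹ := by positivity
  have hd : ∀ (j : ℤ × ℤ) (q : (ℤ × ℤ) × (ℤ × ℤ)), q.1 = j →
      ‖pkPos lam ζ c ρ XJ q.1 q.2 - (X - (c' - c) • pkVc ρ j)‖ / (lam * ρ)⁻¹
        = lam * ρ * ‖X - pkPos lam ζ c ρ XJ q.1 q.2 - (c' - c) • pkVc ρ q.1‖ := by
    intro j q hq
    rw [div_inv_eq_mul, mul_comm, norm_sub_rev, hq, sub_right_comm]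
  have hfib : ∀ j : ℤ × ℤ, ∑ q ∈ P.filter (fun q => q.1 = j),
      ‖∫ v, pkAtomL lam Φ c ρ XJ q.1 q.2 v * pkt lam Φ c' ρ' V X ψ v‖ ^ 2
      ≤ if ‖pkVc ρ j - V‖ ≤ R * ρ' + 2 * ρ then
        Cg ^ 2 * (ρ / ρ') ^ 2 * (Cc * m₁ * ((1 + R₁) ^ (2 * M - 3))⁻¹) else 0 := by
    intro j
    split_ifs with hj
    · have hmult : PkMult (P.filter (fun q => q.1 = j)) (fun q => pkPos lam ζ c ρ XJ q.1 q.2) (lam * ρ)⁻¹ m₁ :=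
        pk_mix_fiber_mult (x := fun j n => pkPos lam ζ c ρ XJ j n) j (fun N => hm₁ Φ ζ h lam ρ c XJ j hlam hρ N) _
          (fun q hq => (Finset.mem_filter.1 hq).2)
      have hcount := hCc _ (P.filter (fun q => q.1 = j)) (fun q => pkPos lam ζ c ρ XJ q.1 q.2) (lam * ρ)⁻¹ m₁ hσ hmult
        (X - (c' - c) • pkVc ρ j) R₁ hR₁ (fun q hq => by
          have h1 := hP q (Finset.mem_filter.1 hq).1
          rw [← hd j q (Finset.mem_filter.1 hq).2, le_div_iff₀ hσ] at h1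
          exact h1)
      calc ∑ q ∈ P.filter (fun q => q.1 = j), ‖∫ v, pkAtomL lam Φ c ρ XJ q.1 q.2 v * pkt lam Φ c' ρ' V X ψ v‖ ^ 2
          ≤ ∑ q ∈ P.filter (fun q => q.1 = j), Cg ^ 2 * (ρ / ρ') ^ 2 *
            ((1 + ‖pkPos lam ζ c ρ XJ q.1 q.2 - (X - (c' - c) • pkVc ρ j)‖ / (lam * ρ)⁻¹) ^ (2 * M))⁻¹ := by
            refine Finset.sum_le_sum fun q hq => ?_
            rw [hd j q (Finset.mem_filter.1 hq).2]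
            have h1 := hCg Φ ζ h lam ρ ρ' c c' XJ V X ψ q.1 q.2 hlam hρ hρρ' hρ'1 hc hcm hc' hcm' hC₀ hψ
            have h2 := pow_le_pow_left₀ (norm_nonneg _) h1 2
            refine h2.trans (le_of_eq ?_)
            rw [mul_pow, mul_pow, inv_pow, ← pow_mul, mul_comm M 2]
        _ = Cg ^ 2 * (ρ / ρ') ^ 2 * ∑ q ∈ P.filter (fun q => q.1 = j),
            ((1 + ‖pkPos lam ζ c ρ XJ q.1 q.2 - (X - (c' - c) • pkVc ρ j)‖ / (lam * ρ)⁻¹) ^ (2 * M))⁻¹ := by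
            rw [Finset.mul_sum]
        _ ≤ _ := mul_le_mul_of_nonneg_left hcount (by positivity)
    · refine le_of_eq (Finset.sum_eq_zero fun q hq => ?_)
      rw [not_le, ← (Finset.mem_filter.1 hq).2] at hj
      rw [pk_mix_far lam Φ c c' hρ hρ' XJ V X hψ q.1 q.2 hj]
      simp
  have hcard := pk_mix_window_count (R := R) hρ hρρ' V
    ((P.image Prod.fst).filter fun j => ‖pkVc ρ j - V‖ ≤ R * ρ' + 2 * ρ) (fun j hj => (Finset.mem_filter.1 hj).2)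
  calc ∑ q ∈ P, ‖∫ v, pkAtomL lam Φ c ρ XJ q.1 q.2 v * pkt lam Φ c' ρ' V X ψ v‖ ^ 2
      = ∑ j ∈ P.image Prod.fst, ∑ q ∈ P.filter (fun q => q.1 = j),
        ‖∫ v, pkAtomL lam Φ c ρ XJ q.1 q.2 v * pkt lam Φ c' ρ' V X ψ v‖ ^ 2 :=
        (Finset.sum_fiberwise_of_maps_to (fun q hq => Finset.mem_image_of_mem _ hq) _).symm
    _ ≤ ∑ j ∈ P.image Prod.fst, if ‖pkVc ρ j - V‖ ≤ R * ρ' + 2 * ρ then
        Cg ^ 2 * (ρ / ρ') ^ 2 * (Cc * m₁ * ((1 + R₁) ^ (2 * M - 3))⁻¹) else 0 := Finset.sum_le_sum fun j _ => hfib j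
    _ = (((P.image Prod.fst).filter fun j => ‖pkVc ρ j - V‖ ≤ R * ρ' + 2 * ρ).card : ℝ) *
        (Cg ^ 2 * (ρ / ρ') ^ 2 * (Cc * m₁ * ((1 + R₁) ^ (2 * M - 3))⁻¹)) := by
        rw [← Finset.sum_filter, Finset.sum_const, nsmul_eq_mul]
    _ ≤ ((2 * |R| + 7) * (ρ' / ρ)) ^ 2 * (Cg ^ 2 * (ρ / ρ') ^ 2 * (Cc * m₁ * ((1 + R₁) ^ (2 * M - 3))⁻¹)) :=
        mul_le_mul_of_nonneg_right hcard (by positivity)
    _ = _ := by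
        field_simp

/-- **transport for arbitrary coefficients on far indices** (BR L9.3(2), "any subset of the retained coefficients"). -/
theorem pk_mix_subset (K : OscBd) (h0 : 0 < K.a0) (cmax R C₀ : ℝ) (M : ℕ) (hM : 2 ≤ M) (b : ℕ → ℝ) : ∃ C : ℝ, 0 ≤ C ∧
    ∀ (Φ : ℝ → E2 → E2 → ℝ) (ζ : E2 → E2 → E2), IsPhase K Φ ζ → ∀ (lam ρ ρ' c c' : ℝ) (XJ V X : E2) (ψ : E2 → ℂ),
      0 < lam → 0 < ρ → ρ ≤ ρ' → ρ' ≤ 1 → 0 ≤ c → c ≤ cmax → 0 ≤ c' → c' ≤ cmax →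
      lam * ρ ^ 2 * (‖X - XJ - (c' - c) • V‖ + |c' - c|) ≤ C₀ → PkAmp M R b ψ → ∀ R₁ : ℝ, 0 ≤ R₁ → ∀ P : Finset ((ℤ × ℤ) × (ℤ × ℤ)),
      (∀ q ∈ P, R₁ ≤ lam * ρ * ‖X - pkPos lam ζ c ρ XJ q.1 q.2 - (c' - c) • pkVc ρ q.1‖) → ∀ a : (ℤ × ℤ) × (ℤ × ℤ) → ℂ,
      ‖∑ q ∈ P, a q * ∫ v, pkAtomL lam Φ c ρ XJ q.1 q.2 v * pkt lam Φ c' ρ' V X ψ v‖ ^ 2
        ≤ C * (∑ q ∈ P, ‖a q‖ ^ 2) * ((1 + R₁) ^ (2 * M - 3))⁻¹ := by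
  obtain ⟨C, hC0, hC⟩ := pk_mix_tail K h0 cmax R C₀ M hM b
  refine ⟨C, hC0, fun Φ ζ h lam ρ ρ' c c' XJ V X ψ hlam hρ hρρ' hρ'1 hc hcm hc' hcm' hC₀ hψ R₁ hR₁ P hP a => ?_⟩
  have h1 := hC Φ ζ h lam ρ ρ' c c' XJ V X ψ hlam hρ hρρ' hρ'1 hc hcm hc' hcm' hC₀ hψ R₁ hR₁ P hP
  have h2 : ‖∑ q ∈ P, a q * ∫ v, pkAtomL lam Φ c ρ XJ q.1 q.2 v * pkt lam Φ c' ρ' V X ψ v‖
      ≤ ∑ q ∈ P, ‖a q‖ * ‖∫ v, pkAtomL lam Φ c ρ XJ q.1 q.2 v * pkt lam Φ c' ρ' V X ψ v‖ := by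
    refine (norm_sum_le _ _).trans (le_of_eq (Finset.sum_congr rfl fun q _ => ?_))
    rw [norm_mul]
  have h3 := Finset.sum_mul_sq_le_sq_mul_sq P (fun q => ‖a q‖)
    (fun q => ‖∫ v, pkAtomL lam Φ c ρ XJ q.1 q.2 v * pkt lam Φ c' ρ' V X ψ v‖)
  calc _ ≤ (∑ q ∈ P, ‖a q‖ * ‖∫ v, pkAtomL lam Φ c ρ XJ q.1 q.2 v * pkt lam Φ c' ρ' V X ψ v‖) ^ 2 :=
        pow_le_pow_left₀ (norm_nonneg _) h2 2
    _ ≤ _ := h3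
    _ ≤ (∑ q ∈ P, ‖a q‖ ^ 2) * (C * ((1 + R₁) ^ (2 * M - 3))⁻¹) :=
        mul_le_mul_of_nonneg_left h1 (Finset.sum_nonneg fun q _ => by positivity)
    _ = _ := by ring

/-- the set of windows which meet the test is finite. -/
theorem pk_mix_windows_finite {ρ ρ' : ℝ} (R : ℝ) (hρ : 0 < ρ) (hρρ' : ρ ≤ ρ') (V : E2) :
    {j : ℤ × ℤ | ‖pkVc ρ j - V‖ ≤ R * ρ' + 2 * ρ}.Finite := by
  by_contra hinf
  obtain ⟨t, ht, hcard⟩ := Set.Infinite.exists_subset_card_eq hinf (⌈((2 * |R| + 7) * (ρ' / ρ)) ^ 2⌉₊ + 1)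
  have h1 := pk_mix_window_count (R := R) hρ hρρ' V t (fun j hj => ht hj)
  rw [hcard] at h1
  have h2 := Nat.le_ceil (((2 * |R| + 7) * (ρ' / ρ)) ^ 2)
  push_cast at h1
  linarith

/-- **BR (9.summed-tail)**: replacing `f` by a finite sum of atoms which contains all near indices. -/
theorem pk_mix_expand (K : OscBd) (h0 : 0 < K.a0) (cmax R C₀ : ℝ) (M : ℕ) (hM : 2 ≤ M) (b : ℕ → ℝ) : ∃ C : ℝ, 0 ≤ C ∧
    ∀ (Φ : ℝ → E2 → E2 → ℝ) (ζ : E2 → E2 → E2), IsPhase K Φ ζ → ∀ (lam ρ ρ' c c' : ℝ) (XJ V X : E2) (ψ : E2 → ℂ),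
      0 < lam → 0 < ρ → ρ ≤ ρ' → ρ' ≤ 1 → 0 ≤ c → c ≤ cmax → 0 ≤ c' → c' ≤ cmax →
      lam * ρ ^ 2 * (‖X - XJ - (c' - c) • V‖ + |c' - c|) ≤ C₀ → PkAmp M R b ψ → ∀ f : E2 → ℂ, MemLp f 2 volume →
      ∀ R₁ : ℝ, 0 ≤ R₁ → ∀ P₀ : Finset ((ℤ × ℤ) × (ℤ × ℤ)),
      (∀ q : (ℤ × ℤ) × (ℤ × ℤ), ‖pkVc ρ q.1 - V‖ ≤ R * ρ' + 2 * ρ →
        lam * ρ * ‖X - pkPos lam ζ c ρ XJ q.1 q.2 - (c' - c) • pkVc ρ q.1‖ < R₁ → q ∈ P₀) →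
      ‖(∫ v, f v * pkt lam Φ c' ρ' V X ψ v)
          - ∑ q ∈ P₀, pkCoef lam Φ c ρ XJ f q.1 q.2 * ∫ v, pkAtomL lam Φ c ρ XJ q.1 q.2 v * pkt lam Φ c' ρ' V X ψ v‖ ^ 2
        ≤ C * (∫ v, ‖f v‖ ^ 2) * ((1 + R₁) ^ (2 * M - 3))⁻¹ := by
  classical
  obtain ⟨C, hC0, hC⟩ := pk_mix_subset K h0 cmax R C₀ M hM b
  refine ⟨C, hC0, fun Φ ζ h lam ρ ρ' c c' XJ V X ψ hlam hρ hρρ' hρ'1 hc hcm hc' hcm' hC₀ hψ f hf R₁ hR₁ P₀ hP₀ => ?_⟩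
  have hρ' : 0 < ρ' := hρ.trans_le hρρ'
  have hG : MemLp (pkt lam Φ c' ρ' V X ψ) 2 volume := pk_pkt_memLp h hψ lam hρ' hc' V X
  obtain ⟨S, hS⟩ : ∃ S : Finset (ℤ × ℤ), ∀ j, j ∈ S ↔ ‖pkVc ρ j - V‖ ≤ R * ρ' + 2 * ρ :=
    ⟨(pk_mix_windows_finite R hρ hρρ' V).toFinset, fun j => by simp⟩
  have hwin := pk_window_sum_pair hρ f (pkt lam Φ c' ρ' V X ψ) hf hG S (fun v hv j hj => by
    rw [hS]
    have h3 := pk_pkt_supp hψ lam hρ' c' V X v hv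
    have h4 : ‖pkVc ρ j - V‖ ≤ ‖v - V‖ + ‖v - pkVc ρ j‖ := by
      have := norm_sub_le (v - V) (v - pkVc ρ j)
      rwa [sub_sub_sub_cancel_left] at this
    linarith)
  have hsum : HasSum (fun n : ℤ × ℤ => ∑ j ∈ S, pkCoef lam Φ c ρ XJ f j n *
      ∫ v, pkAtomL lam Φ c ρ XJ j n v * pkt lam Φ c' ρ' V X ψ v) (∫ v, f v * pkt lam Φ c' ρ' V X ψ v) := by
    rw [← hwin]
    exact hasSum_sum fun j _ => pk_coef_pair h lam hc hρ XJ f _ hf hG j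
  have hT : Filter.Tendsto (fun N : Finset (ℤ × ℤ) => ‖(∑ n ∈ N, ∑ j ∈ S, pkCoef lam Φ c ρ XJ f j n *
      ∫ v, pkAtomL lam Φ c ρ XJ j n v * pkt lam Φ c' ρ' V X ψ v)
      - ∑ q ∈ P₀, pkCoef lam Φ c ρ XJ f q.1 q.2 * ∫ v, pkAtomL lam Φ c ρ XJ q.1 q.2 v * pkt lam Φ c' ρ' V X ψ v‖ ^ 2)
      Filter.atTop (nhds (‖(∫ v, f v * pkt lam Φ c' ρ' V X ψ v)
      - ∑ q ∈ P₀, pkCoef lam Φ c ρ XJ f q.1 q.2 * ∫ v, pkAtomL lam Φ c ρ XJ q.1 q.2 v * pkt lam Φ c' ρ' V X ψ v‖ ^ 2)) := by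
    have h1 : Filter.Tendsto (fun N : Finset (ℤ × ℤ) => ∑ n ∈ N, ∑ j ∈ S, pkCoef lam Φ c ρ XJ f j n *
      ∫ v, pkAtomL lam Φ c ρ XJ j n v * pkt lam Φ c' ρ' V X ψ v) Filter.atTop
      (nhds (∫ v, f v * pkt lam Φ c' ρ' V X ψ v)) := hsum
    exact ((h1.sub_const _).norm).pow 2
  refine le_of_tendsto hT ?_
  filter_upwards [Filter.eventually_ge_atTop (P₀.image Prod.snd)] with N hN
  have e1 : ∑ n ∈ N, ∑ j ∈ S, pkCoef lam Φ c ρ XJ f j n * ∫ v, pkAtomL lam Φ c ρ XJ j n v * pkt lam Φ c' ρ' V X ψ v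
      = ∑ q ∈ S ×ˢ N, pkCoef lam Φ c ρ XJ f q.1 q.2 * ∫ v, pkAtomL lam Φ c ρ XJ q.1 q.2 v * pkt lam Φ c' ρ' V X ψ v :=
    (Finset.sum_product_right S N (fun q => pkCoef lam Φ c ρ XJ f q.1 q.2 *
      ∫ v, pkAtomL lam Φ c ρ XJ q.1 q.2 v * pkt lam Φ c' ρ' V X ψ v)).symm
  have e2 : ∑ q ∈ P₀ \ (S ×ˢ N), pkCoef lam Φ c ρ XJ f q.1 q.2 *
      ∫ v, pkAtomL lam Φ c ρ XJ q.1 q.2 v * pkt lam Φ c' ρ' V X ψ v = 0 := by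
    refine Finset.sum_eq_zero fun q hq => ?_
    obtain ⟨hq1, hq2⟩ := Finset.mem_sdiff.1 hq
    have hq3 : q.1 ∉ S := fun hq3 =>
      hq2 (Finset.mem_product.2 ⟨hq3, hN (Finset.mem_image_of_mem _ hq1)⟩)
    rw [hS, not_le] at hq3
    rw [pk_mix_far lam Φ c c' hρ hρ' XJ V X hψ q.1 q.2 hq3, mul_zero]
  rw [e1, ← Finset.sum_sdiff_sub_sum_sdiff, e2, sub_zero]
  have h1 := hC Φ ζ h lam ρ ρ' c c' XJ V X ψ hlam hρ hρρ' hρ'1 hc hcm hc' hcm' hC₀ hψ R₁ hR₁ ((S ×ˢ N) \ P₀)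
    (fun q hq => by
      obtain ⟨hq1, hq2⟩ := Finset.mem_sdiff.1 hq
      by_contra hlt
      exact hq2 (hP₀ q ((hS q.1).1 (Finset.mem_product.1 hq1).1) (not_le.1 hlt)))
    (fun q => pkCoef lam Φ c ρ XJ f q.1 q.2)
  refine h1.trans ?_
  have h2 := pk_coef_sum_le h lam hc hρ XJ f hf ((S ×ˢ N) \ P₀)
  exact mul_le_mul_of_nonneg_right (mul_le_mul_of_nonneg_left h2 hC0) (by positivity)

end Claimed.Agent.R255
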