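import Claimed.Agent.R255.Pk.Cb

/-!
# R255 / Pk / CbExp : TOOL T7 = DERIVATIVE BOUNDS FOR `exp(iG)` AND RECIPROCALS      (architect helper91)

`pk_cb_cexp`: NO bound on `G` itself (scalar phases are not controlled), only on the derivatives of order `≥ 1`.
PLAN.  `norm_iteratedFDerivWithin_comp_le` needs the derivatives of the INNER map only for orders `1 ≤ i ≤ n` (`‖D^i G‖ ≤ D^i`, take `D = 1 + ∑_{i<n} Λ i`), and of the outer map `t ↦ exp(i t)` all orders `≤ 1 =: C`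
 (`iteratedDeriv` of `fun t : ℝ => Complex.exp (Complex.I * t)` is `I^k exp(I t)`; `norm_iteratedFDeriv_eq_norm_iteratedDeriv`; `Complex.norm_exp_ofReal_mul_I`).  Copy the proof of `Cb.comp`.   Result: `Λ' k = k! (1 + ∑_{i<k} Λ i)^k`.
 `pk_cb_inv`: `Cb.comp` with `pk_cb_rpow (a/2) (r = -1)` and `Real.rpow_neg_one`.
-/

set_option autoImplicit false

namespace Claimed.Agent.R255

open Metric Set
open scoped ContDiff Nat

variable {X : Type} [NormedAddCommGroup X] [NormedSpace ℝ X]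

theorem pk_cexp_hasDerivAt (t : ℝ) :
    HasDerivAt (fun t : ℝ => Complex.exp (Complex.I * (t : ℂ))) (Complex.I * Complex.exp (Complex.I * (t : ℂ))) t := by
  have h := (((hasDerivAt_id (t : ℂ)).const_mul Complex.I).cexp).comp_ofReal
  simp only [id, mul_one] at h
  rw [mul_comm]
  exact h

theorem pk_cexp_iteratedDeriv (n : ℕ) :
    iteratedDeriv n (fun t : ℝ => Complex.exp (Complex.I * (t : ℂ)))
      = fun t : ℝ => Complex.I ^ n * Complex.exp (Complex.I * (t : ℂ)) := by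
  induction n with
  | zero => simp
  | succ n ih =>
    rw [iteratedDeriv_succ, ih]
    funext t
    rw [((pk_cexp_hasDerivAt t).const_mul (Complex.I ^ n)).deriv]
    ring

theorem pk_cexp_contDiff : ContDiff ℝ ∞ (fun t : ℝ => Complex.exp (Complex.I * (t : ℂ))) :=
  (contDiff_const.mul Complex.ofRealCLM.contDiff).cexp

theorem pk_cexp_norm (n : ℕ) (t : ℝ) :
    ‖iteratedFDeriv ℝ n (fun t : ℝ => Complex.exp (Complex.I * (t : ℂ))) t‖ ≤ 1 := by
  rw [norm_iteratedFDeriv_eq_norm_iteratedDeriv, pk_cexp_iteratedDeriv, norm_mul, norm_pow, Complex.norm_I,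
    one_pow, one_mul, mul_comm, Complex.norm_exp_ofReal_mul_I]

/-- **T7a**: unimodular exponentials. -/
theorem pk_cb_cexp {Λ : ℕ → ℝ} {Ω : Set X} {G : X → ℝ} (hΩ : IsOpen Ω) (hd : DifferentiableOn ℝ G Ω) (h : Cb Λ Ω (fderiv ℝ G)) :
    Cb (fun k => k ! * (1 + ∑ i ∈ Finset.range k, Λ i) ^ k) Ω (fun z => Complex.exp (Complex.I * (G z : ℂ))) := by
  have hG : ContDiffOn ℝ ∞ G Ω := (contDiffOn_infty_iff_fderiv_of_isOpen hΩ).2 ⟨hd, h.smooth⟩
  refine ⟨pk_cexp_contDiff.comp_contDiffOn hG, fun k x hx => ?_⟩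
  have hΛ0 : ∀ i, 0 ≤ Λ i := fun i => (norm_nonneg _).trans (h.bd i x hx)
  have hb := norm_iteratedFDerivWithin_comp_le (n := k) (N := ∞)
    (g := fun t : ℝ => Complex.exp (Complex.I * (t : ℂ))) (f := G) (s := Ω) (t := univ) (x := x)
    pk_cexp_contDiff.contDiffOn hG
    (by exact_mod_cast le_top) uniqueDiffOn_univ hΩ.uniqueDiffOn (mapsTo_univ _ _) hx
    (C := 1) (D := 1 + ∑ i ∈ Finset.range k, Λ i)
    (by
      intro i _
      rw [iteratedFDerivWithin_univ]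
      exact pk_cexp_norm i _)
    (by
      intro i hi1 hi
      rw [iteratedFDerivWithin_of_isOpen i hΩ hx]
      obtain ⟨j, rfl⟩ : ∃ j, i = j + 1 := ⟨i - 1, by omega⟩
      rw [← norm_iteratedFDeriv_fderiv]
      have h1 : Λ j ≤ ∑ i ∈ Finset.range k, Λ i :=
        Finset.single_le_sum (f := Λ) (fun j _ => hΛ0 j) (Finset.mem_range.2 (by omega))
      have h2 : 0 ≤ ∑ i ∈ Finset.range k, Λ i := Finset.sum_nonneg fun j _ => hΛ0 j
      have h3 : (1 : ℝ) ≤ 1 + ∑ i ∈ Finset.range k, Λ i := by linarith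
      calc _ ≤ Λ j := h.bd j x hx
        _ ≤ 1 + ∑ i ∈ Finset.range k, Λ i := by linarith
        _ ≤ _ := le_self_pow₀ h3 (by omega))
  rw [iteratedFDerivWithin_of_isOpen k hΩ hx, mul_one] at hb
  exact hb

/-- **T7b**: reciprocals. -/
theorem pk_cb_inv (Λ : ℕ → ℝ) (a : ℝ) (ha : 0 < a) : ∃ Λ' : ℕ → ℝ, ∀ (Ω : Set X) (g : X → ℝ), IsOpen Ω → Cb Λ Ω g →
    (∀ z ∈ Ω, a ≤ g z) → Cb Λ' Ω (fun z => (g z)⁻¹) := by
  refine ⟨fun k => k ! * (∑ i ∈ Finset.range (k + 1),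
    |(descPochhammer ℝ i).eval (-1 : ℝ)| * (a / 2) ^ ((-1 : ℝ) - i)) *
      (1 + ∑ i ∈ Finset.range (k + 1), Λ i) ^ k, fun Ω g hΩ hg hga => ?_⟩
  have h1 := hg.comp hΩ isOpen_Ioi (pk_cb_rpow (a := a / 2) (r := -1) (by positivity) (by norm_num))
    (fun z hz => by
      have := hga z hz
      show a / 2 < g z
      linarith)
  have e : (fun z => (g z) ^ (-1 : ℝ)) = fun z => (g z)⁻¹ := by
    funext z
    exact Real.rpow_neg_one _
  rw [e] at h1
  exact h1

end Claimed.Agent.R255
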