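import Claimed.Agent.R255.Pk.Nsp
import Claimed.Agent.R255.Pk.CbExp

/-!
# R255 / Pk / NspMain : TOOL T1 = NON-STATIONARY PHASE ALONG A FIXED DIRECTION, the induction      (architect helper91)

See the header of `Nsp.lean` for the plan.  Black boxes: `pk_nsp_step` (`Nsp.lean`), `pk_cb_inv` (`CbExp.lean`), the calculus `Cb.*`.
 `a / ∂_e φ = m⁻¹ a h`, `h = (∂_e φ / m)⁻¹`, `Cb Λh Ω h` with `Λh` from `pk_cb_inv Λ 1`.   New amplitude `a₁ = m⁻¹ ∂_e (a h)`; apply the induction hypothesis to `m • a₁` with the bounds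
 `b' j = ∑_{i ≤ j+1} C(j+1,i) b_i Λh_{j+1-i}` (`j ≤ M`), valid on `Ω` by the Leibniz bound and off `tsupport a` trivially (`a₁ = 0` near such points).
-/

set_option autoImplicit false

namespace Claimed.Agent.R255

open MeasureTheory Metric Set
open scoped ContDiff

variable {E : Type} [NormedAddCommGroup E] [NormedSpace ℝ E] [FiniteDimensional ℝ E] [MeasurableSpace E] [BorelSpace E]
  (μ : Measure E) [μ.IsAddHaarMeasure]

omit [FiniteDimensional ℝ E] [NormedSpace ℝ E] [BorelSpace E] in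
/-- the trivial bound. -/
theorem pk_nsp_base {S : Set E} {a : E → ℂ} {φ : E → ℝ} {B : ℝ} (hS : IsCompact S) (hsupp : tsupport a ⊆ S)
    (hB : ∀ z, ‖a z‖ ≤ B) :
    ‖∫ z, a z * Complex.exp (Complex.I * (φ z : ℂ)) ∂μ‖ ≤ B * (μ S).toReal := by
  have h1 : ∫ z, a z * Complex.exp (Complex.I * (φ z : ℂ)) ∂μ
      = ∫ z in S, a z * Complex.exp (Complex.I * (φ z : ℂ)) ∂μ := by
    refine (setIntegral_eq_integral_of_forall_compl_eq_zero fun z hz => ?_).symm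
    have h0 : a z = 0 := by
      by_contra h
      exact hz (hsupp (subset_tsupport a h))
    rw [h0, zero_mul]
  rw [h1]
  refine norm_setIntegral_le_of_norm_le_const hS.measure_lt_top fun z _ => ?_
  rw [norm_mul, mul_comm Complex.I, Complex.norm_exp_ofReal_mul_I, mul_one]
  exact hB z

omit [FiniteDimensional ℝ E] [MeasurableSpace E] [BorelSpace E] in
/-- the bounds of the new amplitude. -/
theorem pk_nsp_amp (M : ℕ) (b Λh : ℕ → ℝ) {Ω S : Set E} {a : E → ℂ} {h : E → ℝ} {e : E} (hΩ : IsOpen Ω)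
    (hS : IsCompact S) (hSΩ : S ⊆ Ω) (he : ‖e‖ ≤ 1) (ha : ContDiff ℝ ∞ a) (hsupp : tsupport a ⊆ S)
    (hb : ∀ j ≤ M + 1, ∀ z, ‖iteratedFDeriv ℝ j a z‖ ≤ b j) (hh : Cb Λh Ω h) :
    ∀ j ≤ M, ∀ z, ‖iteratedFDeriv ℝ j (fun z => fderiv ℝ (fun y => a y * ((h y : ℝ) : ℂ)) z e) z‖
      ≤ ∑ i ∈ Finset.range (j + 2), ((j + 1).choose i : ℝ) * |b i| * |Λh (j + 1 - i)| := by
  have hcs : HasCompactSupport a := hS.of_isClosed_subset (isClosed_tsupport a) hsupp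
  have hB : ∀ j : ℕ, ∃ C, ∀ z, ‖iteratedFDeriv ℝ j a z‖ ≤ C := fun j =>
    (ha.continuous_iteratedFDeriv (m := j) (by exact_mod_cast le_top)).bounded_above_of_compact_support
      (hcs.iteratedFDeriv j)
  choose B hB using hB
  have hca : Cb (fun j => if j ≤ M + 1 then b j else B j) Ω a := by
    refine ⟨ha.contDiffOn, fun j x _ => ?_⟩
    show _ ≤ if j ≤ M + 1 then b j else B j
    split_ifs with hj
    · exact hb j hj x
    · exact hB j x
  have hm := hca.mul hΩ (hh.ofReal hΩ)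
  have hv := hm.fd_apply hΩ e
  intro j hj z
  by_cases hz : z ∈ Ω
  · refine (hv.bd j z hz).trans ?_
    have hX0 := (norm_nonneg _).trans (hm.bd (j + 1) z hz)
    refine (mul_le_mul_of_nonneg_right he hX0).trans ?_
    rw [one_mul]
    refine Finset.sum_le_sum fun i hi => ?_
    rw [if_pos (by have := Finset.mem_range.1 hi; omega)]
    calc ((j + 1).choose i : ℝ) * b i * Λh (j + 1 - i) ≤ |((j + 1).choose i : ℝ) * b i * Λh (j + 1 - i)| := le_abs_self _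
      _ = _ := by rw [abs_mul, abs_mul, Nat.abs_cast]
  · have hv' : ContDiff ℝ ∞ (fun y => a y * ((h y : ℝ) : ℂ)) := pk_nsp_glue hΩ hSΩ ha hsupp (hh.ofReal hΩ).smooth
    obtain ⟨-, h2⟩ := pk_nsp_dir e hv' (pk_nsp_tsupport_mul hsupp)
    have h3 : (fun z => fderiv ℝ (fun y => a y * ((h y : ℝ) : ℂ)) z e) =ᶠ[nhds z] 0 :=
      notMem_tsupport_iff_eventuallyEq.1 fun h => hz (hSΩ (h2 h))
    rw [(h3.iteratedFDeriv (𝕜 := ℝ) j).self_of_nhds]
    have h4 : iteratedFDeriv ℝ j (0 : E → ℂ) z = 0 := by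
      simp
    rw [h4, norm_zero]
    positivity

/-- **T1**: non-stationary phase. -/
theorem pk_nsp (M : ℕ) (b Λ : ℕ → ℝ) : ∃ C : ℝ, 0 ≤ C ∧
    ∀ (Ω S : Set E) (a : E → ℂ) (φ : E → ℝ) (e : E) (m : ℝ), IsOpen Ω → IsCompact S → S ⊆ Ω → ‖e‖ ≤ 1 → 0 < m →
      ContDiff ℝ ∞ a → tsupport a ⊆ S → (∀ j ≤ M, ∀ z, ‖iteratedFDeriv ℝ j a z‖ ≤ b j) →
      ContDiffOn ℝ ∞ φ Ω → (∀ z ∈ Ω, m ≤ fderiv ℝ φ z e) → Cb (fun j => Λ j * m) Ω (fun z => fderiv ℝ φ z e) →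
      ‖∫ z, a z * Complex.exp (Complex.I * (φ z : ℂ)) ∂μ‖ ≤ C * (m ^ M)⁻¹ * (μ S).toReal := by
  induction M generalizing b with
  | zero =>
    refine ⟨|b 0|, abs_nonneg _, fun Ω S a φ e m hΩ hS hSΩ he hm ha hsupp hb hφ hpos hcb => ?_⟩
    have := pk_nsp_base μ (φ := φ) hS hsupp (B := |b 0|) (fun z => by
      have := hb 0 le_rfl z
      rw [norm_iteratedFDeriv_zero] at this
      exact this.trans (le_abs_self _))
    simpa using this
  | succ M ih =>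
    obtain ⟨Λh, hΛh⟩ := pk_cb_inv (X := E) Λ 1 one_pos
    obtain ⟨C, hC0, hC⟩ := ih (fun j => ∑ i ∈ Finset.range (j + 2), ((j + 1).choose i : ℝ) * |b i| * |Λh (j + 1 - i)|)
    refine ⟨C, hC0, fun Ω S a φ e m hΩ hS hSΩ he hm ha hsupp hb hφ hpos hcb => ?_⟩
    have hg : Cb Λ Ω (fun z => m⁻¹ • fderiv ℝ φ z e) := by
      refine (hcb.const_smul hΩ m⁻¹).mono subset_rfl fun j => le_of_eq ?_
      rw [abs_of_pos (inv_pos.2 hm)]
      field_simp
    have hh := hΛh Ω _ hΩ hg (fun z hz => by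
      rw [smul_eq_mul, ← div_eq_inv_mul, le_div_iff₀ hm, one_mul]
      exact hpos z hz)
    have hv : ContDiff ℝ ∞ (fun y => a y * (((m⁻¹ • fderiv ℝ φ y e)⁻¹ : ℝ) : ℂ)) :=
      pk_nsp_glue hΩ hSΩ ha hsupp (hh.ofReal hΩ).smooth
    obtain ⟨h1, h2⟩ := pk_nsp_dir e hv (pk_nsp_tsupport_mul hsupp)
    have hbd := pk_nsp_amp M b Λh hΩ hS hSΩ he ha hsupp hb hh
    have hI := hC Ω S _ φ e m hΩ hS hSΩ he hm h1 h2 hbd hφ hpos hcb
    obtain ⟨-, -, h3⟩ := pk_nsp_step μ hΩ hS hSΩ ha hsupp hφ (e := e) (fun z hz => (hm.trans_le (hpos z hz)).ne')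
    have hm' : (m : ℂ) ≠ 0 := Complex.ofReal_ne_zero.2 hm.ne'
    have e1 : (fun y => a y * ((fderiv ℝ φ y e : ℝ) : ℂ)⁻¹)
        = fun y => ((m⁻¹ : ℝ) : ℂ) * (a y * (((m⁻¹ • fderiv ℝ φ y e)⁻¹ : ℝ) : ℂ)) := by
      funext y
      rw [smul_eq_mul, mul_inv, inv_inv]
      push_cast
      field_simp
    have e2 : ∀ z, fderiv ℝ (fun y => ((m⁻¹ : ℝ) : ℂ) * (a y * (((m⁻¹ • fderiv ℝ φ y e)⁻¹ : ℝ) : ℂ))) z e
        = ((m⁻¹ : ℝ) : ℂ) * fderiv ℝ (fun y => a y * (((m⁻¹ • fderiv ℝ φ y e)⁻¹ : ℝ) : ℂ)) z e := by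
      intro z
      rw [fderiv_const_mul (hv.differentiable (by simp) z)]
      rfl
    rw [e1] at h3
    simp only [e2, mul_assoc] at h3
    rw [integral_const_mul] at h3
    simp only [← mul_assoc] at h3 hI
    rw [h3, norm_mul, norm_mul, Complex.norm_I, one_mul, Complex.norm_real, Real.norm_eq_abs,
      abs_of_pos (inv_pos.2 hm)]
    calc _ ≤ m⁻¹ * (C * (m ^ M)⁻¹ * (μ S).toReal) := mul_le_mul_of_nonneg_left hI (inv_pos.2 hm).le
      _ = C * (m ^ (M + 1))⁻¹ * (μ S).toReal := by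
        rw [pow_succ, mul_inv]
        ring

end Claimed.Agent.R255
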