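import Claimed.Agent.R255.Pk.Amp
import Claimed.Agent.R255.Pk.NspMain

/-!
# R255 / Pk / Lin : PHASE DIFFERENCES PLUS A LINEAR TERM, IN THE REGIME `λρ²(|w| + |c-c'|) ≤ C₀`      (architect helper91)

`φ(z) = pkPh lam Φ V ρ c c' X X' z + ⟪ξ, z⟫`,  `∇φ(z) = λρ pkD(z) + ξ`,  `w = X - X' - (c - c') V`.    By `pk_D_cb`: `‖D^j ∇φ‖ ≤ A'_j λρ² (|w| + |c-c'|) ≤ A'_j C₀` on the ball, `j ≥ 1`.
* `pk_lin_cb` (BR l.278-286 moving anchors/centres; l.437-452 the amplitudes `η_{j,n}`): if moreover `‖∇φ(0)‖ ≤ C₁` then `e^{iφ}` has bounded derivatives of all orders on `ball 0 R`.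
   PLAN: `‖∇φ(z)‖ ≤ C₁ + A'_1 C₀ R` (mean value inequality on the ball, `Convex.norm_image_sub_le_of_norm_fderiv_le`), so `Cb Λ (ball 0 R) (fderiv ℝ φ)`; `pk_cb_cexp`.
* `pk_nsp_lin` (BR (9.mixed-gram)): `|∫ a e^{iφ}| ≤ C (1 + ‖∇φ(0)‖)^{-M}`.
   PLAN: `d = ‖∇φ(0)‖`, `C₂ = A'_1 C₀ (R+1)`.   If `d ≤ max (2 C₂) 1`: trivial bound `b 0 · |closedBall 0 R|`.   Otherwise `e = ∇φ(0)/d`, on `Ω = ball 0 (R+1)`: `∂_e φ ≥ d - C₂ ≥ d/2 =: m ≥ 1/2`, `∂_e φ ≤ 3m`, `‖D^j ∂_e φ‖ ≤ A'_j C₀ ≤ 2 A'_j C₀ m`;  `pk_nsp` with `S = closedBall 0 R`.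
-/

set_option autoImplicit false

namespace Claimed.Agent.R255

open MeasureTheory Metric Set Osc
open scoped ContDiff InnerProductSpace ComplexConjugate

/-- the derivative of `φ = pkPh + ⟪ξ,·⟫`. -/
theorem pk_lin_hasFDerivAt {K : OscBd} {Φ : ℝ → E2 → E2 → ℝ} {ζ : E2 → E2 → E2} (h : IsPhase K Φ ζ) (lam : ℝ) (V X X' ξ : E2)
    (ρ : ℝ) {c c' : ℝ} (hc : 0 ≤ c) (hc' : 0 ≤ c') (z : E2) :
    HasFDerivAt (fun z => pkPh lam Φ V ρ c c' X X' z + ⟪ξ, z⟫_ℝ)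
      (innerSL ℝ ((lam * ρ) • pkD ζ V ρ c c' X X' z + ξ)) z := by
  have h1 := pk_ph_hasFDerivAt h lam V X X' ρ hc hc' z
  have h2 : HasFDerivAt (fun z : E2 => ⟪ξ, z⟫_ℝ) (innerSL ℝ ξ) z := (innerSL ℝ ξ).hasFDerivAt
  refine (h1.add h2).congr_fderiv ?_
  ext a
  simp

/-- bounds of the derivatives of the gradient field `g = λρ pkD + ξ`, oscillation of `g` on the ball. -/
theorem pk_lin_field_cb (K : OscBd) (cmax R : ℝ) : ∃ A' : ℕ → ℝ, (∀ j, 0 ≤ A' j) ∧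
    ∀ (Φ : ℝ → E2 → E2 → ℝ) (ζ : E2 → E2 → E2), IsPhase K Φ ζ → ∀ (lam ρ c c' C₀ : ℝ) (V X X' ξ : E2), 0 < lam → 0 < ρ → ρ ≤ 1 →
      0 ≤ c → c ≤ cmax → 0 ≤ c' → c' ≤ cmax → lam * ρ ^ 2 * (‖X - X' - (c - c') • V‖ + |c - c'|) ≤ C₀ →
      Cb (fun j => A' (j + 1) * C₀) (ball 0 R) (fderiv ℝ (fun z => (lam * ρ) • pkD ζ V ρ c c' X X' z + ξ)) ∧
      ∀ z ∈ ball (0 : E2) R, ‖((lam * ρ) • pkD ζ V ρ c c' X X' z + ξ) - ((lam * ρ) • pkD ζ V ρ c c' X X' 0 + ξ)‖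
        ≤ A' 1 * C₀ * R := by
  obtain ⟨A', hA0, hA⟩ := pk_D_cb K cmax R
  refine ⟨A', hA0, fun Φ ζ h lam ρ c c' C₀ V X X' ξ hlam hρ hρ1 hc hcm hc' hcm' hC₀ => ?_⟩
  have hD := hA Φ ζ h V X X' ρ c c' hρ hρ1 (by rwa [abs_of_nonneg hc]) (by rwa [abs_of_nonneg hc'])
  have hfd := ((hD.const_smul isOpen_ball (lam * ρ)).fd isOpen_ball)
  have e : fderiv ℝ (fun z => (lam * ρ) • pkD ζ V ρ c c' X X' z + ξ) =
      fderiv ℝ (fun z => (lam * ρ) • pkD ζ V ρ c c' X X' z) := by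
    funext z
    rw [fderiv_add_const]
  have hcb : Cb (fun j => A' (j + 1) * C₀) (ball 0 R) (fderiv ℝ (fun z => (lam * ρ) • pkD ζ V ρ c c' X X' z + ξ)) := by
    rw [e]
    refine hfd.mono subset_rfl fun j => ?_
    rw [if_neg (Nat.succ_ne_zero j), abs_of_pos (mul_pos hlam hρ)]
    calc lam * ρ * (A' (j + 1) * ρ * (‖X - X' - (c - c') • V‖ + |c - c'|))
        = A' (j + 1) * (lam * ρ ^ 2 * (‖X - X' - (c - c') • V‖ + |c - c'|)) := by ring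
      _ ≤ A' (j + 1) * C₀ := mul_le_mul_of_nonneg_left hC₀ (hA0 _)
  refine ⟨hcb, fun z hz => ?_⟩
  have hR : 0 < R := by
    by_contra hcon
    rw [ball_eq_empty.2 (not_lt.1 hcon)] at hz
    exact hz
  have hsm : ContDiff ℝ ∞ (fun z => (lam * ρ) • pkD ζ V ρ c c' X X' z + ξ) :=
    ((pk_D_smooth h V X X' ρ c c').const_smul (lam * ρ)).add contDiff_const
  have hC₀0 : 0 ≤ C₀ := le_trans (by positivity) hC₀
  have := (convex_ball (0 : E2) R).norm_image_sub_le_of_norm_fderiv_le (𝕜 := ℝ)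
    (f := fun z => (lam * ρ) • pkD ζ V ρ c c' X X' z + ξ) (C := A' 1 * C₀)
    (fun x _ => (hsm.differentiable (by simp)) x)
    (fun x hx => by simpa using hcb.bd 0 x hx)
    (mem_ball_self hR) hz
  refine this.trans ?_
  apply mul_le_mul_of_nonneg_left _ (mul_nonneg (hA0 1) hC₀0)
  rw [sub_zero]
  exact (mem_ball_zero_iff.1 hz).le

/-- `Cb` bounds of the gradient field itself, given a bound at the centre. -/
theorem pk_lin_field_cb0 {A' : ℕ → ℝ} {R C₀ C₁ : ℝ} {g : E2 → E2} (hg : ContDiff ℝ ∞ g)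
    (hcb : Cb (fun j => A' (j + 1) * C₀) (ball 0 R) (fderiv ℝ g))
    (hosc : ∀ z ∈ ball (0 : E2) R, ‖g z - g 0‖ ≤ A' 1 * C₀ * R) (h0 : ‖g 0‖ ≤ C₁) :
    Cb (fun j => if j = 0 then C₁ + A' 1 * C₀ * R else A' j * C₀) (ball 0 R) g := by
  have h := pk_cb_of_fderiv isOpen_ball (K := C₁ + A' 1 * C₀ * R) (hg.differentiable (by simp)).differentiableOn
    (fun x hx => by
      have h1 := hosc x hx
      have h2 : ‖g x‖ ≤ ‖g 0‖ + ‖g x - g 0‖ := by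
        have := norm_add_le (g 0) (g x - g 0)
        simpa using this
      linarith) hcb
  refine h.mono subset_rfl fun j => ?_
  rcases Nat.eq_zero_or_pos j with rfl | hj
  · simp
  · rw [if_neg hj.ne', if_neg hj.ne', Nat.sub_add_cancel hj]

open scoped Nat in
/-- bounded derivatives of the unimodular factor. -/
theorem pk_lin_cb (K : OscBd) (cmax R C₀ C₁ : ℝ) : ∃ Λ' : ℕ → ℝ, (∀ j, 0 ≤ Λ' j) ∧
    ∀ (Φ : ℝ → E2 → E2 → ℝ) (ζ : E2 → E2 → E2), IsPhase K Φ ζ → ∀ (lam ρ c c' : ℝ) (V X X' ξ : E2), 0 < lam → 0 < ρ → ρ ≤ 1 →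
      0 ≤ c → c ≤ cmax → 0 ≤ c' → c' ≤ cmax → lam * ρ ^ 2 * (‖X - X' - (c - c') • V‖ + |c - c'|) ≤ C₀ →
      ‖(lam * ρ) • pkD ζ V ρ c c' X X' 0 + ξ‖ ≤ C₁ →
      ContDiff ℝ ∞ (fun z => Complex.exp (Complex.I * ((pkPh lam Φ V ρ c c' X X' z + ⟪ξ, z⟫_ℝ : ℝ) : ℂ))) ∧
      Cb Λ' (ball 0 R) (fun z => Complex.exp (Complex.I * ((pkPh lam Φ V ρ c c' X X' z + ⟪ξ, z⟫_ℝ : ℝ) : ℂ))) := by
  obtain ⟨A', hA0, hA⟩ := pk_lin_field_cb K cmax R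
  obtain ⟨Λg, hΛg⟩ : ∃ Λg : ℕ → ℝ, Λg = fun j => if j = 0 then |C₁| + A' 1 * |C₀| * |R| else A' j * |C₀| := ⟨_, rfl⟩
  have hΛg0 : ∀ j, 0 ≤ Λg j := by
    intro j
    have := hA0 1
    have := hA0 j
    rw [hΛg]
    dsimp only
    split_ifs <;> positivity
  refine ⟨fun k => k ! * (1 + ∑ i ∈ Finset.range k, Λg i) ^ k, fun k => ?_,
    fun Φ ζ h lam ρ c c' V X X' ξ hlam hρ hρ1 hc hcm hc' hcm' hC₀ hC₁ => ?_⟩
  · have : 0 ≤ ∑ i ∈ Finset.range k, Λg i := Finset.sum_nonneg fun i _ => hΛg0 i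
    positivity
  obtain ⟨hcb, hosc⟩ := hA Φ ζ h lam ρ c c' C₀ V X X' ξ hlam hρ hρ1 hc hcm hc' hcm' hC₀
  have hsm : ContDiff ℝ ∞ (fun z => (lam * ρ) • pkD ζ V ρ c c' X X' z + ξ) :=
    ((pk_D_smooth h V X X' ρ c c').const_smul (lam * ρ)).add contDiff_const
  have hg := pk_lin_field_cb0 hsm hcb hosc hC₁
  have hφ : ContDiff ℝ ∞ (fun z => pkPh lam Φ V ρ c c' X X' z + ⟪ξ, z⟫_ℝ) :=
    (pk_ph_smooth h lam V X X' ρ hc hc').add (contDiff_const.inner ℝ contDiff_id)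
  refine ⟨pk_cexp_contDiff.comp hφ, ?_⟩
  have hfd : fderiv ℝ (fun z => pkPh lam Φ V ρ c c' X X' z + ⟪ξ, z⟫_ℝ) =
      fun z => innerSL ℝ ((lam * ρ) • pkD ζ V ρ c c' X X' z + ξ) :=
    funext fun z => (pk_lin_hasFDerivAt h lam V X X' ξ ρ hc hc' z).fderiv
  have hcbφ : Cb Λg (ball 0 R) (fderiv ℝ (fun z => pkPh lam Φ V ρ c c' X X' z + ⟪ξ, z⟫_ℝ)) := by
    rw [hfd]
    refine ⟨(hg.clm_post isOpen_ball (innerSL ℝ)).smooth, fun j x hx => ?_⟩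
    refine ((hg.clm_post isOpen_ball (innerSL ℝ)).bd j x hx).trans ?_
    have hR : 0 < R := by
      by_contra hcon
      rw [ball_eq_empty.2 (not_lt.1 hcon)] at hx
      exact hx
    have hn : ‖(innerSL ℝ : E2 →L[ℝ] E2 →L[ℝ] ℝ)‖ ≤ 1 := norm_innerSL_le ℝ
    have hb0 : (if j = 0 then C₁ + A' 1 * C₀ * R else A' j * C₀) ≤ Λg j := by
      rw [hΛg]
      dsimp only
      have h1 := hA0 1
      have h2 := hA0 j
      split_ifs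
      · have : A' 1 * C₀ * R ≤ A' 1 * |C₀| * |R| := by
          rw [abs_of_pos hR]
          exact mul_le_mul_of_nonneg_right (mul_le_mul_of_nonneg_left (le_abs_self _) h1) hR.le
        linarith [le_abs_self C₁]
      · exact mul_le_mul_of_nonneg_left (le_abs_self _) h2
    have hb1 : 0 ≤ (if j = 0 then C₁ + A' 1 * C₀ * R else A' j * C₀) := (norm_nonneg _).trans (hg.bd j x hx)
    calc _ ≤ 1 * (if j = 0 then C₁ + A' 1 * C₀ * R else A' j * C₀) := mul_le_mul_of_nonneg_right hn hb1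
      _ ≤ Λg j := by rw [one_mul]; exact hb0
  exact pk_cb_cexp isOpen_ball (hφ.differentiable (by simp)).differentiableOn hcbφ

/-- non-stationary phase in the bounded regime. -/
theorem pk_nsp_lin (K : OscBd) (cmax R C₀ : ℝ) (M : ℕ) (b : ℕ → ℝ) : ∃ C : ℝ, 0 ≤ C ∧
    ∀ (Φ : ℝ → E2 → E2 → ℝ) (ζ : E2 → E2 → E2), IsPhase K Φ ζ → ∀ (lam ρ c c' : ℝ) (V X X' ξ : E2) (a : E2 → ℂ), 0 < lam → 0 < ρ → ρ ≤ 1 →
      0 ≤ c → c ≤ cmax → 0 ≤ c' → c' ≤ cmax → lam * ρ ^ 2 * (‖X - X' - (c - c') • V‖ + |c - c'|) ≤ C₀ → PkAmp M R b a →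
      ‖∫ z, a z * Complex.exp (Complex.I * ((pkPh lam Φ V ρ c c' X X' z + ⟪ξ, z⟫_ℝ : ℝ) : ℂ))‖
        ≤ C * ((1 + ‖(lam * ρ) • pkD ζ V ρ c c' X X' 0 + ξ‖) ^ M)⁻¹ := by
  obtain ⟨A', hA0, hA⟩ := pk_lin_field_cb K cmax (R + 1)
  obtain ⟨C₂, hC₂⟩ : ∃ C₂ : ℝ, C₂ = A' 1 * |C₀| * |R + 1| := ⟨_, rfl⟩
  have hC₂0 : 0 ≤ C₂ := by rw [hC₂]; have := hA0 1; positivity
  obtain ⟨D0, hD0⟩ : ∃ D0 : ℝ, D0 = max (2 * C₂) 1 := ⟨_, rfl⟩
  have hD01 : 1 ≤ D0 := by rw [hD0]; exact le_max_right _ _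
  have hD02 : 2 * C₂ ≤ D0 := by rw [hD0]; exact le_max_left _ _
  obtain ⟨Λ, hΛ⟩ : ∃ Λ : ℕ → ℝ, Λ = fun j => if j = 0 then 3 else 2 * A' j * |C₀| := ⟨_, rfl⟩
  obtain ⟨Cn, hCn0, hCn⟩ := pk_nsp (volume : Measure E2) M b Λ
  obtain ⟨vol, hvol⟩ : ∃ vol : ℝ, vol = (volume (closedBall (0 : E2) R)).toReal := ⟨_, rfl⟩
  have hvol0 : 0 ≤ vol := by rw [hvol]; exact ENNReal.toReal_nonneg
  refine ⟨|b 0| * vol * (1 + D0) ^ M + Cn * 4 ^ M * vol, by positivity,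
    fun Φ ζ h lam ρ c c' V X X' ξ a hlam hρ hρ1 hc hcm hc' hcm' hC₀ hamp => ?_⟩
  obtain ⟨hcb, hosc⟩ := hA Φ ζ h lam ρ c c' C₀ V X X' ξ hlam hρ hρ1 hc hcm hc' hcm' hC₀
  have hsm : ContDiff ℝ ∞ (fun z => (lam * ρ) • pkD ζ V ρ c c' X X' z + ξ) :=
    ((pk_D_smooth h V X X' ρ c c').const_smul (lam * ρ)).add contDiff_const
  have hφ : ContDiff ℝ ∞ (fun z => pkPh lam Φ V ρ c c' X X' z + ⟪ξ, z⟫_ℝ) :=
    (pk_ph_smooth h lam V X X' ρ hc hc').add (contDiff_const.inner ℝ contDiff_id)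
  have hfd : ∀ z e, fderiv ℝ (fun z => pkPh lam Φ V ρ c c' X X' z + ⟪ξ, z⟫_ℝ) z e =
      ⟪(lam * ρ) • pkD ζ V ρ c c' X X' z + ξ, e⟫_ℝ := by
    intro z e
    rw [(pk_lin_hasFDerivAt h lam V X X' ξ ρ hc hc' z).fderiv]
    rfl
  have hg := pk_lin_field_cb0 hsm hcb hosc le_rfl
  generalize hgdef : (fun z => (lam * ρ) • pkD ζ V ρ c c' X X' z + ξ) = g at hcb hsm hg
  have hgz : ∀ z, (lam * ρ) • pkD ζ V ρ c c' X X' z + ξ = g z := fun z => by rw [← hgdef]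
  simp only [hgz] at hosc hfd hg ⊢
  generalize hφdef : (fun z => pkPh lam Φ V ρ c c' X X' z + ⟪ξ, z⟫_ℝ) = φ at hφ hfd
  have hφz : ∀ z, pkPh lam Φ V ρ c c' X X' z + ⟪ξ, z⟫_ℝ = φ z := fun z => by rw [← hφdef]
  simp only [hφz]
  have hC₀0 : 0 ≤ C₀ := le_trans (by positivity) hC₀
  have hd0 : 0 ≤ ‖g 0‖ := norm_nonneg _
  by_cases hd : ‖g 0‖ ≤ D0
  · have h1 := pk_nsp_base (volume : Measure E2) (φ := φ) (isCompact_closedBall (0 : E2) R) hamp.tsupport_subset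
      (B := |b 0|) (fun z => (hamp.norm_le z).trans (le_abs_self _))
    rw [← hvol] at h1
    have h2 : 1 ≤ (1 + D0) ^ M * ((1 + ‖g 0‖) ^ M)⁻¹ := by
      rw [← div_eq_mul_inv, one_le_div (by positivity)]
      exact pow_le_pow_left₀ (by positivity) (by linarith) M
    have h3 : 0 ≤ ((1 + ‖g 0‖) ^ M)⁻¹ := by positivity
    calc _ ≤ |b 0| * vol := h1
      _ ≤ |b 0| * vol * ((1 + D0) ^ M * ((1 + ‖g 0‖) ^ M)⁻¹) := le_mul_of_one_le_right (by positivity) h2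
      _ ≤ |b 0| * vol * ((1 + D0) ^ M * ((1 + ‖g 0‖) ^ M)⁻¹) + Cn * 4 ^ M * vol * ((1 + ‖g 0‖) ^ M)⁻¹ :=
          le_add_of_nonneg_right (by positivity)
      _ = _ := by ring
  · push Not at hd
    have hd1 : 1 < ‖g 0‖ := lt_of_le_of_lt hD01 hd
    have hd2 : 2 * C₂ < ‖g 0‖ := lt_of_le_of_lt hD02 hd
    have hdpos : 0 < ‖g 0‖ := by linarith
    have he : ‖(‖g 0‖⁻¹ • g 0)‖ = 1 := by
      rw [norm_smul, norm_inv, norm_norm, inv_mul_cancel₀ hdpos.ne']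
    have hosc' : ∀ z ∈ ball (0 : E2) (R + 1), ‖g z - g 0‖ ≤ C₂ := by
      intro z hz
      refine (hosc z hz).trans ?_
      rw [hC₂]
      have := hA0 1
      calc A' 1 * C₀ * (R + 1) ≤ A' 1 * C₀ * |R + 1| := mul_le_mul_of_nonneg_left (le_abs_self _) (by positivity)
        _ ≤ A' 1 * |C₀| * |R + 1| := by
          apply mul_le_mul_of_nonneg_right _ (abs_nonneg _)
          exact mul_le_mul_of_nonneg_left (le_abs_self _) this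
    have hin0 : ⟪g 0, ‖g 0‖⁻¹ • g 0⟫_ℝ = ‖g 0‖ := by
      rw [real_inner_smul_right, real_inner_self_eq_norm_sq]
      field_simp
    have hlow : ∀ z ∈ ball (0 : E2) (R + 1), ‖g 0‖ / 2 ≤ fderiv ℝ φ z (‖g 0‖⁻¹ • g 0) := by
      intro z hz
      rw [hfd]
      have e1 : ⟪g z, ‖g 0‖⁻¹ • g 0⟫_ℝ = ‖g 0‖ + ⟪g z - g 0, ‖g 0‖⁻¹ • g 0⟫_ℝ := by
        rw [inner_sub_left, hin0]; ring
      have e2 : |⟪g z - g 0, ‖g 0‖⁻¹ • g 0⟫_ℝ| ≤ C₂ := by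
        refine (abs_real_inner_le_norm _ _).trans ?_
        rw [he, mul_one]; exact hosc' z hz
      have := (abs_le.1 e2).1
      rw [e1]; linarith
    have hcbe : Cb (fun j => Λ j * (‖g 0‖ / 2)) (ball (0 : E2) (R + 1)) (fun z => fderiv ℝ φ z (‖g 0‖⁻¹ • g 0)) := by
      have hpost := hg.clm_post isOpen_ball (innerSL ℝ (‖g 0‖⁻¹ • g 0))
      have hcongr := hpost.congr (g := fun z => fderiv ℝ φ z (‖g 0‖⁻¹ • g 0)) isOpen_ball (fun z _ => by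
        rw [hfd, real_inner_comm]; rfl)
      refine ⟨hcongr.smooth, fun j x hx => (hcongr.bd j x hx).trans ?_⟩
      rw [innerSL_apply_norm, he, one_mul, hΛ]
      dsimp only
      have hR : 0 < R + 1 := by
        by_contra hcon
        rw [ball_eq_empty.2 (not_lt.1 hcon)] at hx
        exact hx
      split_ifs with hj
      · have : A' 1 * C₀ * (R + 1) ≤ C₂ := by
          rw [hC₂, abs_of_pos hR, abs_of_nonneg hC₀0]
        linarith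
      · have h5 := hA0 j
        rw [abs_of_nonneg hC₀0]
        have : A' j * C₀ * 1 ≤ A' j * C₀ * ‖g 0‖ := mul_le_mul_of_nonneg_left hd1.le (by positivity)
        linarith
    have hmain := hCn (ball (0 : E2) (R + 1)) (closedBall (0 : E2) R) a φ (‖g 0‖⁻¹ • g 0) (‖g 0‖ / 2) isOpen_ball
      (isCompact_closedBall _ _) (closedBall_subset_ball (by linarith)) he.le (by positivity) hamp.smooth
      hamp.tsupport_subset hamp.bound hφ.contDiffOn hlow hcbe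
    rw [← hvol] at hmain
    have h6 : ((‖g 0‖ / 2) ^ M)⁻¹ ≤ 4 ^ M * ((1 + ‖g 0‖) ^ M)⁻¹ := by
      rw [← div_eq_mul_inv, le_div_iff₀ (by positivity), inv_mul_le_iff₀ (by positivity), ← mul_pow]
      exact pow_le_pow_left₀ (by positivity) (by linarith) M
    have h3 : 0 ≤ ((1 + ‖g 0‖) ^ M)⁻¹ := by positivity
    calc _ ≤ Cn * ((‖g 0‖ / 2) ^ M)⁻¹ * vol := hmain
      _ ≤ Cn * (4 ^ M * ((1 + ‖g 0‖) ^ M)⁻¹) * vol := by
          apply mul_le_mul_of_nonneg_right _ hvol0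
          exact mul_le_mul_of_nonneg_left h6 hCn0
      _ ≤ |b 0| * vol * (1 + D0) ^ M * ((1 + ‖g 0‖) ^ M)⁻¹ + Cn * (4 ^ M * ((1 + ‖g 0‖) ^ M)⁻¹) * vol :=
          le_add_of_nonneg_left (by positivity)
      _ = _ := by ring

end Claimed.Agent.R255
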