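import Claimed.Agent.R255.Pk.Bridge
import Claimed.Agent.R255.Pk.Resc
import Claimed.Agent.R255.Pk.Lin

/-!
# R255 / Pk / Export : THE AN LIST FOR THE CONSUMERS (S9b, S10, S11, S12)      (architect helper91)   -- KEEP

ABSOLUTE coordinates, SCALE FREE (`lam > 0`, `0 < ρ ≤ ρ' ≤ 1`, `σ = (lam ρ)⁻¹`), vocabulary of `Pkt/Base.lean` (`Site`, `pairing`, `mass`, `atom`).   Amplitudes: `PkAmp M R b ψ` (`AmpC R b ψ ↔ ∀ M, PkAmp M R b ψ` : `pk_ampC_iff`; `CanC M ψ ↔ PkAmp M 100 1 ψ` : `pk_canC_iff`).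
MULTIPLICITY hypothesis of a finite family `site : ι → Site`, `s : Finset ι`, written `PkLoc s site ρ σ m` : every OPEN cell `‖V_j - V_i‖ < ρ, ‖X_j - X_i‖ < σ` centred at a site of the family contains at most `m` sites.
 AN-B     `pk_site_bessel`     (Bridge)   `∑ mass ≤ C m ‖f‖²`
 AN-S     `pk_site_synth`      (Bridge)   `‖∑ a_i atom_i‖² ≤ C m ∑|a_i|²`
 AN-G     `pk_site_gram`       (Bridge)   (9.gram)
 AN-CAP   `pk_site_cap`        (Bridge)   (9.cap-bessel)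
 AN-ROW   `pk_site_row`        (here)     `mass (∑ a_k atom_k) s ≤ C m² max |a_k|²`
 AN-MG    `pk_site_mix`        (here)     mixed Gram of an atom (time `c`, scale `ρ`) with a test (time `c'`, scale `ρ' ≥ ρ`)
 AN-TR    `pk_site_transport`  (here)     transport tail for ANY coefficients
 AN-MOVE  `pk_site_move`       (here)     moving centres and time anchors = change of amplitude, EXACT equality of the packets
 AN-CAN   `pk_site_can`        (here)     a test amplitude is a fixed multiple of a canonical one: `mass ≤ B² · mass(canonical site)`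
 AN-1     `pk_site_mass_le`    (here)     one test: `mass ≤ C ‖f‖²`
 AN-RESC  `pk_resc_*`, `pk_un_score`  (Resc)
PLANS.
 `pk_site_row`: `pairing (∑ a_k atom_k) s = ∑ a_k G_k`, `|∑ a_k G_k| ≤ max|a| ∑|G_k|`, `pk_row_sum` (`r = 0`, `M = 3`) through the dictionary and `pk_mult2_of_local`.
 `pk_site_mix`: as `pk_mix_eq`/`pk_mix_gram` with `ξ = 0`: `∫ atom_T pkt_s = (ρ/ρ') ∫ η(z) ψ(u + (ρ/ρ') z) e^{i pkPh lam Φ V_T ρ c' c X X_T z} dz`; `pk_nsp_lin`; `‖lam ρ pkD(0)‖ ≥ a0 lam ρ ‖X - X_T - (c'-c) V_T‖` (`pk_zeta_lower`).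
 `pk_site_transport`: Cauchy-Schwarz + `∑_k |G_k|² ≤ C m (1+R₁)^{-(2M-3)}`: only `‖V_k - V‖ ≤ R ρ' + Ra ρ` contribute; cover this ball by `≤ C (ρ'/ρ)²` balls of radius `ρ` (lattice `ρ ℤ²`, `pk_lat_count`);
    in one such ball the transported positions `y_k = X_k + (c'-c) V_k` have multiplicity `≤ C m` at scale `σ` (`|c'-c| ρ ≤ C₀ σ`; `pk_mult2_of_local`, `pk_mult2_slice`, `pk_count_ball`); `pk_count` with exponent `2M`.
 `pk_site_move`: `ψ'(z) = ψ(z + (V'-V)/ρ) e^{i pkPh lam Φ V' ρ C C' X X' z}`; `pk_lin_cb` (`ξ = 0`), `pk_amp_shift`, `pk_amp_mul_cb`.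
-/

set_option autoImplicit false

namespace Claimed.Agent.R255

open MeasureTheory Metric Set Osc Pkt
open scoped ContDiff InnerProductSpace ComplexConjugate

/-- local multiplicity of a finite family of sites -/
def PkLoc {ι : Type} (s : Finset ι) (site : ι → Site) (ρ σ : ℝ) (m : ℕ) : Prop :=
  ∀ i ∈ s, ∀ t : Finset ι, t ⊆ s → (∀ j ∈ t, ‖(site j).V - (site i).V‖ < ρ ∧ ‖(site j).X - (site i).X‖ < σ) → t.card ≤ m

theorem pk_pkt_norm (lam : ℝ) (Φ : ℝ → E2 → E2 → ℝ) (c : ℝ) {ρ : ℝ} (hρ : 0 < ρ) (V X : E2) (ψ : E2 → ℂ) (v : E2) :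
    ‖pkt lam Φ c ρ V X ψ v‖ = ρ⁻¹ * ‖ψ (ρ⁻¹ • (v - V))‖ := by
  unfold pkt
  rw [norm_mul, norm_mul, mul_comm Complex.I, Complex.norm_exp_ofReal_mul_I, mul_one, Complex.norm_real, Real.norm_eq_abs,
    abs_of_pos (inv_pos.2 hρ)]

theorem pk_pkt_norm_memLp {M : ℕ} {R : ℝ} {b : ℕ → ℝ} {ψ : E2 → ℂ} (hψ : PkAmp M R b ψ) (lam : ℝ) (Φ : ℝ → E2 → E2 → ℝ) (c : ℝ) {ρ : ℝ}
    (hρ : 0 < ρ) (V X : E2) : MemLp (fun v => ((‖pkt lam Φ c ρ V X ψ v‖ : ℝ) : ℂ)) 2 volume := by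
  have hc : Continuous fun v => ((‖pkt lam Φ c ρ V X ψ v‖ : ℝ) : ℂ) := by
    simp only [pk_pkt_norm lam Φ c hρ]
    have h2 : Continuous ψ := hψ.smooth.continuous
    fun_prop
  refine hc.memLp_of_hasCompactSupport ?_
  refine HasCompactSupport.intro (isCompact_closedBall V (R * ρ)) fun v hv => ?_
  by_contra h0
  refine hv ?_
  rw [mem_closedBall, dist_eq_norm]
  refine pk_pkt_supp (Φ := Φ) hψ lam hρ c V X v fun h => h0 ?_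
  rw [h, norm_zero, Complex.ofReal_zero]

/-- **AN-1**: one test. -/
theorem pk_site_mass_le {M : ℕ} {R : ℝ} {b : ℕ → ℝ} (lam : ℝ) {ρ : ℝ} (hρ : 0 < ρ) (Φ : ℝ → E2 → E2 → ℝ) (f : E2 → ℂ) (hf : MemLp f 2 volume)
    (s : Site) (hs : PkAmp M R b s.ψ) : mass lam ρ Φ f s ≤ b 0 ^ 2 * (volume (closedBall (0 : E2) R)).toReal * ∫ v, ‖f v‖ ^ 2 := by
  rw [mass, pk_pairing_eq]
  have h1 : ‖∫ v, f v * pkt lam Φ s.C ρ s.V s.X s.ψ v‖ ≤ ∫ v, ‖f v‖ * ‖pkt lam Φ s.C ρ s.V s.X s.ψ v‖ := by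
    refine (norm_integral_le_integral_norm _).trans (le_of_eq ?_)
    simp only [norm_mul]
  have hF : MemLp (fun v => ((‖f v‖ : ℝ) : ℂ)) 2 volume := hf.norm.ofReal
  have h2 := pk_pair_le volume _ _ hF (pk_pkt_norm_memLp hs lam Φ s.C hρ s.V s.X)
  have e : ∫ v, ((‖f v‖ : ℝ) : ℂ) * ((‖pkt lam Φ s.C ρ s.V s.X s.ψ v‖ : ℝ) : ℂ)
      = ((∫ v, ‖f v‖ * ‖pkt lam Φ s.C ρ s.V s.X s.ψ v‖ : ℝ) : ℂ) := by
    rw [← integral_complex_ofReal]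
    refine integral_congr_ae (Filter.Eventually.of_forall fun v => ?_)
    simp only
    push_cast
    rfl
  rw [e, Complex.norm_real, Real.norm_eq_abs, sq_abs] at h2
  simp only [Complex.norm_real, norm_norm] at h2
  have h3 := pk_pkt_norm_sq (Φ := Φ) hs lam hρ s.C s.V s.X
  have h4 : 0 ≤ ∫ v, ‖f v‖ ^ 2 := integral_nonneg fun v => sq_nonneg _
  calc ‖∫ v, f v * pkt lam Φ s.C ρ s.V s.X s.ψ v‖ ^ 2
      ≤ (∫ v, ‖f v‖ * ‖pkt lam Φ s.C ρ s.V s.X s.ψ v‖) ^ 2 := pow_le_pow_left₀ (norm_nonneg _) h1 2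
    _ ≤ (∫ v, ‖f v‖ ^ 2) * ∫ v, ‖pkt lam Φ s.C ρ s.V s.X s.ψ v‖ ^ 2 := h2
    _ ≤ (∫ v, ‖f v‖ ^ 2) * (b 0 ^ 2 * (volume (closedBall (0 : E2) R)).toReal) := mul_le_mul_of_nonneg_left h3 h4
    _ = b 0 ^ 2 * (volume (closedBall (0 : E2) R)).toReal * ∫ v, ‖f v‖ ^ 2 := by ring

/-- **AN-CAN**: comparison with the canonical class. -/
theorem pk_site_can {M : ℕ} {b : ℕ → ℝ} (lam ρ : ℝ) (Φ : ℝ → E2 → E2 → ℝ) (f : E2 → ℂ) (s : Site) (hs : PkAmp M 100 b s.ψ) {B : ℝ} (hB : 0 < B)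
    (hb : ∀ j ≤ M, b j ≤ B) :
    CanC M (fun z => ((B⁻¹ : ℝ) : ℂ) * s.ψ z) ∧ mass lam ρ Φ f s = B ^ 2 * mass lam ρ Φ f { s with ψ := fun z => ((B⁻¹ : ℝ) : ℂ) * s.ψ z } := by
  refine ⟨(pk_canC_iff _ _).2 (pk_amp_to_can hs hB hb), ?_⟩
  have e : pairing lam ρ Φ f { s with ψ := fun z => ((B⁻¹ : ℝ) : ℂ) * s.ψ z } = ((B⁻¹ : ℝ) : ℂ) * pairing lam ρ Φ f s := by
    unfold pairing
    simp only
    have e1 : ∫ v : E2, f v * (((B⁻¹ : ℝ) : ℂ) * s.ψ (ρ⁻¹ • (v - s.V))) * Complex.exp (Complex.I * ((lam * Φ s.C s.X v : ℝ) : ℂ))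
        = ((B⁻¹ : ℝ) : ℂ) * ∫ v : E2, f v * s.ψ (ρ⁻¹ • (v - s.V)) * Complex.exp (Complex.I * ((lam * Φ s.C s.X v : ℝ) : ℂ)) := by
      rw [← integral_const_mul]
      refine integral_congr_ae (Filter.Eventually.of_forall fun v => ?_)
      simp only
      ring
    rw [e1]
    ring
  unfold mass
  rw [e, norm_mul, Complex.norm_real, Real.norm_eq_abs, abs_of_pos (inv_pos.2 hB), mul_pow]
  field_simp

/-- **AN-ROW**: pointwise bound of the mass of a superposition of atoms at the same time and scale. -/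
theorem pk_site_row (K : OscBd) (h0 : 0 < K.a0) (R : ℝ) (b : ℕ → ℝ) : ∃ C : ℝ, 0 ≤ C ∧
    ∀ (Φ : ℝ → E2 → E2 → ℝ) (ζ : E2 → E2 → E2), IsPhase K Φ ζ → ∀ (lam ρ c : ℝ), 0 < lam → 0 < ρ → ρ ≤ 1 → 0 ≤ c → c ≤ 1 →
      ∀ (κ : Type) (sT : Finset κ) (sT' : κ → Site) (m : ℕ), (∀ k ∈ sT, (sT' k).C = c) → (∀ k ∈ sT, PkAmp 3 R b (sT' k).ψ) →
      PkLoc sT sT' ρ (lam * ρ)⁻¹ m → ∀ s : Site, s.C = c → PkAmp 3 R b s.ψ → ∀ (a : κ → ℂ) (A : ℝ), 0 ≤ A → (∀ k ∈ sT, ‖a k‖ ^ 2 ≤ A) →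
        mass lam ρ Φ (fun v => ∑ k ∈ sT, a k * atom lam ρ Φ (sT' k) v) s ≤ C * (m : ℝ) ^ 2 * A := by
  obtain ⟨C₀, hC₀⟩ := pk_mult2_of_local
  obtain ⟨C, hC0, hC⟩ := pk_row_sum K h0 1 R 3 le_rfl b
  refine ⟨(C * C₀) ^ 2, by positivity, fun Φ ζ h lam ρ c hlam hρ hρ1 hc hc1 κ sT sT' m hTc hTa hloc s hsc hs a A hA ha => ?_⟩
  have hm := hC₀ κ sT (fun i => (sT' i).V) (fun i => (sT' i).X) ρ (lam * ρ)⁻¹ m hρ (by positivity) hloc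
  have row := hC Φ ζ h lam ρ c hlam hρ hρ1 hc hc1 κ sT _ _ (fun k z => conj ((sT' k).ψ z)) _ hm
    (fun k hk => pk_amp_conj (hTa k hk)) s.V s.X s.ψ hs 0 le_rfl (fun i _ => Or.inr (by rw [zero_mul]; exact norm_nonneg _))
  simp only [add_zero, one_pow, inv_one, mul_one] at row
  have hsL : MemLp (pkt lam Φ c ρ s.V s.X s.ψ) 2 volume := pk_pkt_memLp h hs lam hρ hc s.V s.X
  have hkL : ∀ k ∈ sT, MemLp (fun v => conj (pkt lam Φ c ρ (sT' k).V (sT' k).X (fun z => conj ((sT' k).ψ z)) v)) 2 volume :=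
    fun k hk => pk_memLp_conj volume (pk_pkt_memLp h (pk_amp_conj (hTa k hk)) lam hρ hc _ _)
  have e : pairing lam ρ Φ (fun v => ∑ k ∈ sT, a k * atom lam ρ Φ (sT' k) v) s
      = ∑ k ∈ sT, a k * ∫ v, pkt lam Φ c ρ s.V s.X s.ψ v * conj (pkt lam Φ c ρ (sT' k).V (sT' k).X (fun z => conj ((sT' k).ψ z)) v) := by
    rw [pk_pairing_eq, hsc]
    have e1 : ∀ v, (∑ k ∈ sT, a k * atom lam ρ Φ (sT' k) v) * pkt lam Φ c ρ s.V s.X s.ψ v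
        = ∑ k ∈ sT, a k * (pkt lam Φ c ρ s.V s.X s.ψ v * conj (pkt lam Φ c ρ (sT' k).V (sT' k).X (fun z => conj ((sT' k).ψ z)) v)) := by
      intro v
      rw [Finset.sum_mul]
      refine Finset.sum_congr rfl fun k hk => ?_
      rw [pk_atom_eq, hTc k hk]
      ring
    simp only [e1]
    have hint : ∀ k ∈ sT, Integrable fun v => a k * (pkt lam Φ c ρ s.V s.X s.ψ v
        * conj (pkt lam Φ c ρ (sT' k).V (sT' k).X (fun z => conj ((sT' k).ψ z)) v)) :=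
      fun k hk => (hsL.integrable_mul (hkL k hk)).const_mul (a k)
    rw [integral_finsetSum _ hint]
    refine Finset.sum_congr rfl fun k _ => ?_
    rw [integral_const_mul]
  have hsq : ∀ k ∈ sT, ‖a k‖ ≤ Real.sqrt A := fun k hk => Real.le_sqrt_of_sq_le (ha k hk)
  have h1 : ‖pairing lam ρ Φ (fun v => ∑ k ∈ sT, a k * atom lam ρ Φ (sT' k) v) s‖ ≤ Real.sqrt A * (C * ((C₀ * m : ℕ) : ℝ)) := by
    rw [e]
    refine (norm_sum_le _ _).trans ?_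
    refine le_trans (Finset.sum_le_sum fun k hk => ?_) (le_trans (le_of_eq (Finset.mul_sum _ _ _).symm)
      (mul_le_mul_of_nonneg_left row (Real.sqrt_nonneg A)))
    rw [norm_mul]
    exact mul_le_mul_of_nonneg_right (hsq k hk) (norm_nonneg _)
  unfold mass
  calc ‖pairing lam ρ Φ (fun v => ∑ k ∈ sT, a k * atom lam ρ Φ (sT' k) v) s‖ ^ 2
      ≤ (Real.sqrt A * (C * ((C₀ * m : ℕ) : ℝ))) ^ 2 := pow_le_pow_left₀ (norm_nonneg _) h1 2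
    _ = (C * C₀) ^ 2 * (m : ℝ) ^ 2 * A := by
        rw [mul_pow, Real.sq_sqrt hA]
        push_cast
        ring

/-- the pairing of an atom (scale `ρ`) with a test (scale `ρ'`) in the coordinates of the atom -/
theorem pk_site_mix_eq (lam : ℝ) (Φ : ℝ → E2 → E2 → ℝ) {ρ ρ' : ℝ} (hρ : 0 < ρ) (hρ' : 0 < ρ') (T s : Site) :
    pairing lam ρ' Φ (atom lam ρ Φ T) s
      = ((ρ / ρ' : ℝ) : ℂ) * ∫ z, (T.ψ z * s.ψ (ρ'⁻¹ • (T.V - s.V) + (ρ / ρ') • z)) *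
          Complex.exp (Complex.I * ((pkPh lam Φ T.V ρ s.C T.C s.X T.X z + ⟪(0 : E2), z⟫_ℝ : ℝ) : ℂ)) := by
  rw [pk_pairing_eq, pk_integral_scale _ T.V hρ, ← integral_const_mul, ← integral_const_mul]
  refine integral_congr_ae (Filter.Eventually.of_forall fun z => ?_)
  show ((ρ ^ 2 : ℝ) : ℂ) * (atom lam ρ Φ T (T.V + ρ • z) * pkt lam Φ s.C ρ' s.V s.X s.ψ (T.V + ρ • z))
    = ((ρ / ρ' : ℝ) : ℂ) * ((T.ψ z * s.ψ (ρ'⁻¹ • (T.V - s.V) + (ρ / ρ') • z)) *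
          Complex.exp (Complex.I * ((pkPh lam Φ T.V ρ s.C T.C s.X T.X z + ⟪(0 : E2), z⟫_ℝ : ℝ) : ℂ)))
  have e1 : pkt lam Φ s.C ρ' s.V s.X s.ψ (T.V + ρ • z) = ((ρ'⁻¹ : ℝ) : ℂ) * s.ψ (ρ'⁻¹ • (T.V - s.V) + (ρ / ρ') • z)
      * Complex.exp (Complex.I * ((lam * Φ s.C s.X (T.V + ρ • z) : ℝ) : ℂ)) := by
    have e : ρ'⁻¹ • (T.V + ρ • z - s.V) = ρ'⁻¹ • (T.V - s.V) + (ρ / ρ') • z := by
      rw [add_sub_right_comm, smul_add, smul_smul, div_eq_inv_mul]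
    show ((ρ'⁻¹ : ℝ) : ℂ) * s.ψ (ρ'⁻¹ • (T.V + ρ • z - s.V)) * _ = _
    rw [e]
  have e0 : atom lam ρ Φ T (T.V + ρ • z) = ((ρ⁻¹ : ℝ) : ℂ) * T.ψ z
      * Complex.exp (-(Complex.I * ((lam * Φ T.C T.X (T.V + ρ • z) : ℝ) : ℂ))) := by
    have e : ρ⁻¹ • (T.V + ρ • z - T.V) = z := by
      rw [add_sub_cancel_left, smul_smul, inv_mul_cancel₀ hρ.ne', one_smul]
    show ((ρ⁻¹ : ℝ) : ℂ) * T.ψ (ρ⁻¹ • (T.V + ρ • z - T.V)) * _ = _
    rw [e]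
  have e2 : Complex.exp (Complex.I * ((pkPh lam Φ T.V ρ s.C T.C s.X T.X z + ⟪(0 : E2), z⟫_ℝ : ℝ) : ℂ))
      = Complex.exp (Complex.I * ((lam * Φ s.C s.X (T.V + ρ • z) : ℝ) : ℂ))
        * Complex.exp (-(Complex.I * ((lam * Φ T.C T.X (T.V + ρ • z) : ℝ) : ℂ))) := by
    rw [← Complex.exp_add, inner_zero_left, add_zero]
    congr 1
    show Complex.I * ((lam * (Φ s.C s.X (T.V + ρ • z) - Φ T.C T.X (T.V + ρ • z)) : ℝ) : ℂ) = _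
    push_cast
    ring
  rw [e0, e1, e2]
  have hρC : (ρ : ℂ) ≠ 0 := Complex.ofReal_ne_zero.2 hρ.ne'
  have hρC' : (ρ' : ℂ) ≠ 0 := Complex.ofReal_ne_zero.2 hρ'.ne'
  push_cast
  field_simp

theorem pk_atom_supp {M : ℕ} {R : ℝ} {b : ℕ → ℝ} (lam : ℝ) (Φ : ℝ → E2 → E2 → ℝ) {ρ : ℝ} (hρ : 0 < ρ) (T : Site) (hT : PkAmp M R b T.ψ) (v : E2)
    (hv : atom lam ρ Φ T v ≠ 0) : ‖v - T.V‖ ≤ R * ρ := by
  have h1 : T.ψ (ρ⁻¹ • (v - T.V)) ≠ 0 := right_ne_zero_of_mul (left_ne_zero_of_mul hv)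
  have h2 := hT.supp _ h1
  rw [norm_smul, Real.norm_eq_abs, abs_of_pos (inv_pos.2 hρ), ← div_eq_inv_mul, div_le_iff₀ hρ] at h2
  exact h2

/-- `(1 + a x)^{-M} ≤ min(1,a)^{-M} (1 + x)^{-M}` -/
theorem pk_decay_compare {a : ℝ} (ha : 0 < a) {x y : ℝ} (hx : 0 ≤ x) (hy : a * x ≤ y) (M : ℕ) :
    ((1 + y) ^ M)⁻¹ ≤ ((min 1 a) ^ M)⁻¹ * ((1 + x) ^ M)⁻¹ := by
  have hm : 0 < min 1 a := lt_min one_pos ha
  rw [← mul_inv, ← mul_pow]
  refine inv_anti₀ (by positivity) ?_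
  refine pow_le_pow_left₀ (by positivity) ?_ M
  have h1 : min 1 a ≤ 1 := min_le_left _ _
  have h2 : min 1 a ≤ a := min_le_right _ _
  nlinarith

/-- **AN-MG**: mixed Gram estimate, atom `T` at time `T.C`, scale `ρ`; test `s` at time `s.C`, scale `ρ' ≥ ρ`. -/
theorem pk_site_mix (K : OscBd) (h0 : 0 < K.a0) (R Ra C₀ : ℝ) (M : ℕ) (b b' : ℕ → ℝ) : ∃ C : ℝ, 0 ≤ C ∧
    ∀ (Φ : ℝ → E2 → E2 → ℝ) (ζ : E2 → E2 → E2), IsPhase K Φ ζ → ∀ (lam ρ ρ' : ℝ), 0 < lam → 0 < ρ → ρ ≤ ρ' → ρ' ≤ 1 →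
      ∀ T s : Site, 0 ≤ T.C → T.C ≤ 1 → 0 ≤ s.C → s.C ≤ 1 → PkAmp M Ra b' T.ψ → PkAmp M R b s.ψ →
      lam * ρ ^ 2 * (‖s.X - T.X - (s.C - T.C) • T.V‖ + |s.C - T.C|) ≤ C₀ →
        ‖pairing lam ρ' Φ (atom lam ρ Φ T) s‖ ≤ C * (ρ / ρ') * ((1 + lam * ρ * ‖s.X - T.X - (s.C - T.C) • T.V‖) ^ M)⁻¹ ∧
        (R * ρ' + Ra * ρ < ‖T.V - s.V‖ → pairing lam ρ' Φ (atom lam ρ Φ T) s = 0) := by
  obtain ⟨C, hC0, hC⟩ := pk_nsp_lin K 1 Ra C₀ M (pkLeib b' b)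
  have hm : 0 < min 1 K.a0 := lt_min one_pos h0
  refine ⟨C * ((min 1 K.a0) ^ M)⁻¹, by positivity, fun Φ ζ h lam ρ ρ' hlam hρ hρρ hρ1 T s hT0 hT1 hs0 hs1 hTa hsa hloc => ⟨?_, ?_⟩⟩
  · have hρ' : 0 < ρ' := hρ.trans_le hρρ
    have ht : |ρ / ρ'| ≤ 1 := by
      rw [abs_of_pos (by positivity), div_le_one hρ']
      exact hρρ
    have haff := pk_amp_affine_bdd hsa (ρ'⁻¹ • (T.V - s.V)) ht
    have hamp := pk_amp_mul_bdd hTa haff.1 haff.2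
    have key := hC Φ ζ h lam ρ s.C T.C T.V s.X T.X 0 _ hlam hρ (hρρ.trans hρ1) hs0 hs1 hT0 hT1 hloc hamp
    rw [pk_site_mix_eq lam Φ hρ hρ', norm_mul, Complex.norm_real, Real.norm_eq_abs, abs_of_pos (by positivity : 0 < ρ / ρ')]
    have hD : K.a0 * (lam * ρ * ‖s.X - T.X - (s.C - T.C) • T.V‖) ≤ ‖(lam * ρ) • pkD ζ T.V ρ s.C T.C s.X T.X 0 + 0‖ := by
      rw [add_zero, norm_smul, Real.norm_eq_abs, abs_of_pos (by positivity : 0 < lam * ρ)]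
      have h1 := pk_zeta_lower h T.V (s.X - s.C • T.V) (T.X - T.C • T.V)
      have e1 : s.X - s.C • T.V - (T.X - T.C • T.V) = s.X - T.X - (s.C - T.C) • T.V := by
        rw [sub_smul]; abel
      have e2 : pkD ζ T.V ρ s.C T.C s.X T.X 0 = ζ T.V (s.X - s.C • T.V) - ζ T.V (T.X - T.C • T.V) := by
        unfold pkD
        simp only [smul_zero, add_zero]
      rw [e1] at h1
      rw [e2]
      calc K.a0 * (lam * ρ * ‖s.X - T.X - (s.C - T.C) • T.V‖) = lam * ρ * (K.a0 * ‖s.X - T.X - (s.C - T.C) • T.V‖) := by ring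
        _ ≤ _ := mul_le_mul_of_nonneg_left h1 (by positivity)
    have hdec := pk_decay_compare h0 (by positivity : 0 ≤ lam * ρ * ‖s.X - T.X - (s.C - T.C) • T.V‖) hD M
    calc ρ / ρ' * ‖∫ z, (T.ψ z * s.ψ (ρ'⁻¹ • (T.V - s.V) + (ρ / ρ') • z)) *
          Complex.exp (Complex.I * ((pkPh lam Φ T.V ρ s.C T.C s.X T.X z + ⟪(0 : E2), z⟫_ℝ : ℝ) : ℂ))‖
        ≤ ρ / ρ' * (C * ((1 + ‖(lam * ρ) • pkD ζ T.V ρ s.C T.C s.X T.X 0 + 0‖) ^ M)⁻¹) :=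
          mul_le_mul_of_nonneg_left key (by positivity)
      _ ≤ ρ / ρ' * (C * (((min 1 K.a0) ^ M)⁻¹ * ((1 + lam * ρ * ‖s.X - T.X - (s.C - T.C) • T.V‖) ^ M)⁻¹)) :=
          mul_le_mul_of_nonneg_left (mul_le_mul_of_nonneg_left hdec hC0) (by positivity)
      _ = C * ((min 1 K.a0) ^ M)⁻¹ * (ρ / ρ') * ((1 + lam * ρ * ‖s.X - T.X - (s.C - T.C) • T.V‖) ^ M)⁻¹ := by ring
  · intro hfar
    have hρ' : 0 < ρ' := hρ.trans_le hρρ
    rw [pk_pairing_eq]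
    refine integral_eq_zero_of_ae (Filter.Eventually.of_forall fun v => ?_)
    show atom lam ρ Φ T v * pkt lam Φ s.C ρ' s.V s.X s.ψ v = 0
    by_contra hne
    have h1 := pk_atom_supp lam Φ hρ T hTa v (left_ne_zero_of_mul hne)
    have h2 := pk_pkt_supp hsa lam hρ' s.C s.V s.X v (right_ne_zero_of_mul hne)
    have h3 : ‖T.V - s.V‖ ≤ ‖v - s.V‖ + ‖v - T.V‖ := by
      have := norm_sub_le (v - s.V) (v - T.V)
      rw [sub_sub_sub_cancel_left] at this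
      exact this
    linarith

/-- number of lattice cells met by a family contained in a ball of radius `T σ` -/
theorem pk_idx_image_card {ι : Type} (s : Finset ι) (x : ι → E2) {σ : ℝ} (hσ : 0 < σ) (y : E2) (T : ℝ) (hT : 0 ≤ T)
    (hnear : ∀ i ∈ s, ‖x i - y‖ ≤ T * σ) : ((s.image fun i => pkIdx σ y (x i)).card : ℝ) ≤ 25 * (1 + T) ^ 2 := by
  classical
  obtain ⟨K, hK⟩ : ∃ K : ℤ, K = ⌈T⌉ + 1 := ⟨_, rfl⟩
  have hKR : T + 1 ≤ (K : ℝ) := by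
    rw [hK]
    push_cast
    linarith [Int.le_ceil T]
  have hKR2 : (K : ℝ) < T + 2 := by
    rw [hK]
    push_cast
    linarith [Int.ceil_lt_add_one T]
  have hK0 : 0 ≤ K := by
    have : (0 : ℝ) ≤ K := by linarith
    exact_mod_cast this
  have hsub : (s.image fun i => pkIdx σ y (x i)) ⊆ Fintype.piFinset fun _ : Fin 2 => Finset.Icc (-K) K := by
    intro j hj
    obtain ⟨i, hi, rfl⟩ := Finset.mem_image.1 hj
    rw [Fintype.mem_piFinset]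
    intro k
    have h2 := pk_idx_abs_le hσ y (x i) k
    have h3 : ‖x i - y‖ / σ ≤ T := by
      rw [div_le_iff₀ hσ]
      exact hnear i hi
    have h4 : |((pkIdx σ y (x i) k : ℤ) : ℝ)| ≤ K := by linarith
    rw [abs_le] at h4
    rw [Finset.mem_Icc]
    constructor
    · have := h4.1
      exact_mod_cast this
    · have := h4.2
      exact_mod_cast this
  have h5 := Finset.card_le_card hsub
  rw [Fintype.card_piFinset_const, Int.card_Icc] at h5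
  have e : ((K + 1 - -K).toNat : ℝ) = 2 * K + 1 := by
    have h6 : 0 ≤ K + 1 - -K := by omega
    have := Int.toNat_of_nonneg h6
    have h7 : (((K + 1 - -K).toNat : ℤ) : ℝ) = ((K + 1 - -K : ℤ) : ℝ) := by rw [this]
    push_cast at h7
    rw [h7]
    ring
  have h8 : ((s.image fun i => pkIdx σ y (x i)).card : ℝ) ≤ (2 * K + 1) ^ 2 := by
    rw [← e]
    exact_mod_cast h5
  have h10 : (2 * (K : ℝ) + 1) ^ 2 ≤ 25 * (1 + T) ^ 2 := by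
    have a1 : 2 * (K : ℝ) + 1 ≤ 5 * (1 + T) := by linarith
    have a2 : 0 ≤ 2 * (K : ℝ) + 1 := by linarith
    calc (2 * (K : ℝ) + 1) ^ 2 ≤ (5 * (1 + T)) ^ 2 := pow_le_pow_left₀ a2 a1 2
      _ = 25 * (1 + T) ^ 2 := by ring
  exact h8.trans h10

/-- multiplicity of the transported positions of the sites of one velocity cell -/
theorem pk_transport_mult (C₀ : ℝ) : ∃ C : ℕ, ∀ (ι : Type) (s : Finset ι) (V X : ι → E2) (ρ σ : ℝ) (m : ℕ), 0 < ρ → 0 < σ →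
    PkMult2 s V X ρ σ m → ∀ (τ : ℝ) (V₀ : E2), |τ| * ρ ≤ C₀ * σ → (∀ i ∈ s, ‖V i - V₀‖ ≤ ρ) →
      PkMult s (fun i => X i + τ • V i) σ (C * m) := by
  obtain ⟨C₁, hC₁⟩ := pk_mult2_slice
  obtain ⟨C₂, hC₂0, hC₂⟩ := pk_count_ball
  refine ⟨⌈C₂ * 4 * (1 + (1 + C₀)) ^ 2⌉₊ * C₁, fun ι s V X ρ σ m hρ hσ hm τ V₀ hτ hV y₀ u hus hu => ?_⟩
  have hC₀ : 0 ≤ C₀ := by
    by_contra hneg
    push Not at hneg
    have h1 : C₀ * σ < 0 := mul_neg_of_neg_of_pos hneg hσ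
    have h2 : 0 ≤ |τ| * ρ := by positivity
    linarith
  have h2 := hC₁ ι u V X ρ σ m hρ (hm.mono hus) V₀ 1 zero_le_one
    (fun i hi => by rw [one_mul]; exact hV i (hus hi))
  have h3 := hC₂ ι u X σ _ hσ h2 (y₀ - τ • V₀) (1 + C₀) (by linarith) (fun i hi => by
    have e : X i - (y₀ - τ • V₀) = (X i + τ • V i - y₀) - τ • (V i - V₀) := by
      rw [smul_sub]
      abel
    rw [e]
    calc ‖(X i + τ • V i - y₀) - τ • (V i - V₀)‖ ≤ ‖X i + τ • V i - y₀‖ + ‖τ • (V i - V₀)‖ := norm_sub_le _ _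
      _ ≤ σ + |τ| * ρ := by
          refine add_le_add (hu i hi) ?_
          rw [norm_smul, Real.norm_eq_abs]
          exact mul_le_mul_of_nonneg_left (hV i (hus hi)) (abs_nonneg _)
      _ ≤ (1 + C₀) * σ := by linarith)
  have e1 : ⌈(1 : ℝ)⌉₊ = 1 := Nat.ceil_one
  rw [e1] at h3
  have h4 : (u.card : ℝ) ≤ ((⌈C₂ * 4 * (1 + (1 + C₀)) ^ 2⌉₊ * C₁ * m : ℕ) : ℝ) := by
    have h5 : C₂ * 4 * (1 + (1 + C₀)) ^ 2 ≤ (⌈C₂ * 4 * (1 + (1 + C₀)) ^ 2⌉₊ : ℝ) := Nat.le_ceil _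
    have h6 : (0 : ℝ) ≤ (C₁ : ℝ) * m := by positivity
    have h7 : C₂ * ((C₁ * m * (1 + 1) ^ 2 : ℕ) : ℝ) * (1 + (1 + C₀)) ^ 2
        = (C₂ * 4 * (1 + (1 + C₀)) ^ 2) * ((C₁ : ℝ) * m) := by
      push_cast
      ring
    have h8 : ((⌈C₂ * 4 * (1 + (1 + C₀)) ^ 2⌉₊ * C₁ * m : ℕ) : ℝ)
        = (⌈C₂ * 4 * (1 + (1 + C₀)) ^ 2⌉₊ : ℝ) * ((C₁ : ℝ) * m) := by
      push_cast
      ring
    rw [h7] at h3
    rw [h8]
    exact h3.trans (mul_le_mul_of_nonneg_right h5 h6)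
  exact_mod_cast h4

/-- sums of `(1 + |y_k - Y|/σ)^{-P}` of transported positions over a velocity ball of radius `T ρ` -/
theorem pk_transport_count (C₀ : ℝ) (P : ℕ) (hP : 3 ≤ P) : ∃ C : ℝ, 0 ≤ C ∧ ∀ (ι : Type) (s : Finset ι) (V X : ι → E2) (ρ σ : ℝ) (m : ℕ),
    0 < ρ → 0 < σ → PkMult2 s V X ρ σ m → ∀ (τ : ℝ) (W Y : E2) (T R₁ : ℝ), |τ| * ρ ≤ C₀ * σ → 0 ≤ T → (∀ i ∈ s, ‖V i - W‖ ≤ T * ρ) →
      0 ≤ R₁ → (∀ i ∈ s, R₁ * σ ≤ ‖X i + τ • V i - Y‖) →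
      ∑ i ∈ s, ((1 + ‖X i + τ • V i - Y‖ / σ) ^ P)⁻¹ ≤ C * m * (1 + T) ^ 2 * ((1 + R₁) ^ (P - 3))⁻¹ := by
  classical
  obtain ⟨C₁, hC₁⟩ := pk_transport_mult C₀
  obtain ⟨C₂, hC₂0, hC₂⟩ := pk_count P hP
  refine ⟨25 * (C₂ * C₁), by positivity, fun ι s V X ρ σ m hρ hσ hm τ W Y T R₁ hτ hT hV hR₁ hfar => ?_⟩
  have hcard := pk_idx_image_card s V hρ W T hT hV
  rw [← Finset.sum_fiberwise_of_maps_to (s := s) (t := s.image fun i => pkIdx ρ W (V i))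
    (g := fun i => pkIdx ρ W (V i)) (fun i hi => Finset.mem_image_of_mem _ hi)]
  have hfib : ∀ j ∈ s.image fun i => pkIdx ρ W (V i),
      ∑ i ∈ s with pkIdx ρ W (V i) = j, ((1 + ‖X i + τ • V i - Y‖ / σ) ^ P)⁻¹
        ≤ C₂ * ((C₁ * m : ℕ) : ℝ) * ((1 + R₁) ^ (P - 3))⁻¹ := by
    intro j _
    have hsub : (s.filter fun i => pkIdx ρ W (V i) = j) ⊆ s := Finset.filter_subset _ _
    have hmult := hC₁ ι (s.filter fun i => pkIdx ρ W (V i) = j) V X ρ σ m hρ hσ (hm.mono hsub) τ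
      (W + ρ • (WithLp.toLp 2 (fun k => ((j k : ℤ) : ℝ)) : E2)) hτ (fun i hi => by
        rw [Finset.mem_filter] at hi
        have := pk_idx_near hρ W (V i)
        rw [hi.2] at this
        exact this)
    exact hC₂ ι _ (fun i => X i + τ • V i) σ _ hσ hmult Y R₁ hR₁ fun i hi => hfar i (hsub hi)
  refine (Finset.sum_le_sum hfib).trans ?_
  rw [Finset.sum_const, nsmul_eq_mul]
  have hnn : 0 ≤ C₂ * ((C₁ * m : ℕ) : ℝ) * ((1 + R₁) ^ (P - 3))⁻¹ := by positivity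
  refine (mul_le_mul_of_nonneg_right hcard hnn).trans (le_of_eq ?_)
  push_cast
  ring

/-- the pairing of a finite superposition of atoms -/
theorem pk_pairing_sum {K : OscBd} {Φ : ℝ → E2 → E2 → ℝ} {ζ : E2 → E2 → E2} (h : IsPhase K Φ ζ) (lam ρ : ℝ) {ρ' : ℝ} (hρ' : 0 < ρ')
    {κ : Type} (sT : Finset κ) (sT' : κ → Site) {M : ℕ} {R Ra : ℝ} {b b' : ℕ → ℝ} (hc : ∀ k ∈ sT, 0 ≤ (sT' k).C)
    (hamp : ∀ k ∈ sT, PkAmp M Ra b' (sT' k).ψ) (s : Site) (hs0 : 0 ≤ s.C) (hs : PkAmp M R b s.ψ) (a : κ → ℂ) :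
    pairing lam ρ' Φ (fun v => ∑ k ∈ sT, a k * atom lam ρ Φ (sT' k) v) s
      = ∑ k ∈ sT, a k * pairing lam ρ' Φ (atom lam ρ Φ (sT' k)) s := by
  simp only [pk_pairing_eq]
  have hcont : Continuous (pkt lam Φ s.C ρ' s.V s.X s.ψ) := pk_pkt_continuous h hs lam ρ' hs0 s.V s.X
  have hint : ∀ k ∈ sT, Integrable (fun v => a k * (atom lam ρ Φ (sT' k) v * pkt lam Φ s.C ρ' s.V s.X s.ψ v)) := by
    intro k hk
    have h1 : Continuous (atom lam ρ Φ (sT' k)) := by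
      have e : atom lam ρ Φ (sT' k) = fun v => conj (pkt lam Φ (sT' k).C ρ (sT' k).V (sT' k).X
          (fun z => conj ((sT' k).ψ z)) v) := funext fun v => pk_atom_eq lam ρ Φ (sT' k) v
      rw [e]
      exact Complex.continuous_conj.comp
        (pk_pkt_continuous h (pk_amp_conj (hamp k hk)) lam ρ (hc k hk) (sT' k).V (sT' k).X)
    refine (continuous_const.mul (h1.mul hcont)).integrable_of_hasCompactSupport ?_
    refine HasCompactSupport.intro (isCompact_closedBall s.V (R * ρ')) fun v hv => ?_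
    have h2 : pkt lam Φ s.C ρ' s.V s.X s.ψ v = 0 := by
      by_contra hne
      apply hv
      rw [mem_closedBall, dist_eq_norm]
      exact pk_pkt_supp hs lam hρ' s.C s.V s.X v hne
    show a k * (atom lam ρ Φ (sT' k) v * pkt lam Φ s.C ρ' s.V s.X s.ψ v) = 0
    rw [h2, mul_zero, mul_zero]
  have e1 : ∀ v, (∑ k ∈ sT, a k * atom lam ρ Φ (sT' k) v) * pkt lam Φ s.C ρ' s.V s.X s.ψ v
      = ∑ k ∈ sT, a k * (atom lam ρ Φ (sT' k) v * pkt lam Φ s.C ρ' s.V s.X s.ψ v) := by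
    intro v
    rw [Finset.sum_mul]
    exact Finset.sum_congr rfl fun k _ => mul_assoc _ _ _
  simp only [e1]
  rw [integral_finsetSum _ hint]
  exact Finset.sum_congr rfl fun k _ => integral_const_mul _ _

/-- **AN-TR**: transport tail, ANY coefficients, any finite family of atoms with one time anchor which are all far (`≥ R₁ σ`) from the back-transported test. -/
theorem pk_site_transport (K : OscBd) (h0 : 0 < K.a0) (R Ra C₀ : ℝ) (M : ℕ) (hM : 2 ≤ M) (b b' : ℕ → ℝ) : ∃ C : ℝ, 0 ≤ C ∧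
    ∀ (Φ : ℝ → E2 → E2 → ℝ) (ζ : E2 → E2 → E2), IsPhase K Φ ζ → ∀ (lam ρ ρ' c : ℝ), 0 < lam → 0 < ρ → ρ ≤ ρ' → ρ' ≤ 1 → 0 ≤ c → c ≤ 1 →
      ∀ (κ : Type) (sT : Finset κ) (sT' : κ → Site) (m : ℕ), (∀ k ∈ sT, (sT' k).C = c) → (∀ k ∈ sT, PkAmp M Ra b' (sT' k).ψ) →
      PkLoc sT sT' ρ (lam * ρ)⁻¹ m → ∀ s : Site, 0 ≤ s.C → s.C ≤ 1 → PkAmp M R b s.ψ →
      (∀ k ∈ sT, lam * ρ ^ 2 * (‖s.X - (sT' k).X - (s.C - c) • (sT' k).V‖ + |s.C - c|) ≤ C₀) → ∀ R₁ : ℝ, 0 ≤ R₁ →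
      (∀ k ∈ sT, R₁ ≤ lam * ρ * ‖s.X - (sT' k).X - (s.C - c) • (sT' k).V‖) → ∀ a : κ → ℂ,
        ‖pairing lam ρ' Φ (fun v => ∑ k ∈ sT, a k * atom lam ρ Φ (sT' k) v) s‖ ^ 2
          ≤ C * m * (∑ k ∈ sT, ‖a k‖ ^ 2) * ((1 + R₁) ^ (2 * M - 3))⁻¹ := by
  classical
  obtain ⟨Cm, hCm0, hCm⟩ := pk_site_mix K h0 R Ra C₀ M b b'
  obtain ⟨Cl, hCl⟩ := pk_mult2_of_local
  obtain ⟨Cc, hCc0, hCc⟩ := pk_transport_count C₀ (2 * M) (by omega)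
  refine ⟨Cm ^ 2 * (Cc * Cl * (1 + |R| + |Ra|) ^ 2), by positivity,
    fun Φ ζ h lam ρ ρ' c hlam hρ hρρ' hρ'1 hc hc1 κ sT sT' m hTc hTa hloc s hs0 hs1 hsa hC₀ R₁ hR₁ hfar a => ?_⟩
  have hρ' : 0 < ρ' := lt_of_lt_of_le hρ hρρ'
  obtain ⟨σ, hσdef⟩ : ∃ σ : ℝ, σ = (lam * ρ)⁻¹ := ⟨_, rfl⟩
  have hσ : 0 < σ := by rw [hσdef]; positivity
  obtain ⟨τ, hτdef⟩ : ∃ τ : ℝ, τ = s.C - c := ⟨_, rfl⟩
  rw [← hτdef] at hC₀ hfar
  obtain ⟨G, hG⟩ : ∃ G : κ → ℂ, ∀ k, G k = pairing lam ρ' Φ (atom lam ρ Φ (sT' k)) s := ⟨_, fun _ => rfl⟩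
  rw [pk_pairing_sum h lam ρ hρ' sT sT' (fun k hk => by rw [hTc k hk]; exact hc) hTa s hs0 hsa a]
  simp only [← hG]
  -- Cauchy-Schwarz
  have hCS : ‖∑ k ∈ sT, a k * G k‖ ^ 2 ≤ (∑ k ∈ sT, ‖a k‖ ^ 2) * ∑ k ∈ sT, ‖G k‖ ^ 2 := by
    calc ‖∑ k ∈ sT, a k * G k‖ ^ 2 ≤ (∑ k ∈ sT, ‖a k‖ * ‖G k‖) ^ 2 := by
          refine pow_le_pow_left₀ (norm_nonneg _) ?_ 2
          refine (norm_sum_le _ _).trans (le_of_eq ?_)
          exact Finset.sum_congr rfl fun k _ => norm_mul _ _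
      _ ≤ _ := Finset.sum_mul_sq_le_sq_mul_sq _ _ _
  -- distances
  have hd : ∀ k, ‖s.X - (sT' k).X - τ • (sT' k).V‖ = ‖(sT' k).X + τ • (sT' k).V - s.X‖ := by
    intro k
    rw [← norm_neg]
    congr 1
    abel
  have hls : ∀ x : ℝ, lam * ρ * x = x / σ := by
    intro x
    rw [hσdef, div_inv_eq_mul, mul_comm]
  -- the sum of squares
  have hsq : ∑ k ∈ sT, ‖G k‖ ^ 2 ≤ Cm ^ 2 * (Cc * Cl * (1 + |R| + |Ra|) ^ 2) * m * ((1 + R₁) ^ (2 * M - 3))⁻¹ := by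
    rcases sT.eq_empty_or_nonempty with rfl | ⟨k₀, hk₀⟩
    · rw [Finset.sum_empty]
      positivity
    have hτ : |τ| * ρ ≤ C₀ * σ := by
      have h1 := hC₀ k₀ hk₀
      have h2 : lam * ρ ^ 2 * |τ| ≤ C₀ := by
        refine le_trans ?_ h1
        refine mul_le_mul_of_nonneg_left ?_ (by positivity)
        linarith [norm_nonneg (s.X - (sT' k₀).X - τ • (sT' k₀).V)]
      rw [hσdef, ← div_eq_mul_inv, le_div_iff₀ (by positivity)]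
      calc |τ| * ρ * (lam * ρ) = lam * ρ ^ 2 * |τ| := by ring
        _ ≤ C₀ := h2
    have hmix : ∀ k ∈ sT, ‖G k‖ ≤ Cm * (ρ / ρ') * ((1 + ‖(sT' k).X + τ • (sT' k).V - s.X‖ / σ) ^ M)⁻¹ ∧
        (R * ρ' + Ra * ρ < ‖(sT' k).V - s.V‖ → G k = 0) := by
      intro k hk
      have h1 := hCm Φ ζ h lam ρ ρ' hlam hρ hρρ' hρ'1 (sT' k) s (by rw [hTc k hk]; exact hc) (by rw [hTc k hk]; exact hc1)
        hs0 hs1 (hTa k hk) hsa (by rw [hTc k hk, ← hτdef]; exact hC₀ k hk)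
      rw [hTc k hk, ← hτdef, hd, hls, ← hG] at h1
      exact h1
    obtain ⟨s', hs'⟩ : ∃ s' : Finset κ, s' = sT.filter fun k => ‖(sT' k).V - s.V‖ ≤ R * ρ' + Ra * ρ := ⟨_, rfl⟩
    have hs'sub : s' ⊆ sT := by rw [hs']; exact Finset.filter_subset _ _
    have e1 : ∑ k ∈ sT, ‖G k‖ ^ 2 = ∑ k ∈ s', ‖G k‖ ^ 2 := by
      symm
      refine Finset.sum_subset hs'sub fun k hk hk' => ?_
      have h2 : R * ρ' + Ra * ρ < ‖(sT' k).V - s.V‖ := by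
        by_contra hcon
        apply hk'
        rw [hs', Finset.mem_filter]
        exact ⟨hk, not_lt.1 hcon⟩
      rw [(hmix k hk).2 h2, norm_zero]
      norm_num
    have hm2 : PkMult2 s' (fun k => (sT' k).V) (fun k => (sT' k).X) ρ σ (Cl * m) :=
      (hCl κ sT (fun k => (sT' k).V) (fun k => (sT' k).X) ρ σ m hρ hσ (by rw [hσdef]; exact hloc)).mono hs'sub
    have hT0 : 0 ≤ (|R| + |Ra|) * (ρ' / ρ) := by positivity
    have hcount := hCc κ s' (fun k => (sT' k).V) (fun k => (sT' k).X) ρ σ (Cl * m) hρ hσ hm2 τ s.V s.X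
      ((|R| + |Ra|) * (ρ' / ρ)) R₁ hτ hT0 (fun k hk => by
        rw [hs', Finset.mem_filter] at hk
        refine hk.2.trans ?_
        have e2 : (|R| + |Ra|) * (ρ' / ρ) * ρ = |R| * ρ' + |Ra| * ρ' := by
          field_simp
        rw [e2]
        refine add_le_add (mul_le_mul_of_nonneg_right (le_abs_self R) hρ'.le) ?_
        calc Ra * ρ ≤ |Ra| * ρ := mul_le_mul_of_nonneg_right (le_abs_self Ra) hρ.le
          _ ≤ |Ra| * ρ' := mul_le_mul_of_nonneg_left hρρ' (abs_nonneg _)) hR₁ (fun k hk => by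
        have h3 := hfar k (hs'sub hk)
        rw [hd, hls, le_div_iff₀ hσ] at h3
        exact h3)
    have hq1 : 1 ≤ ρ' / ρ := (one_le_div hρ).2 hρρ'
    have hratio : (ρ / ρ') ^ 2 * (1 + (|R| + |Ra|) * (ρ' / ρ)) ^ 2 ≤ (1 + |R| + |Ra|) ^ 2 := by
      rw [← mul_pow]
      refine pow_le_pow_left₀ (by positivity) ?_ 2
      have e3 : ρ / ρ' * (1 + (|R| + |Ra|) * (ρ' / ρ)) = ρ / ρ' + (|R| + |Ra|) := by
        field_simp
      rw [e3]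
      have : ρ / ρ' ≤ 1 := (div_le_one hρ').2 hρρ'
      linarith
    rw [e1]
    calc ∑ k ∈ s', ‖G k‖ ^ 2
        ≤ ∑ k ∈ s', (Cm * (ρ / ρ')) ^ 2 * ((1 + ‖(sT' k).X + τ • (sT' k).V - s.X‖ / σ) ^ (2 * M))⁻¹ := by
          refine Finset.sum_le_sum fun k hk => ?_
          have h4 := pow_le_pow_left₀ (norm_nonneg _) (hmix k (hs'sub hk)).1 2
          refine h4.trans (le_of_eq ?_)
          rw [mul_pow, inv_pow, ← pow_mul, mul_comm M 2]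
      _ = (Cm * (ρ / ρ')) ^ 2 * ∑ k ∈ s', ((1 + ‖(sT' k).X + τ • (sT' k).V - s.X‖ / σ) ^ (2 * M))⁻¹ := by
          rw [Finset.mul_sum]
      _ ≤ (Cm * (ρ / ρ')) ^ 2 * (Cc * ((Cl * m : ℕ) : ℝ) * (1 + (|R| + |Ra|) * (ρ' / ρ)) ^ 2
            * ((1 + R₁) ^ (2 * M - 3))⁻¹) := mul_le_mul_of_nonneg_left hcount (by positivity)
      _ = Cm ^ 2 * (Cc * Cl) * m * ((1 + R₁) ^ (2 * M - 3))⁻¹
            * ((ρ / ρ') ^ 2 * (1 + (|R| + |Ra|) * (ρ' / ρ)) ^ 2) := by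
          push_cast
          ring
      _ ≤ Cm ^ 2 * (Cc * Cl) * m * ((1 + R₁) ^ (2 * M - 3))⁻¹ * (1 + |R| + |Ra|) ^ 2 :=
          mul_le_mul_of_nonneg_left hratio (by positivity)
      _ = _ := by ring
  calc ‖∑ k ∈ sT, a k * G k‖ ^ 2 ≤ (∑ k ∈ sT, ‖a k‖ ^ 2) * ∑ k ∈ sT, ‖G k‖ ^ 2 := hCS
    _ ≤ (∑ k ∈ sT, ‖a k‖ ^ 2) * (Cm ^ 2 * (Cc * Cl * (1 + |R| + |Ra|) ^ 2) * m * ((1 + R₁) ^ (2 * M - 3))⁻¹) :=
        mul_le_mul_of_nonneg_left hsq (Finset.sum_nonneg fun k _ => by positivity)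
    _ = _ := by ring

/-- exact equality of the packets after a change of centre, anchor and amplitude -/
theorem pk_move_pkt (lam : ℝ) {ρ : ℝ} (hρ : 0 < ρ) (Φ : ℝ → E2 → E2 → ℝ) (C C' : ℝ) (V V' X X' : E2) (ψ : E2 → ℂ) (v : E2) :
    pkt lam Φ C' ρ V' X' (fun z => ψ (ρ⁻¹ • (V' - V) + z)
      * Complex.exp (Complex.I * ((pkPh lam Φ V' ρ C C' X X' z : ℝ) : ℂ))) v = pkt lam Φ C ρ V X ψ v := by
  have e1 : ρ⁻¹ • (V' - V) + ρ⁻¹ • (v - V') = ρ⁻¹ • (v - V) := by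
    rw [← smul_add]
    congr 1
    abel
  have e2 : V' + ρ • ρ⁻¹ • (v - V') = v := by
    rw [smul_smul, mul_inv_cancel₀ hρ.ne', one_smul]
    abel
  simp only [pkt, pkPh, e1, e2]
  rw [mul_assoc, mul_assoc, mul_assoc, ← Complex.exp_add]
  congr 3
  push_cast
  ring

/-- **AN-MOVE**: moving the velocity centre by `≤ C₁ ρ`, the time anchor by `≤ C₁ (lam ρ²)⁻¹`, the position to within `C₁ σ` of the transported position. -/
theorem pk_site_move (K : OscBd) (R C₁ : ℝ) (b : ℕ → ℝ) : ∃ b' : ℕ → ℝ, (∀ j, 0 ≤ b' j) ∧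
    ∀ (Φ : ℝ → E2 → E2 → ℝ) (ζ : E2 → E2 → E2), IsPhase K Φ ζ → ∀ (lam ρ : ℝ), 0 < lam → 0 < ρ → ρ ≤ 1 →
      ∀ (s : Site) (C' : ℝ) (V' X' : E2), 0 ≤ s.C → s.C ≤ 1 → 0 ≤ C' → C' ≤ 1 → ‖V' - s.V‖ ≤ C₁ * ρ → lam * ρ ^ 2 * |C' - s.C| ≤ C₁ →
      lam * ρ * ‖X' - s.X - (C' - s.C) • s.V‖ ≤ C₁ → ∃ ψ' : E2 → ℂ,
        (∀ M, PkAmp M R b s.ψ → PkAmp M (R + C₁) b' ψ') ∧
        (∀ f : E2 → ℂ, pairing lam ρ Φ f ⟨C', V', X', ψ'⟩ = pairing lam ρ Φ f s) ∧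
        (∀ v, atom lam ρ Φ (Site.mk C' V' X' (fun z => conj (ψ' z))) v = atom lam ρ Φ (Site.mk s.C s.V s.X (fun z => conj (s.ψ z))) v) := by
  obtain ⟨A', hA'0, hA'⟩ := pk_D_cb K 1 1
  obtain ⟨Λ', hΛ'0, hΛ'⟩ := pk_lin_cb K 1 (R + C₁ + 1) (2 * C₁ + C₁ ^ 2) (A' 0 * (2 * C₁ + C₁ ^ 2))
  refine ⟨fun j => |pkLeib b Λ' j|, fun j => abs_nonneg _,
    fun Φ ζ h lam ρ hlam hρ hρ1 s C' V' X' hc hc1 hc' hc'1 hV hC hX => ?_⟩
  have hC₁ : 0 ≤ C₁ := by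
    by_contra hneg
    push Not at hneg
    have h1 : C₁ * ρ < 0 := mul_neg_of_neg_of_pos hneg hρ
    linarith [norm_nonneg (V' - s.V)]
  refine ⟨fun z => s.ψ (ρ⁻¹ • (V' - s.V) + z)
    * Complex.exp (Complex.I * ((pkPh lam Φ V' ρ s.C C' s.X X' z : ℝ) : ℂ)), fun M hM => ?_, fun f => ?_, fun v => ?_⟩
  · by_cases hR : 0 ≤ R + C₁
    · -- the regime
      have hu : ‖ρ⁻¹ • (V' - s.V)‖ ≤ C₁ := by
        rw [norm_smul, Real.norm_eq_abs, abs_of_pos (inv_pos.2 hρ), inv_mul_le_iff₀ hρ, mul_comm]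
        exact hV
      have hw : ‖s.X - X' - (s.C - C') • V'‖ ≤ ‖X' - s.X - (C' - s.C) • s.V‖ + |C' - s.C| * (C₁ * ρ) := by
        have e : s.X - X' - (s.C - C') • V' = -(X' - s.X - (C' - s.C) • s.V) + (C' - s.C) • (V' - s.V) := by
          module
        rw [e]
        refine (norm_add_le _ _).trans ?_
        rw [norm_neg, norm_smul, Real.norm_eq_abs]
        exact add_le_add le_rfl (mul_le_mul_of_nonneg_left hV (abs_nonneg _))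
      have hcc : |s.C - C'| = |C' - s.C| := abs_sub_comm _ _
      have hlw : lam * ρ * ‖s.X - X' - (s.C - C') • V'‖ ≤ C₁ + C₁ ^ 2 := by
        calc lam * ρ * ‖s.X - X' - (s.C - C') • V'‖
            ≤ lam * ρ * (‖X' - s.X - (C' - s.C) • s.V‖ + |C' - s.C| * (C₁ * ρ)) :=
              mul_le_mul_of_nonneg_left hw (by positivity)
          _ = lam * ρ * ‖X' - s.X - (C' - s.C) • s.V‖ + (lam * ρ ^ 2 * |C' - s.C|) * C₁ := by ring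
          _ ≤ C₁ + C₁ * C₁ := add_le_add hX (mul_le_mul_of_nonneg_right hC hC₁)
          _ = C₁ + C₁ ^ 2 := by ring
      have hreg : lam * ρ ^ 2 * (‖s.X - X' - (s.C - C') • V'‖ + |s.C - C'|) ≤ 2 * C₁ + C₁ ^ 2 := by
        have h1 : lam * ρ ^ 2 * ‖s.X - X' - (s.C - C') • V'‖ ≤ C₁ + C₁ ^ 2 := by
          calc lam * ρ ^ 2 * ‖s.X - X' - (s.C - C') • V'‖ = ρ * (lam * ρ * ‖s.X - X' - (s.C - C') • V'‖) := by ring
            _ ≤ 1 * (lam * ρ * ‖s.X - X' - (s.C - C') • V'‖) := mul_le_mul_of_nonneg_right hρ1 (by positivity)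
            _ ≤ C₁ + C₁ ^ 2 := by rw [one_mul]; exact hlw
        rw [mul_add, hcc]
        linarith
      have hD0 : ‖(lam * ρ) • pkD ζ V' ρ s.C C' s.X X' 0 + 0‖ ≤ A' 0 * (2 * C₁ + C₁ ^ 2) := by
        have h1 := (hA' Φ ζ h V' s.X X' ρ s.C C' hρ hρ1 (by rw [abs_of_nonneg hc]; exact hc1)
          (by rw [abs_of_nonneg hc']; exact hc'1)).bd 0 0 (mem_ball_self one_pos)
        rw [norm_iteratedFDeriv_zero, if_pos rfl] at h1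
        rw [add_zero, norm_smul, Real.norm_eq_abs, abs_of_pos (mul_pos hlam hρ)]
        calc lam * ρ * ‖pkD ζ V' ρ s.C C' s.X X' 0‖
            ≤ lam * ρ * (A' 0 * (‖s.X - X' - (s.C - C') • V'‖ + |s.C - C'| * ρ)) :=
              mul_le_mul_of_nonneg_left h1 (by positivity)
          _ = A' 0 * (lam * ρ * ‖s.X - X' - (s.C - C') • V'‖ + lam * ρ ^ 2 * |s.C - C'|) := by ring
          _ ≤ A' 0 * (2 * C₁ + C₁ ^ 2) := by
              refine mul_le_mul_of_nonneg_left ?_ (hA'0 0)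
              rw [hcc]
              linarith
      obtain ⟨hsm, hcb⟩ := hΛ' Φ ζ h lam ρ s.C C' V' s.X X' 0 hlam hρ hρ1 hc hc1 hc' hc'1 hreg hD0
      simp only [inner_zero_left, add_zero] at hsm hcb
      have h1 : PkAmp M (R + C₁) b (fun z => s.ψ (ρ⁻¹ • (V' - s.V) + z)) :=
        (pk_amp_shift hM (ρ⁻¹ • (V' - s.V))).mono le_rfl (by linarith) fun _ _ => le_rfl
      exact (pk_amp_mul_cb hR h1 hsm hcb).mono le_rfl le_rfl fun j _ => le_abs_self _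
    · have hz : ∀ z, s.ψ z = 0 := by
        intro z
        by_contra hne
        have := hM.supp z hne
        linarith [norm_nonneg z]
      simp only [hz, zero_mul]
      exact pk_amp_zero M (R + C₁) fun j => abs_nonneg _
  · rw [pk_pairing_eq, pk_pairing_eq]
    simp only [pk_move_pkt lam hρ]
  · rw [pk_atom_eq, pk_atom_eq]
    simp only [Complex.conj_conj]
    rw [pk_move_pkt lam hρ]

end Claimed.Agent.R255
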