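import Claimed.Agent.R255.Pkt.Cut
import Claimed.Agent.R255.Pk.AtomsMix
import Claimed.Agent.R255.Pk.Export

/-!
# R255 / Pk / AtomsExist : BR LEMMA 9.3 IN ITS FINAL FORM = THE CONTRACT `Pkt.atoms_exist` OF `Pkt/Cut.lean`      (architect helper91)

CONSTRUCTION.  For a localizer `j : Loc0`: time `c = j.Cr`, reference position `XJ = j.XJ`, velocity centre `VJ = j.VJ`, window scale `ρ = ρ_r`, `σ = σ_r = (lam ρ_r)⁻¹ = ε^r ρ_r`, `lam ρ_r² = ε^{-r}`.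
 Atom sites `pkASite E r bs j q`, `q = (window, mode) : PkIdx`;  retained: `j` in the finite set of localizers of admissible endpoint sites, `q ∈ pkRet … (Ca ε^bs) (Ca ε^r ε^bs)`, and coefficient floor `ε^Bx ‖f‖² ≤ |c_q|²`.
 CONSTANTS: `Ra = 2`, `Bb` from `pk_eta_amp B.K 1 Ca 0`, `Mu = m₀` from `pk_pos_mult`, `Ca = |B.Ra| + 4`;  given `A`: `M` with `2(A+1) ≤ (dmin/2)(2M-3)`, `Bx = 2A + 4 Hmax + 4`, `ε₀` from `pk_numerology`.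
 SCALES (`Δ = u_r - bs ≥ (t-r)/2 ≥ dmin/2`, `Δ ≤ Hmax/2`):  `ρ_r ≤ ρ_t ≤ ε^bs ≤ 1`;  `Ca ε^bs / ρ_r = Ca ε^{-Δ} = lam ρ_r · Ca ε^r ε^bs`;  `R₁ = ε^{-Δ}`, `R₁ σ_r = ε^r ε^bs`.
 TRUNC: endpoint site `s`, `j = loc0 s`: `pk_loc0_near`; localisation constant `C₀ = 2`; `pk_deco_local` with `θ = ε^Bx ‖f‖²`; `pk_ret_finite` for the count; `pk_numerology`.
-/

set_option autoImplicit false

namespace Claimed.Agent.R255

open MeasureTheory Metric Set Osc Pkt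
open scoped ContDiff InnerProductSpace ComplexConjugate

/-- index of an atom: (window, mode) -/
abbrev PkIdx : Type := (ℤ × ℤ) × (ℤ × ℤ)

/-- the indices retained near `(VJ, XJ)` -/
def pkRet (lam : ℝ) (ζ : E2 → E2 → E2) (c ρ : ℝ) (XJ VJ : E2) (Sv Sx : ℝ) : Set PkIdx :=
  {q | ‖pkVc ρ q.1 - VJ‖ ≤ Sv ∧ ‖pkPos lam ζ c ρ XJ q.1 q.2 - XJ‖ ≤ Sx}

/-- the lattice points in a ball form a finite set. -/
theorem pk_lat_ball_finite (z : E2) (r : ℝ) : {j : ℤ × ℤ | ‖z - pkLat j‖ < r}.Finite := by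
  refine ((Finset.Icc ⌈z 0 - r⌉ ⌊z 0 + r⌋ ×ˢ Finset.Icc ⌈z 1 - r⌉ ⌊z 1 + r⌋).finite_toSet).subset ?_
  intro j hj
  have h : ‖z - pkLat j‖ < r := hj
  have h0 := (pk_e2_abs_le (z - pkLat j) 0).trans_lt h
  have h1 := (pk_e2_abs_le (z - pkLat j) 1).trans_lt h
  rw [(pk_lat_sub z j).1, abs_lt] at h0
  rw [(pk_lat_sub z j).2, abs_lt] at h1
  rw [Finset.mem_coe, Finset.mem_product, Finset.mem_Icc, Finset.mem_Icc]
  refine ⟨⟨Int.ceil_le.2 ?_, Int.le_floor.2 ?_⟩, ⟨Int.ceil_le.2 ?_, Int.le_floor.2 ?_⟩⟩ <;> linarith [h0.1, h0.2, h1.1, h1.2]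

/-- their number. -/
theorem pk_lat_ball_ncard (z : E2) (r : ℝ) (hr : 0 ≤ r) : (({j : ℤ × ℤ | ‖z - pkLat j‖ < r}.ncard : ℕ) : ℝ) ≤ (2 * r + 1) ^ 2 := by
  rw [Set.ncard_eq_toFinset_card _ (pk_lat_ball_finite z r)]
  exact pk_lat_count z r hr _ (fun j hj => by simpa using hj)

/-- **AE-a**: the retained set is finite, with a polynomial count. -/
theorem pk_ret_finite (K : OscBd) (h0 : 0 < K.a0) : ∃ C : ℝ, 0 ≤ C ∧ ∀ (Φ : ℝ → E2 → E2 → ℝ) (ζ : E2 → E2 → E2), IsPhase K Φ ζ →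
    ∀ (lam ρ c : ℝ) (XJ VJ : E2) (Sv Sx : ℝ), 0 < lam → 0 < ρ → 0 ≤ Sv → 0 ≤ Sx →
      (pkRet lam ζ c ρ XJ VJ Sv Sx).Finite ∧
      ((pkRet lam ζ c ρ XJ VJ Sv Sx).ncard : ℝ) ≤ C * (1 + Sv / ρ) ^ 2 * (1 + lam * ρ * Sx) ^ 2 := by
  have hpi := Real.pi_pos
  refine ⟨9 * (2 * |K.A 0| / Real.pi + 3) ^ 2, by positivity, fun Φ ζ h lam ρ c XJ VJ Sv Sx hl hρ hSv hSx => ?_⟩
  have hf1 := pk_lat_ball_finite (ρ⁻¹ • VJ) (Sv / ρ + 1)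
  have hf2 := pk_lat_ball_finite (0 : E2) (|K.A 0| * (lam * ρ * Sx) / Real.pi + 1)
  have hsub : pkRet lam ζ c ρ XJ VJ Sv Sx ⊆
      {j | ‖ρ⁻¹ • VJ - pkLat j‖ < Sv / ρ + 1} ×ˢ {n | ‖(0 : E2) - pkLat n‖ < |K.A 0| * (lam * ρ * Sx) / Real.pi + 1} := by
    rintro ⟨j, n⟩ ⟨h1, h2⟩
    have h1' : ‖pkVc ρ j - VJ‖ ≤ Sv := h1
    have h2' : ‖pkPos lam ζ c ρ XJ j n - XJ‖ ≤ Sx := h2
    refine ⟨?_, ?_⟩
    · show ‖ρ⁻¹ • VJ - pkLat j‖ < Sv / ρ + 1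
      have e : ρ⁻¹ • VJ - pkLat j = -(ρ⁻¹ • (pkVc ρ j - VJ)) := by
        unfold pkVc
        rw [smul_sub, smul_smul, inv_mul_cancel₀ hρ.ne', one_smul]
        abel
      rw [e, norm_neg, norm_smul, Real.norm_eq_abs, abs_of_pos (inv_pos.2 hρ)]
      have : ρ⁻¹ * ‖pkVc ρ j - VJ‖ ≤ ρ⁻¹ * Sv := mul_le_mul_of_nonneg_left h1' (inv_pos.2 hρ).le
      have e2 : ρ⁻¹ * Sv = Sv / ρ := by rw [div_eq_mul_inv, mul_comm]
      linarith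
    · show ‖(0 : E2) - pkLat n‖ < |K.A 0| * (lam * ρ * Sx) / Real.pi + 1
      have hb := (pk_pos_bilip h h0 hl hρ c XJ j n (0, 0)).2
      rw [pk_pos_zero h h0] at hb
      have e0 : pkLat (0, 0) = 0 := by
        unfold pkLat
        ext i
        fin_cases i <;> simp
      rw [e0, sub_zero] at hb
      rw [zero_sub, norm_neg]
      have h3 : K.A 0 * ‖pkPos lam ζ c ρ XJ j n - XJ‖ ≤ |K.A 0| * Sx :=
        mul_le_mul (le_abs_self _) h2' (norm_nonneg _) (abs_nonneg _)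
      have hlr : 0 < lam * ρ := mul_pos hl hρ
      have h4 : ‖pkLat n‖ ≤ |K.A 0| * (lam * ρ * Sx) / Real.pi := by
        rw [le_div_iff₀ hpi]
        have h5 : Real.pi / (lam * ρ) * ‖pkLat n‖ ≤ |K.A 0| * Sx := hb.trans h3
        rw [div_mul_eq_mul_div, div_le_iff₀ hlr] at h5
        nlinarith
      linarith
  refine ⟨(hf1.prod hf2).subset hsub, ?_⟩
  have hc := Set.ncard_le_ncard hsub (hf1.prod hf2)
  rw [Set.ncard_prod] at hc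
  have hx : 0 ≤ Sv / ρ := div_nonneg hSv hρ.le
  have hy : 0 ≤ lam * ρ * Sx := by positivity
  have ha : 0 ≤ |K.A 0| / Real.pi := by positivity
  have c1 := pk_lat_ball_ncard (ρ⁻¹ • VJ) (Sv / ρ + 1) (by linarith)
  have c2 := pk_lat_ball_ncard (0 : E2) (|K.A 0| * (lam * ρ * Sx) / Real.pi + 1) (by positivity)
  have d1 : (2 * (Sv / ρ + 1) + 1) ^ 2 ≤ 9 * (1 + Sv / ρ) ^ 2 := by nlinarith
  have d2 : (2 * (|K.A 0| * (lam * ρ * Sx) / Real.pi + 1) + 1) ^ 2 ≤ (2 * |K.A 0| / Real.pi + 3) ^ 2 * (1 + lam * ρ * Sx) ^ 2 := by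
    rw [← mul_pow]
    refine pow_le_pow_left₀ (by positivity) ?_ 2
    have e : |K.A 0| * (lam * ρ * Sx) / Real.pi = |K.A 0| / Real.pi * (lam * ρ * Sx) := by ring
    have e' : 2 * |K.A 0| / Real.pi = 2 * (|K.A 0| / Real.pi) := by ring
    rw [e, e']
    nlinarith [mul_nonneg ha hy]
  calc ((pkRet lam ζ c ρ XJ VJ Sv Sx).ncard : ℝ)
      ≤ (({j : ℤ × ℤ | ‖ρ⁻¹ • VJ - pkLat j‖ < Sv / ρ + 1}.ncard *
          {n : ℤ × ℤ | ‖(0 : E2) - pkLat n‖ < |K.A 0| * (lam * ρ * Sx) / Real.pi + 1}.ncard : ℕ) : ℝ) := by exact_mod_cast hc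
    _ = (({j : ℤ × ℤ | ‖ρ⁻¹ • VJ - pkLat j‖ < Sv / ρ + 1}.ncard : ℕ) : ℝ) *
          (({n : ℤ × ℤ | ‖(0 : E2) - pkLat n‖ < |K.A 0| * (lam * ρ * Sx) / Real.pi + 1}.ncard : ℕ) : ℝ) := by push_cast; ring
    _ ≤ (9 * (1 + Sv / ρ) ^ 2) * ((2 * |K.A 0| / Real.pi + 3) ^ 2 * (1 + lam * ρ * Sx) ^ 2) :=
        mul_le_mul (c1.trans d1) (c2.trans d2) (by positivity) (by positivity)
    _ = 9 * (2 * |K.A 0| / Real.pi + 3) ^ 2 * (1 + Sv / ρ) ^ 2 * (1 + lam * ρ * Sx) ^ 2 := by ring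

/-- **AE-b**: the truncated decomposition at one localizer, scale free. -/
theorem pk_deco_local (K : OscBd) (h0 : 0 < K.a0) (R C₀ : ℝ) (M : ℕ) (hM : 2 ≤ M) (b : ℕ → ℝ) : ∃ C : ℝ, 0 ≤ C ∧
    ∀ (Φ : ℝ → E2 → E2 → ℝ) (ζ : E2 → E2 → E2), IsPhase K Φ ζ → ∀ (lam ρ ρ' c c' : ℝ) (XJ VJ V X : E2) (ψ : E2 → ℂ),
      0 < lam → 0 < ρ → ρ ≤ ρ' → ρ' ≤ 1 → 0 ≤ c → c ≤ 1 → 0 ≤ c' → c' ≤ 1 →
      lam * ρ ^ 2 * (‖X - XJ - (c' - c) • V‖ + |c' - c|) ≤ C₀ → PkAmp M R b ψ → ∀ f : E2 → ℂ, MemLp f 2 volume →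
      ∀ R₁ Sv Sx : ℝ, 0 ≤ R₁ → R * ρ' + 2 * ρ + ‖V - VJ‖ ≤ Sv →
      R₁ * (lam * ρ)⁻¹ + ‖X - XJ - (c' - c) • V‖ + |c' - c| * (R * ρ' + 2 * ρ) ≤ Sx →
      ∀ θ : ℝ, 0 ≤ θ → ∀ P : Finset PkIdx,
      (∀ q, q ∈ P ↔ (q ∈ pkRet lam ζ c ρ XJ VJ Sv Sx ∧ θ ≤ ‖pkCoef lam Φ c ρ XJ f q.1 q.2‖ ^ 2)) →
      ‖(∫ v, f v * pkt lam Φ c' ρ' V X ψ v)
          - ∑ q ∈ P, pkCoef lam Φ c ρ XJ f q.1 q.2 * ∫ v, pkAtomL lam Φ c ρ XJ q.1 q.2 v * pkt lam Φ c' ρ' V X ψ v‖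
        ≤ Real.sqrt (C * (∫ v, ‖f v‖ ^ 2) * ((1 + R₁) ^ (2 * M - 3))⁻¹)
          + C * ((pkRet lam ζ c ρ XJ VJ Sv Sx).ncard : ℝ) * Real.sqrt θ := by
  classical
  obtain ⟨C1, hC10, hC1⟩ := pk_mix_expand K h0 1 R C₀ M hM b
  obtain ⟨C2, hC20, hC2⟩ := pk_mix_gram K h0 1 R C₀ M b
  obtain ⟨C3, hC30, hC3⟩ := pk_ret_finite K h0
  refine ⟨max C1 C2, le_max_of_le_left hC10, fun Φ ζ h lam ρ ρ' c c' XJ VJ V X ψ hlam hρ hρρ' hρ'1 hc hc1 hc' hc'1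
    hC₀ hψ f hf R₁ Sv Sx hR₁ hSv hSx θ hθ P hP => ?_⟩
  have hρ' : 0 < ρ' := hρ.trans_le hρρ'
  have hlr : 0 < lam * ρ := mul_pos hlam hρ
  have hfin : (pkRet lam ζ c ρ XJ VJ Sv Sx).Finite := by
    by_cases hs : 0 ≤ Sv ∧ 0 ≤ Sx
    · exact (hC3 Φ ζ h lam ρ c XJ VJ Sv Sx hlam hρ hs.1 hs.2).1
    · have : pkRet lam ζ c ρ XJ VJ Sv Sx = ∅ := by
        ext q
        simp only [pkRet, Set.mem_ofPred_eq, mem_empty_iff_false, iff_false]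
        intro hq
        exact hs ⟨(norm_nonneg _).trans hq.1, (norm_nonneg _).trans hq.2⟩
      rw [this]
      exact finite_empty
  obtain ⟨P₀, hP₀⟩ : ∃ P₀ : Finset PkIdx, P₀ = hfin.toFinset := ⟨_, rfl⟩
  have hmem : ∀ q, q ∈ P₀ ↔ q ∈ pkRet lam ζ c ρ XJ VJ Sv Sx := fun q => by rw [hP₀, Set.Finite.mem_toFinset]
  have hcard : (pkRet lam ζ c ρ XJ VJ Sv Sx).ncard = P₀.card := by
    rw [hP₀, Set.ncard_eq_toFinset_card _ hfin]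
  have hnear : ∀ q : (ℤ × ℤ) × (ℤ × ℤ), ‖pkVc ρ q.1 - V‖ ≤ R * ρ' + 2 * ρ →
      lam * ρ * ‖X - pkPos lam ζ c ρ XJ q.1 q.2 - (c' - c) • pkVc ρ q.1‖ < R₁ → q ∈ P₀ := by
    intro q h1 h2
    rw [hmem]
    constructor
    · have := norm_sub_le_norm_sub_add_norm_sub (pkVc ρ q.1) V VJ
      linarith
    · have e : pkPos lam ζ c ρ XJ q.1 q.2 - XJ = -(X - pkPos lam ζ c ρ XJ q.1 q.2 - (c' - c) • pkVc ρ q.1)
          + (X - XJ - (c' - c) • V) - (c' - c) • (pkVc ρ q.1 - V) := by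
        rw [smul_sub]
        abel
      have a1 : ‖X - pkPos lam ζ c ρ XJ q.1 q.2 - (c' - c) • pkVc ρ q.1‖ ≤ R₁ * (lam * ρ)⁻¹ := by
        rw [← div_eq_mul_inv, le_div_iff₀ hlr]
        linarith
      have a2 : ‖(c' - c) • (pkVc ρ q.1 - V)‖ ≤ |c' - c| * (R * ρ' + 2 * ρ) := by
        rw [norm_smul, Real.norm_eq_abs]
        exact mul_le_mul_of_nonneg_left h1 (abs_nonneg _)
      rw [e]
      refine (norm_sub_le _ _).trans ?_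
      have a3 := norm_add_le (-(X - pkPos lam ζ c ρ XJ q.1 q.2 - (c' - c) • pkVc ρ q.1)) (X - XJ - (c' - c) • V)
      rw [norm_neg] at a3
      linarith
  have hsub : P ⊆ P₀ := fun q hq => (hmem q).2 ((hP q).1 hq).1
  have key1 := hC1 Φ ζ h lam ρ ρ' c c' XJ V X ψ hlam hρ hρρ' hρ'1 hc hc1 hc' hc'1 hC₀ hψ f hf R₁ hR₁ P₀ hnear
  have hn2 : 0 ≤ ∫ v, ‖f v‖ ^ 2 := integral_nonneg fun v => sq_nonneg _
  have hW : 0 ≤ ((1 + R₁) ^ (2 * M - 3))⁻¹ := by positivity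
  have key1' : ‖(∫ v, f v * pkt lam Φ c' ρ' V X ψ v)
          - ∑ q ∈ P₀, pkCoef lam Φ c ρ XJ f q.1 q.2 * ∫ v, pkAtomL lam Φ c ρ XJ q.1 q.2 v * pkt lam Φ c' ρ' V X ψ v‖
      ≤ Real.sqrt (max C1 C2 * (∫ v, ‖f v‖ ^ 2) * ((1 + R₁) ^ (2 * M - 3))⁻¹) := by
    refine Real.le_sqrt_of_sq_le (key1.trans ?_)
    exact mul_le_mul_of_nonneg_right (mul_le_mul_of_nonneg_right (le_max_left _ _) hn2) hW
  have key2 : ‖∑ q ∈ P₀ \ P, pkCoef lam Φ c ρ XJ f q.1 q.2 * ∫ v, pkAtomL lam Φ c ρ XJ q.1 q.2 v * pkt lam Φ c' ρ' V X ψ v‖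
      ≤ max C1 C2 * ((pkRet lam ζ c ρ XJ VJ Sv Sx).ncard : ℝ) * Real.sqrt θ := by
    have hterm : ∀ q ∈ P₀ \ P, ‖pkCoef lam Φ c ρ XJ f q.1 q.2 * ∫ v, pkAtomL lam Φ c ρ XJ q.1 q.2 v * pkt lam Φ c' ρ' V X ψ v‖
        ≤ Real.sqrt θ * max C1 C2 := by
      intro q hq
      rw [Finset.mem_sdiff] at hq
      have b1 : ‖pkCoef lam Φ c ρ XJ f q.1 q.2‖ ≤ Real.sqrt θ := by
        refine Real.le_sqrt_of_sq_le ?_
        by_contra hcon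
        exact hq.2 ((hP q).2 ⟨(hmem q).1 hq.1, (not_le.1 hcon).le⟩)
      have b2 := hC2 Φ ζ h lam ρ ρ' c c' XJ V X ψ q.1 q.2 hlam hρ hρρ' hρ'1 hc hc1 hc' hc'1 hC₀ hψ
      have b3 : ρ / ρ' ≤ 1 := (div_le_one hρ').2 hρρ'
      have b4 : ((1 + lam * ρ * ‖X - pkPos lam ζ c ρ XJ q.1 q.2 - (c' - c) • pkVc ρ q.1‖) ^ M)⁻¹ ≤ 1 := by
        refine inv_le_one_of_one_le₀ (one_le_pow₀ ?_)
        have : 0 ≤ lam * ρ * ‖X - pkPos lam ζ c ρ XJ q.1 q.2 - (c' - c) • pkVc ρ q.1‖ := by positivity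
        linarith
      have b5 : ‖∫ v, pkAtomL lam Φ c ρ XJ q.1 q.2 v * pkt lam Φ c' ρ' V X ψ v‖ ≤ max C1 C2 := by
        refine b2.trans ?_
        calc C2 * (ρ / ρ') * ((1 + lam * ρ * ‖X - pkPos lam ζ c ρ XJ q.1 q.2 - (c' - c) • pkVc ρ q.1‖) ^ M)⁻¹
            ≤ C2 * 1 * 1 := by
              refine mul_le_mul (mul_le_mul_of_nonneg_left b3 hC20) b4 (by positivity) (by positivity)
          _ = C2 := by ring
          _ ≤ _ := le_max_right _ _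
      rw [norm_mul]
      exact mul_le_mul b1 b5 (norm_nonneg _) (Real.sqrt_nonneg _)
    refine (norm_sum_le _ _).trans ((Finset.sum_le_sum hterm).trans ?_)
    rw [Finset.sum_const, nsmul_eq_mul, hcard]
    have c1 : ((P₀ \ P).card : ℝ) ≤ (P₀.card : ℝ) := by
      exact_mod_cast Finset.card_le_card Finset.sdiff_subset
    have c2 : 0 ≤ Real.sqrt θ * max C1 C2 := mul_nonneg (Real.sqrt_nonneg _) (le_max_of_le_left hC10)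
    calc ((P₀ \ P).card : ℝ) * (Real.sqrt θ * max C1 C2) ≤ (P₀.card : ℝ) * (Real.sqrt θ * max C1 C2) :=
          mul_le_mul_of_nonneg_right c1 c2
      _ = _ := by ring
  have hsplit : ∑ q ∈ P₀, pkCoef lam Φ c ρ XJ f q.1 q.2 * ∫ v, pkAtomL lam Φ c ρ XJ q.1 q.2 v * pkt lam Φ c' ρ' V X ψ v
      = (∑ q ∈ P₀ \ P, pkCoef lam Φ c ρ XJ f q.1 q.2 * ∫ v, pkAtomL lam Φ c ρ XJ q.1 q.2 v * pkt lam Φ c' ρ' V X ψ v)
        + ∑ q ∈ P, pkCoef lam Φ c ρ XJ f q.1 q.2 * ∫ v, pkAtomL lam Φ c ρ XJ q.1 q.2 v * pkt lam Φ c' ρ' V X ψ v :=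
    (Finset.sum_sdiff hsub).symm
  have e : (∫ v, f v * pkt lam Φ c' ρ' V X ψ v)
          - ∑ q ∈ P, pkCoef lam Φ c ρ XJ f q.1 q.2 * ∫ v, pkAtomL lam Φ c ρ XJ q.1 q.2 v * pkt lam Φ c' ρ' V X ψ v
      = ((∫ v, f v * pkt lam Φ c' ρ' V X ψ v)
          - ∑ q ∈ P₀, pkCoef lam Φ c ρ XJ f q.1 q.2 * ∫ v, pkAtomL lam Φ c ρ XJ q.1 q.2 v * pkt lam Φ c' ρ' V X ψ v)
        + ∑ q ∈ P₀ \ P, pkCoef lam Φ c ρ XJ f q.1 q.2 * ∫ v, pkAtomL lam Φ c ρ XJ q.1 q.2 v * pkt lam Φ c' ρ' V X ψ v := by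
    rw [hsplit]
    ring
  rw [e]
  exact (norm_add_le _ _).trans (add_le_add key1' key2)

/-- one coordinate of the exact cell -/
theorem pk_cell_coord {w : ℝ} (hw : 0 < w) (t : ℝ) : |t - w * ((⌊t / w⌋ : ℝ) + 1 / 2)| ≤ w / 2 := by
  have h1 : (⌊t / w⌋ : ℝ) ≤ t / w := Int.floor_le _
  have h2 : t / w < (⌊t / w⌋ : ℝ) + 1 := Int.lt_floor_add_one _
  rw [le_div_iff₀ hw] at h1
  rw [div_lt_iff₀ hw] at h2
  rw [abs_le]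
  constructor <;> nlinarith

/-- the norm of `E2` from coordinate bounds -/
theorem pk_e2_norm_le_of_coord (z : E2) (a : ℝ) (ha : 0 ≤ a) (h0 : |z 0| ≤ a / 2) (h1 : |z 1| ≤ a / 2) : ‖z‖ ≤ a := by
  have h := EuclideanSpace.norm_sq_eq z
  rw [Fin.sum_univ_two, Real.norm_eq_abs, Real.norm_eq_abs] at h
  have a0 : |z 0| ^ 2 ≤ (a / 2) ^ 2 := pow_le_pow_left₀ (abs_nonneg _) h0 2
  have a1 : |z 1| ^ 2 ≤ (a / 2) ^ 2 := pow_le_pow_left₀ (abs_nonneg _) h1 2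
  have h2 : ‖z‖ ^ 2 ≤ a ^ 2 := by nlinarith
  exact (pow_le_pow_iff_left₀ (norm_nonneg _) ha (by norm_num)).1 h2

/-- **AE-c**: geometry of the exact cells. -/
theorem pk_cell_near {w : ℝ} (hw : 0 < w) (x : E2) : ‖x - cellC w (cell w x)‖ ≤ w := by
  refine pk_e2_norm_le_of_coord _ w hw.le ?_ ?_
  · have e : (x - cellC w (cell w x)) 0 = x 0 - w * ((⌊x 0 / w⌋ : ℝ) + 1 / 2) := by
      simp [cellC, cell]
    rw [e]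
    exact pk_cell_coord hw _
  · have e : (x - cellC w (cell w x)) 1 = x 1 - w * ((⌊x 1 / w⌋ : ℝ) + 1 / 2) := by
      simp [cellC, cell]
    rw [e]
    exact pk_cell_coord hw _

theorem pk_loc0_near {ε : ℝ} (hε : 0 < ε) (r bs : ℝ) (s : Site) :
    ‖s.V - (loc0 ε r bs s).VJ ε bs‖ ≤ ε ^ bs ∧
    ‖s.X - (loc0 ε r bs s).XJ ε r bs - (s.C - (loc0 ε r bs s).Cr ε r) • s.V‖ ≤ ε ^ r * ε ^ bs ∧
    (loc0 ε r bs s).Cr ε r ≤ s.C ∧ s.C < (loc0 ε r bs s).Cr ε r + ε ^ r ∧ (0 ≤ s.C → 0 ≤ (loc0 ε r bs s).Cr ε r) := by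
  have hr : 0 < ε ^ r := Real.rpow_pos_of_pos hε r
  have hb : 0 < ε ^ bs := Real.rpow_pos_of_pos hε bs
  have h1 : (⌊s.C / ε ^ r⌋ : ℝ) ≤ s.C / ε ^ r := Int.floor_le _
  have h2 : s.C / ε ^ r < (⌊s.C / ε ^ r⌋ : ℝ) + 1 := Int.lt_floor_add_one _
  rw [le_div_iff₀ hr] at h1
  rw [div_lt_iff₀ hr] at h2
  have eC : (loc0 ε r bs s).Cr ε r = ε ^ r * (⌊s.C / ε ^ r⌋ : ℝ) := rfl
  refine ⟨pk_cell_near hb s.V, ?_, ?_, ?_, ?_⟩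
  · have e : s.X - (loc0 ε r bs s).XJ ε r bs - (s.C - (loc0 ε r bs s).Cr ε r) • s.V
        = (s.X - (s.C - tanchor ε r s.C) • s.V)
          - cellC (ε ^ r * ε ^ bs) (cell (ε ^ r * ε ^ bs) (s.X - (s.C - tanchor ε r s.C) • s.V)) := by
      show s.X - cellC (ε ^ r * ε ^ bs) (cell (ε ^ r * ε ^ bs) (s.X - (s.C - tanchor ε r s.C) • s.V))
          - (s.C - tanchor ε r s.C) • s.V = _
      abel
    rw [e]
    exact pk_cell_near (mul_pos hr hb) _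
  · rw [eC]
    linarith
  · rw [eC]
    linarith
  · intro hC
    rw [eC]
    have : (0 : ℤ) ≤ ⌊s.C / ε ^ r⌋ := Int.floor_nonneg.2 (div_nonneg hC hr.le)
    have h3 : (0 : ℝ) ≤ (⌊s.C / ε ^ r⌋ : ℝ) := by exact_mod_cast this
    exact mul_nonneg hr.le h3

/-- the cells of a ball -/
theorem pk_cell_mem_box {w : ℝ} (hw : 0 < w) (x : E2) (R : ℝ) (h : ‖x‖ ≤ R) :
    cell w x ∈ Set.Icc ⌊-R / w⌋ ⌊R / w⌋ ×ˢ Set.Icc ⌊-R / w⌋ ⌊R / w⌋ := by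
  have h0 := abs_le.1 ((pk_e2_abs_le x 0).trans h)
  have h1 := abs_le.1 ((pk_e2_abs_le x 1).trans h)
  refine ⟨⟨Int.floor_le_floor ?_, Int.floor_le_floor ?_⟩, ⟨Int.floor_le_floor ?_, Int.floor_le_floor ?_⟩⟩
  · exact div_le_div_of_nonneg_right h0.1 hw.le
  · exact div_le_div_of_nonneg_right h0.2 hw.le
  · exact div_le_div_of_nonneg_right h1.1 hw.le
  · exact div_le_div_of_nonneg_right h1.2 hw.le

theorem pk_locs_finite {ε : ℝ} (hε : 0 < ε) (r bs Rv Rx : ℝ) :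
    {j : Loc0 | ∃ s : Site, 0 ≤ s.C ∧ s.C < 1 ∧ ‖s.V‖ ≤ Rv ∧ ‖s.X‖ ≤ Rx ∧ loc0 ε r bs s = j}.Finite := by
  have hr : 0 < ε ^ r := Real.rpow_pos_of_pos hε r
  have hb : 0 < ε ^ bs := Real.rpow_pos_of_pos hε bs
  have hfin : (Set.Icc (0 : ℤ) ⌊1 / ε ^ r⌋ ×ˢ
      ((Set.Icc ⌊-Rv / ε ^ bs⌋ ⌊Rv / ε ^ bs⌋ ×ˢ Set.Icc ⌊-Rv / ε ^ bs⌋ ⌊Rv / ε ^ bs⌋) ×ˢ
        (Set.Icc ⌊-(Rx + ε ^ r * Rv) / (ε ^ r * ε ^ bs)⌋ ⌊(Rx + ε ^ r * Rv) / (ε ^ r * ε ^ bs)⌋ ×ˢ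
          Set.Icc ⌊-(Rx + ε ^ r * Rv) / (ε ^ r * ε ^ bs)⌋ ⌊(Rx + ε ^ r * Rv) / (ε ^ r * ε ^ bs)⌋))).Finite :=
    (Set.finite_Icc _ _).prod (((Set.finite_Icc _ _).prod (Set.finite_Icc _ _)).prod
      ((Set.finite_Icc _ _).prod (Set.finite_Icc _ _)))
  refine hfin.subset ?_
  rintro j ⟨s, hC0, hC1, hV, hX, rfl⟩
  obtain ⟨-, -, n3, n4, -⟩ := pk_loc0_near hε r bs s
  have eC : (loc0 ε r bs s).Cr ε r = tanchor ε r s.C := rfl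
  rw [eC] at n3 n4
  refine ⟨⟨Int.floor_nonneg.2 (div_nonneg hC0 hr.le), Int.floor_le_floor ?_⟩, pk_cell_mem_box hb _ _ hV,
    pk_cell_mem_box (mul_pos hr hb) _ _ ?_⟩
  · exact div_le_div_of_nonneg_right hC1.le hr.le
  · refine (norm_sub_le _ _).trans ?_
    rw [norm_smul, Real.norm_eq_abs, abs_of_nonneg (by linarith)]
    have hRv : 0 ≤ Rv := (norm_nonneg _).trans hV
    have : (s.C - tanchor ε r s.C) * ‖s.V‖ ≤ ε ^ r * Rv :=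
      mul_le_mul (by linarith) hV (norm_nonneg _) hr.le
    linarith

/-- the atom site `(C_r, V_w, X_{w,n}, η_{w,n})` attached to the localizer `j` -/
noncomputable def pkASite (E : PEnv) (r bs : ℝ) (j : Loc0) (q : PkIdx) : Site where
  C := j.Cr E.ε r
  V := pkVc (E.rho r) q.1
  X := pkPos E.lam E.ζ (j.Cr E.ε r) (E.rho r) (j.XJ E.ε r bs) q.1 q.2
  ψ := pkEta E.lam E.Φ (j.Cr E.ε r) (E.rho r) (j.XJ E.ε r bs) (pkPos E.lam E.ζ (j.Cr E.ε r) (E.rho r) (j.XJ E.ε r bs) q.1 q.2) q.1 q.2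

/-- **AE-d**: dictionary. -/
theorem pk_asite_atom (E : PEnv) (hε : 0 < E.ε) (r bs : ℝ) (j : Loc0) (q : PkIdx) (v : E2) :
    atom E.lam (E.rho r) E.Φ (pkASite E r bs j q) v = pkAtomL E.lam E.Φ (j.Cr E.ε r) (E.rho r) (j.XJ E.ε r bs) q.1 q.2 v := by
  have hρ : 0 < E.rho r := Real.rpow_pos_of_pos hε _
  rw [pk_atom_eq, pk_atomL_eq E.lam E.Φ (j.Cr E.ε r) hρ (j.XJ E.ε r bs)
    (pkPos E.lam E.ζ (j.Cr E.ε r) (E.rho r) (j.XJ E.ε r bs) q.1 q.2) q.1 q.2 v]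
  rfl

theorem pk_asite_coef (E : PEnv) (hε : 0 < E.ε) (r bs : ℝ) (j : Loc0) (q : PkIdx) (f : E2 → ℂ) :
    pairing E.lam (E.rho r) E.Φ f (pkASite E r bs j q).conj = pkCoef E.lam E.Φ (j.Cr E.ε r) (E.rho r) (j.XJ E.ε r bs) f q.1 q.2 := by
  have hρ : 0 < E.rho r := Real.rpow_pos_of_pos hε _
  rw [pk_pairing_eq, pk_coef_eq E.lam E.Φ (j.Cr E.ε r) hρ (j.XJ E.ε r bs)
    (pkPos E.lam E.ζ (j.Cr E.ε r) (E.rho r) (j.XJ E.ε r bs) q.1 q.2) f q.1 q.2]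
  rfl

/-- **AE-e**: the choice of the orders (9.tail-orders). -/
theorem pk_numerology (C Hmax dmin A : ℝ) (hC : 0 ≤ C) (hd : 0 < dmin) (hA : 0 < A) (M : ℕ) (hM : 2 * (A + 1) ≤ dmin / 2 * (2 * (M : ℝ) - 3))
    (hM2 : 2 ≤ M) (Bx : ℝ) (hBx : 2 * A + 4 * Hmax + 4 ≤ Bx) : ∃ ε₀ : ℝ, 0 < ε₀ ∧ ε₀ < 1 ∧ ∀ ε : ℝ, 0 < ε → ε < ε₀ → ∀ Δ : ℝ, dmin / 2 ≤ Δ → Δ ≤ Hmax / 2 →
      ∀ n2 N : ℝ, 0 ≤ n2 → N ≤ C * (1 + C * ε ^ (-Δ)) ^ 2 * (1 + C * ε ^ (-Δ)) ^ 2 →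
      Real.sqrt (C * n2 * ((1 + ε ^ (-Δ)) ^ (2 * M - 3))⁻¹) + C * N * Real.sqrt (ε ^ Bx * n2) ≤ ε ^ A * Real.sqrt n2 := by
  obtain ⟨D, hD⟩ : ∃ D : ℝ, D = Real.sqrt C + C ^ 2 * (1 + C) ^ 4 := ⟨_, rfl⟩
  have hD0 : 0 ≤ D := by rw [hD]; positivity
  refine ⟨1 / (2 * (D + 1)), by positivity, ?_, fun ε hε hε0 Δ hΔ1 hΔ2 n2 N hn2 hN => ?_⟩
  · rw [div_lt_one (by positivity)]; linarith
  have hε1 : ε < 1 := by
    refine hε0.trans ?_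
    rw [div_lt_one (by positivity)]; linarith
  have hεD : ε * D ≤ 1 := by
    have h1 : ε * (2 * (D + 1)) < 1 := by rwa [lt_div_iff₀ (by positivity)] at hε0
    nlinarith
  have hΔ0 : 0 < Δ := by linarith
  have hk : ((2 * M - 3 : ℕ) : ℝ) = 2 * (M : ℝ) - 3 := by
    rw [Nat.cast_sub (by omega)]; push_cast; ring
  -- first term
  have hpow1 : ((1 + ε ^ (-Δ)) ^ (2 * M - 3))⁻¹ ≤ (ε ^ (A + 1)) ^ 2 := by
    have h1 : (ε ^ (-Δ)) ^ (2 * M - 3) ≤ (1 + ε ^ (-Δ)) ^ (2 * M - 3) :=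
      pow_le_pow_left₀ (by positivity) (by linarith) _
    have h2 : ((1 + ε ^ (-Δ)) ^ (2 * M - 3))⁻¹ ≤ ((ε ^ (-Δ)) ^ (2 * M - 3))⁻¹ :=
      inv_anti₀ (by positivity) h1
    refine h2.trans ?_
    rw [← Real.rpow_natCast (ε ^ (-Δ)), ← Real.rpow_mul hε.le, ← Real.rpow_neg hε.le, ← Real.rpow_natCast (ε ^ (A + 1)),
      ← Real.rpow_mul hε.le, hk]
    apply Real.rpow_le_rpow_of_exponent_ge hε hε1.le
    push_cast
    have h3 : dmin / 2 * (2 * (M : ℝ) - 3) ≤ Δ * (2 * (M : ℝ) - 3) := by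
      apply mul_le_mul_of_nonneg_right hΔ1
      have : (2 : ℝ) ≤ M := by exact_mod_cast hM2
      linarith
    linarith
  have hT1 : Real.sqrt (C * n2 * ((1 + ε ^ (-Δ)) ^ (2 * M - 3))⁻¹) ≤ Real.sqrt C * ε * (ε ^ A * Real.sqrt n2) := by
    calc Real.sqrt (C * n2 * ((1 + ε ^ (-Δ)) ^ (2 * M - 3))⁻¹) ≤ Real.sqrt (C * n2 * (ε ^ (A + 1)) ^ 2) :=
          Real.sqrt_le_sqrt (mul_le_mul_of_nonneg_left hpow1 (by positivity))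
      _ = Real.sqrt C * Real.sqrt n2 * ε ^ (A + 1) := by
          rw [Real.sqrt_mul (by positivity), Real.sqrt_mul hC, Real.sqrt_sq (by positivity)]
      _ = _ := by rw [Real.rpow_add hε, Real.rpow_one]; ring
  -- second term
  have hone : 1 ≤ ε ^ (-Δ) := Real.one_le_rpow_of_pos_of_le_one_of_nonpos hε hε1.le (by linarith)
  have hN1 : 1 + C * ε ^ (-Δ) ≤ (1 + C) * ε ^ (-Δ) := by nlinarith
  have hN2 : C * (1 + C * ε ^ (-Δ)) ^ 2 * (1 + C * ε ^ (-Δ)) ^ 2 ≤ C * (1 + C) ^ 4 * ε ^ (-(2 * Hmax)) := by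
    have h1 : (1 + C * ε ^ (-Δ)) ^ 2 ≤ ((1 + C) * ε ^ (-Δ)) ^ 2 := pow_le_pow_left₀ (by positivity) hN1 2
    have h2 : (ε ^ (-Δ)) ^ 4 ≤ ε ^ (-(2 * Hmax)) := by
      rw [← Real.rpow_natCast (ε ^ (-Δ)), ← Real.rpow_mul hε.le]
      apply Real.rpow_le_rpow_of_exponent_ge hε hε1.le
      push_cast
      linarith
    calc C * (1 + C * ε ^ (-Δ)) ^ 2 * (1 + C * ε ^ (-Δ)) ^ 2
        ≤ C * ((1 + C) * ε ^ (-Δ)) ^ 2 * ((1 + C) * ε ^ (-Δ)) ^ 2 := by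
          apply mul_le_mul (mul_le_mul_of_nonneg_left h1 hC) h1 (by positivity) (by positivity)
      _ = C * (1 + C) ^ 4 * (ε ^ (-Δ)) ^ 4 := by ring
      _ ≤ _ := mul_le_mul_of_nonneg_left h2 (by positivity)
  have hsq : Real.sqrt (ε ^ Bx * n2) ≤ ε ^ (A + 2 * Hmax + 2) * Real.sqrt n2 := by
    rw [Real.sqrt_mul (by positivity)]
    apply mul_le_mul_of_nonneg_right _ (Real.sqrt_nonneg _)
    rw [Real.sqrt_eq_rpow, ← Real.rpow_mul hε.le]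
    apply Real.rpow_le_rpow_of_exponent_ge hε hε1.le
    linarith
  have hT2 : C * N * Real.sqrt (ε ^ Bx * n2) ≤ C ^ 2 * (1 + C) ^ 4 * ε * (ε ^ A * Real.sqrt n2) := by
    have hs0 : 0 ≤ Real.sqrt (ε ^ Bx * n2) := Real.sqrt_nonneg _
    calc C * N * Real.sqrt (ε ^ Bx * n2)
        ≤ C * (C * (1 + C) ^ 4 * ε ^ (-(2 * Hmax))) * Real.sqrt (ε ^ Bx * n2) :=
          mul_le_mul_of_nonneg_right (mul_le_mul_of_nonneg_left (hN.trans hN2) hC) hs0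
      _ ≤ C * (C * (1 + C) ^ 4 * ε ^ (-(2 * Hmax))) * (ε ^ (A + 2 * Hmax + 2) * Real.sqrt n2) :=
          mul_le_mul_of_nonneg_left hsq (by positivity)
      _ = C ^ 2 * (1 + C) ^ 4 * (ε ^ (-(2 * Hmax)) * ε ^ (A + 2 * Hmax + 2)) * Real.sqrt n2 := by ring
      _ = C ^ 2 * (1 + C) ^ 4 * (ε ^ A * ε ^ (2 : ℝ)) * Real.sqrt n2 := by
          rw [← Real.rpow_add hε, ← Real.rpow_add hε]
          congr 3
          ring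
      _ ≤ C ^ 2 * (1 + C) ^ 4 * (ε ^ A * ε) * Real.sqrt n2 := by
          apply mul_le_mul_of_nonneg_right _ (Real.sqrt_nonneg _)
          apply mul_le_mul_of_nonneg_left _ (by positivity)
          apply mul_le_mul_of_nonneg_left _ (by positivity)
          rw [Real.rpow_two]
          nlinarith
      _ = _ := by ring
  have hfin : 0 ≤ ε ^ A * Real.sqrt n2 := by positivity
  calc _ ≤ Real.sqrt C * ε * (ε ^ A * Real.sqrt n2) + C ^ 2 * (1 + C) ^ 4 * ε * (ε ^ A * Real.sqrt n2) := add_le_add hT1 hT2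
    _ = (ε * D) * (ε ^ A * Real.sqrt n2) := by rw [hD]; ring
    _ ≤ 1 * (ε ^ A * Real.sqrt n2) := mul_le_mul_of_nonneg_right hεD hfin
    _ = _ := one_mul _

/-- the family of atoms built from a finite set of localizers and finite index sets -/
noncomputable def pkAtoms (E : PEnv) (r bs : ℝ) (J : Finset Loc0) (P : Loc0 → Finset PkIdx) : Atoms where
  𝔸 := ↥(J.sigma P)
  fin := inferInstance
  asite := fun x => pkASite E r bs x.1.1 x.1.2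
  loc := fun x => x.1.1

/-- the superposition at one localizer. -/
theorem pk_ae_sup (E : PEnv) (hε : 0 < E.ε) (r bs : ℝ) (J : Finset Loc0) (P : Loc0 → Finset PkIdx) (j : Loc0) (hj : j ∈ J) (v : E2) :
    (pkAtoms E r bs J P).sup E r (fun T => (pkAtoms E r bs J P).loc T = j) v
      = ∑ q ∈ P j, pkCoef E.lam E.Φ (j.Cr E.ε r) (E.rho r) (j.XJ E.ε r bs) E.f q.1 q.2
          * pkAtomL E.lam E.Φ (j.Cr E.ε r) (E.rho r) (j.XJ E.ε r bs) q.1 q.2 v := by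
  classical
  have e0 : (pkAtoms E r bs J P).sup E r (fun T => (pkAtoms E r bs J P).loc T = j) v
      = ∑ T : ↥(J.sigma P), (fun x : (_ : Loc0) × PkIdx => if x.1 = j then
          pkCoef E.lam E.Φ (x.1.Cr E.ε r) (E.rho r) (x.1.XJ E.ε r bs) E.f x.2.1 x.2.2
          * pkAtomL E.lam E.Φ (x.1.Cr E.ε r) (E.rho r) (x.1.XJ E.ε r bs) x.2.1 x.2.2 v else 0) T.1 := by
    unfold Atoms.sup
    refine Finset.sum_congr rfl fun T _ => ?_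
    by_cases hT : T.1.1 = j
    · rw [if_pos (show (pkAtoms E r bs J P).loc T = j from hT)]
      refine Eq.trans ?_ (if_pos hT).symm
      have a1 : (pkAtoms E r bs J P).coef E r T = pkCoef E.lam E.Φ (T.1.1.Cr E.ε r) (E.rho r) (T.1.1.XJ E.ε r bs) E.f T.1.2.1 T.1.2.2 :=
        pk_asite_coef E hε r bs T.1.1 T.1.2 E.f
      have a2 : atom E.lam (E.rho r) E.Φ ((pkAtoms E r bs J P).asite T) v
          = pkAtomL E.lam E.Φ (T.1.1.Cr E.ε r) (E.rho r) (T.1.1.XJ E.ε r bs) T.1.2.1 T.1.2.2 v :=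
        pk_asite_atom E hε r bs T.1.1 T.1.2 v
      rw [a1, a2]
    · rw [if_neg (show ¬ (pkAtoms E r bs J P).loc T = j from hT)]
      exact (if_neg hT).symm
  rw [e0]
  have e1 := Finset.sum_coe_sort (J.sigma P) (fun x : (_ : Loc0) × PkIdx => if x.1 = j then
          pkCoef E.lam E.Φ (x.1.Cr E.ε r) (E.rho r) (x.1.XJ E.ε r bs) E.f x.2.1 x.2.2
          * pkAtomL E.lam E.Φ (x.1.Cr E.ε r) (E.rho r) (x.1.XJ E.ε r bs) x.2.1 x.2.2 v else 0)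
  refine e1.trans ?_
  rw [Finset.sum_sigma, Finset.sum_eq_single_of_mem j hj
    (fun j' _ hne => Finset.sum_eq_zero fun q _ => if_neg hne)]
  exact Finset.sum_congr rfl fun q _ => if_pos rfl

/-- the pairing of the superposition at one localizer with a test. -/
theorem pk_ae_sup_pairing (E : PEnv) (hε : 0 < E.ε) (r bs : ℝ) (J : Finset Loc0) (P : Loc0 → Finset PkIdx) (j : Loc0) (hj : j ∈ J) (ρ' : ℝ) (s : Site)
    (hint : ∀ q ∈ P j, Integrable fun v => pkAtomL E.lam E.Φ (j.Cr E.ε r) (E.rho r) (j.XJ E.ε r bs) q.1 q.2 v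
      * pkt E.lam E.Φ s.C ρ' s.V s.X s.ψ v) :
    pairing E.lam ρ' E.Φ ((pkAtoms E r bs J P).sup E r (fun T => (pkAtoms E r bs J P).loc T = j)) s
      = ∑ q ∈ P j, pkCoef E.lam E.Φ (j.Cr E.ε r) (E.rho r) (j.XJ E.ε r bs) E.f q.1 q.2
          * ∫ v, pkAtomL E.lam E.Φ (j.Cr E.ε r) (E.rho r) (j.XJ E.ε r bs) q.1 q.2 v * pkt E.lam E.Φ s.C ρ' s.V s.X s.ψ v := by
  rw [pk_pairing_eq]
  have e1 : ∀ v, (pkAtoms E r bs J P).sup E r (fun T => (pkAtoms E r bs J P).loc T = j) v * pkt E.lam E.Φ s.C ρ' s.V s.X s.ψ v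
      = ∑ q ∈ P j, pkCoef E.lam E.Φ (j.Cr E.ε r) (E.rho r) (j.XJ E.ε r bs) E.f q.1 q.2
          * (pkAtomL E.lam E.Φ (j.Cr E.ε r) (E.rho r) (j.XJ E.ε r bs) q.1 q.2 v * pkt E.lam E.Φ s.C ρ' s.V s.X s.ψ v) := by
    intro v
    rw [pk_ae_sup E hε r bs J P j hj v, Finset.sum_mul]
    exact Finset.sum_congr rfl fun q _ => mul_assoc _ _ _
  simp only [e1]
  rw [integral_finsetSum _ fun q hq => (hint q hq).const_mul _]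
  exact Finset.sum_congr rfl fun q _ => integral_const_mul _ _

/-- multiplicity of the atoms inside one localizer. -/
theorem pk_ae_mult {m₀ : ℕ} (E : PEnv) (r bs : ℝ) (J : Finset Loc0) (P : Loc0 → Finset PkIdx) {σ : ℝ}
    (hm : ∀ (c : ℝ) (XJ : E2) (Q : Finset PkIdx), PkMult2 Q (fun q => pkVc (E.rho r) q.1) (fun q => pkPos E.lam E.ζ c (E.rho r) XJ q.1 q.2) (E.rho r) σ m₀)
    (T : (pkAtoms E r bs J P).𝔸) :
    (Finset.univ.filter (fun T' => (pkAtoms E r bs J P).loc T' = (pkAtoms E r bs J P).loc T ∧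
      ‖((pkAtoms E r bs J P).asite T').V - ((pkAtoms E r bs J P).asite T).V‖ < E.rho r ∧
      ‖((pkAtoms E r bs J P).asite T').X - ((pkAtoms E r bs J P).asite T).X‖ < σ)).card ≤ m₀ := by
  classical
  have hinj : Set.InjOn (fun T' : (pkAtoms E r bs J P).𝔸 => T'.1.2) ((Finset.univ.filter (fun T' => (pkAtoms E r bs J P).loc T' = (pkAtoms E r bs J P).loc T ∧
      ‖((pkAtoms E r bs J P).asite T').V - ((pkAtoms E r bs J P).asite T).V‖ < E.rho r ∧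
      ‖((pkAtoms E r bs J P).asite T').X - ((pkAtoms E r bs J P).asite T).X‖ < σ) : Finset _) : Set (pkAtoms E r bs J P).𝔸) := by
    intro a ha b hb hab
    rw [Finset.mem_coe, Finset.mem_filter] at ha hb
    have h1 : a.1.1 = b.1.1 := ha.2.1.trans hb.2.1.symm
    exact Subtype.ext (Sigma.ext h1 (heq_of_eq hab))
  rw [← Finset.card_image_of_injOn hinj]
  refine hm (T.1.1.Cr E.ε r) (T.1.1.XJ E.ε r bs) _ (pkVc (E.rho r) T.1.2.1)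
    (pkPos E.lam E.ζ (T.1.1.Cr E.ε r) (E.rho r) (T.1.1.XJ E.ε r bs) T.1.2.1 T.1.2.2) _ subset_rfl fun q hq => ?_
  obtain ⟨T', hT', rfl⟩ := Finset.mem_image.1 hq
  rw [Finset.mem_filter] at hT'
  obtain ⟨-, h1, h2, h3⟩ := hT'
  have h1' : T'.1.1 = T.1.1 := h1
  refine ⟨h2.le, ?_⟩
  have h3' : ‖pkPos E.lam E.ζ (T'.1.1.Cr E.ε r) (E.rho r) (T'.1.1.XJ E.ε r bs) T'.1.2.1 T'.1.2.2
      - pkPos E.lam E.ζ (T.1.1.Cr E.ε r) (E.rho r) (T.1.1.XJ E.ε r bs) T.1.2.1 T.1.2.2‖ < σ := h3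
  rw [h1'] at h3'
  exact h3'.le

/-- the scale relations of a cut. -/
theorem pk_ae_scales (E : PEnv) (hε : 0 < E.ε) (hε1 : E.ε < 1) {Hmax dmin t r bs : ℝ} (hH : E.H ≤ Hmax) (hr : 0 ≤ r) (hrt : r + dmin ≤ t)
    (hd : 0 < dmin) (hbs : 0 ≤ bs) (hbt : bs ≤ E.u t) :
    0 < E.lam ∧ 0 < E.rho r ∧ E.rho r ≤ E.rho t ∧ E.rho t ≤ E.ε ^ bs ∧ E.ε ^ bs ≤ 1 ∧
    (E.lam * E.rho r)⁻¹ = E.sig r ∧
    E.ε ^ (-(E.u r - bs)) * (E.lam * E.rho r)⁻¹ = E.ε ^ r * E.ε ^ bs ∧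
    E.ε ^ bs / E.rho r = E.ε ^ (-(E.u r - bs)) ∧
    E.lam * E.rho r * (E.ε ^ r * E.ε ^ bs) = E.ε ^ (-(E.u r - bs)) ∧
    dmin / 2 ≤ E.u r - bs ∧ E.u r - bs ≤ Hmax / 2 := by
  have hlam : 0 < E.lam := Real.rpow_pos_of_pos hε _
  have hρ : 0 < E.rho r := Real.rpow_pos_of_pos hε _
  obtain ⟨s1, s2, s3⟩ := pk_env_scales E hε r
  have hsig : (E.lam * E.rho r)⁻¹ = E.sig r := by
    rw [inv_eq_iff_eq_inv]
    exact eq_inv_of_mul_eq_one_left s1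
  have hut : E.u t ≤ E.u r := by
    unfold PEnv.u
    linarith
  refine ⟨hlam, hρ, ?_, ?_, ?_, hsig, ?_, ?_, ?_, ?_, ?_⟩
  · exact Real.rpow_le_rpow_of_exponent_ge hε hε1.le hut
  · exact Real.rpow_le_rpow_of_exponent_ge hε hε1.le hbt
  · exact Real.rpow_le_one hε.le hε1.le hbs
  · rw [hsig]
    show E.ε ^ (-(E.u r - bs)) * E.ε ^ (E.u r + r) = _
    rw [← Real.rpow_add hε, ← Real.rpow_add hε]
    congr 1
    ring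
  · show E.ε ^ bs / E.ε ^ (E.u r) = _
    rw [← Real.rpow_sub hε]
    congr 1
    ring
  · show E.ε ^ (-E.H) * E.ε ^ (E.u r) * (E.ε ^ r * E.ε ^ bs) = _
    rw [← Real.rpow_add hε, ← Real.rpow_add hε, ← Real.rpow_add hε]
    congr 1
    unfold PEnv.u
    ring
  · unfold PEnv.u at hbt ⊢
    linarith
  · unfold PEnv.u
    linarith


/-- **AE-f = L9.3, final form** (same statement as `Pkt.atoms_exist`; the bounds `Ra ≤ 100`, `0 ≤ Ca` are exposed). -/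
theorem pk_atoms_exist (B : PBd) (hB : B.Good) (dmin : ℝ) (hd : 0 < dmin) :
    ∃ (Ra : ℝ) (Bb : ℕ → ℝ) (Mu : ℕ) (Ca : ℝ), Ra ≤ 100 ∧ 0 ≤ Ca ∧ ∀ A : ℝ, 0 < A → ∃ (Bx ε₀ : ℝ), 0 < ε₀ ∧
      ∀ E : PEnv, E.Obeys B → E.ε < ε₀ → 0 < E.nrm2 → ∀ t r bs : ℝ, 0 ≤ r → r + dmin ≤ t → 0 ≤ bs → bs ≤ E.u t →
        ∃ At : Atoms, At.Good E B t r bs ⟨Ra, Bb, Mu, Ca, A, Bx⟩ := by
  classical
  obtain ⟨Ca, hCa⟩ : ∃ Ca : ℝ, Ca = |B.Ra| + 4 := ⟨_, rfl⟩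
  have hCa0 : 0 ≤ Ca := by rw [hCa]; positivity
  obtain ⟨Bb, hBb0, hBb⟩ := pk_eta_amp B.K hB.a0 1 Ca 0
  obtain ⟨m₀, hm₀⟩ := pk_pos_mult B.K hB.a0
  obtain ⟨C3, hC30, hC3⟩ := pk_ret_finite B.K hB.a0
  refine ⟨2, Bb, m₀, Ca, by norm_num, hCa0, fun A hA => ?_⟩
  obtain ⟨M, hM2, hM⟩ : ∃ M : ℕ, 2 ≤ M ∧ 2 * (A + 1) ≤ dmin / 2 * (2 * (M : ℝ) - 3) := by
    obtain ⟨n, hn⟩ := exists_nat_ge (2 * (A + 1) / (dmin / 2) + 3)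
    refine ⟨n + 2, by omega, ?_⟩
    have h1 : 2 * (A + 1) / (dmin / 2) ≤ 2 * ((n + 2 : ℕ) : ℝ) - 3 := by
      push_cast
      have : (0 : ℝ) ≤ n := Nat.cast_nonneg n
      linarith
    rw [div_le_iff₀ (by positivity)] at h1
    linarith
  obtain ⟨Cd, hCd0, hCd⟩ := pk_deco_local B.K hB.a0 B.Ra 2 M hM2 B.K.Bb
  obtain ⟨Cn, hCn⟩ : ∃ Cn : ℝ, Cn = max Cd (max C3 Ca) := ⟨_, rfl⟩
  have hCnd : Cd ≤ Cn := by rw [hCn]; exact le_max_left _ _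
  have hCn3 : C3 ≤ Cn := by rw [hCn]; exact (le_max_left _ _).trans (le_max_right _ _)
  have hCna : Ca ≤ Cn := by rw [hCn]; exact (le_max_right _ _).trans (le_max_right _ _)
  have hCn0 : 0 ≤ Cn := hCd0.trans hCnd
  obtain ⟨ε₀, hε₀, hε₀1, hnum⟩ := pk_numerology Cn B.Hmax dmin A hCn0 hd hA M hM hM2 (2 * A + 4 * B.Hmax + 4) le_rfl
  refine ⟨2 * A + 4 * B.Hmax + 4, ε₀, hε₀, fun E hE hEε hn2 t r bs hr hrt hbs hbt => ?_⟩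
  obtain ⟨hlam, hρ, hρρ', hρ'b, hb1, hsig, hz1, hz2, hz3, hΔ1, hΔ2⟩ :=
    pk_ae_scales E hE.ε0 hE.ε1 hE.H1 hr hrt hd hbs hbt
  obtain ⟨-, sc2, -⟩ := pk_env_scales E hE.ε0 r
  have heb : 0 < E.ε ^ bs := Real.rpow_pos_of_pos hE.ε0 _
  have her : 0 < E.ε ^ r := Real.rpow_pos_of_pos hE.ε0 _
  have hρ'1 : E.rho t ≤ 1 := hρ'b.trans hb1
  have hρ1 : E.rho r ≤ 1 := hρρ'.trans hρ'1
  have hSv0 : 0 ≤ Ca * E.ε ^ bs := by positivity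
  have hSx0 : 0 ≤ Ca * (E.ε ^ r * E.ε ^ bs) := by positivity
  obtain ⟨θ, hθ⟩ : ∃ θ : ℝ, θ = E.ε ^ (2 * A + 4 * B.Hmax + 4) * E.nrm2 := ⟨_, rfl⟩
  have hθ0 : 0 ≤ θ := by rw [hθ]; exact mul_nonneg (Real.rpow_nonneg hE.ε0.le _) hn2.le
  have hret := fun j : Loc0 => hC3 E.Φ E.ζ hE.phase E.lam (E.rho r) (j.Cr E.ε r) (j.XJ E.ε r bs) (j.VJ E.ε bs)
    (Ca * E.ε ^ bs) (Ca * (E.ε ^ r * E.ε ^ bs)) hlam hρ hSv0 hSx0
  obtain ⟨P, hP⟩ : ∃ P : Loc0 → Finset PkIdx, ∀ j q, q ∈ P j ↔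
      (q ∈ pkRet E.lam E.ζ (j.Cr E.ε r) (E.rho r) (j.XJ E.ε r bs) (j.VJ E.ε bs) (Ca * E.ε ^ bs) (Ca * (E.ε ^ r * E.ε ^ bs)) ∧
        θ ≤ ‖pkCoef E.lam E.Φ (j.Cr E.ε r) (E.rho r) (j.XJ E.ε r bs) E.f q.1 q.2‖ ^ 2) :=
    ⟨fun j => (hret j).1.toFinset.filter fun q => θ ≤ ‖pkCoef E.lam E.Φ (j.Cr E.ε r) (E.rho r) (j.XJ E.ε r bs) E.f q.1 q.2‖ ^ 2,
      fun j q => by rw [Finset.mem_filter, Set.Finite.mem_toFinset]⟩
  obtain ⟨J, hJ⟩ : ∃ J : Finset Loc0, ∀ j, j ∈ J ↔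
      ∃ s : Site, 0 ≤ s.C ∧ s.C < 1 ∧ ‖s.V‖ ≤ B.K.Rv ∧ ‖s.X‖ ≤ B.K.Rx ∧ loc0 E.ε r bs s = j :=
    ⟨(pk_locs_finite hE.ε0 r bs B.K.Rv B.K.Rx).toFinset, fun j => by rw [Set.Finite.mem_toFinset]; rfl⟩
  have hJc : ∀ j ∈ J, 0 ≤ j.Cr E.ε r ∧ j.Cr E.ε r ≤ 1 := by
    intro j hj
    obtain ⟨s, h0, h1, -, -, rfl⟩ := (hJ j).1 hj
    obtain ⟨-, -, n3, -, n5⟩ := pk_loc0_near hE.ε0 r bs s
    exact ⟨n5 h0, n3.trans h1.le⟩
  have hT : ∀ T : (pkAtoms E r bs J P).𝔸, T.1.1 ∈ J ∧ T.1.2 ∈ P T.1.1 := fun T => Finset.mem_sigma.1 T.2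
  have hamp : ∀ j ∈ J, ∀ q ∈ P j, ∀ M' : ℕ, PkAmp M' 2 Bb (pkASite E r bs j q).ψ := by
    intro j hj q hq M'
    have hq2 := ((hP j q).1 hq).1.2
    refine hBb E.Φ E.ζ hE.phase E.lam (E.rho r) (j.Cr E.ε r) (j.XJ E.ε r bs) _ q.1 q.2 hlam hρ hρ1 (hJc j hj).1 (hJc j hj).2 ?_ ?_ M'
    · calc E.lam * E.rho r ^ 2 * ‖pkPos E.lam E.ζ (j.Cr E.ε r) (E.rho r) (j.XJ E.ε r bs) q.1 q.2 - j.XJ E.ε r bs‖
          ≤ E.lam * E.rho r ^ 2 * (Ca * (E.ε ^ r * E.ε ^ bs)) := mul_le_mul_of_nonneg_left hq2 (by positivity)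
        _ = (E.lam * E.rho r ^ 2 * E.ε ^ r) * (Ca * E.ε ^ bs) := by ring
        _ = Ca * E.ε ^ bs := by rw [sc2, one_mul]
        _ ≤ Ca * 1 := mul_le_mul_of_nonneg_left hb1 hCa0
        _ = Ca := mul_one _
    · rw [sub_self, norm_zero, mul_zero]
  refine ⟨pkAtoms E r bs J P, ?_⟩
  refine ⟨fun T => rfl, fun T => (pk_ampC_iff _ _ _).2 (hamp _ (hT T).1 _ (hT T).2),
    fun T => ((hP _ _).1 (hT T).2).1.1, fun T => ((hP _ _).1 (hT T).2).1.2, fun T => ?_, fun T => ?_, ?_⟩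
  · refine pk_ae_mult E r bs J P (fun c XJ Q => ?_) T
    rw [← hsig]
    exact hm₀ E.Φ E.ζ hE.phase E.lam (E.rho r) c XJ hlam hρ Q
  · have e : (pkAtoms E r bs J P).coef E r T = pkCoef E.lam E.Φ (T.1.1.Cr E.ε r) (E.rho r) (T.1.1.XJ E.ε r bs) E.f T.1.2.1 T.1.2.2 :=
      pk_asite_coef E hE.ε0 r bs T.1.1 T.1.2 E.f
    rw [e]
    show E.ε ^ (2 * A + 4 * B.Hmax + 4) * E.nrm2 ≤ _
    rw [← hθ]
    exact ((hP _ _).1 (hT T).2).2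
  · intro s hsψ hs0 hs1 hsV hsX
    obtain ⟨n1, n2, n3, n4, n5⟩ := pk_loc0_near hE.ε0 r bs s
    have hjJ : loc0 E.ε r bs s ∈ J := (hJ _).2 ⟨s, hs0, hs1, hsV, hsX, rfl⟩
    obtain ⟨j, hj⟩ : ∃ j : Loc0, j = loc0 E.ε r bs s := ⟨_, rfl⟩
    rw [← hj] at n1 n2 n3 n4 n5 hjJ ⊢
    have hsM : ∀ M', PkAmp M' B.Ra B.K.Bb s.ψ := (pk_ampC_iff _ _ _).1 hsψ
    have hρ' : 0 < E.rho t := hρ.trans_le hρρ'
    have hint : ∀ q ∈ P j, Integrable fun v => pkAtomL E.lam E.Φ (j.Cr E.ε r) (E.rho r) (j.XJ E.ε r bs) q.1 q.2 v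
        * pkt E.lam E.Φ s.C (E.rho t) s.V s.X s.ψ v := by
      intro q hq
      have a1 : MemLp (fun v => pkAtomL E.lam E.Φ (j.Cr E.ε r) (E.rho r) (j.XJ E.ε r bs) q.1 q.2 v) 2 volume := by
        have a2 := pk_memLp_conj volume (pk_pkt_memLp hE.phase (pk_amp_conj (hamp j hjJ q hq 0)) E.lam hρ (hJc j hjJ).1
          (pkASite E r bs j q).V (pkASite E r bs j q).X)
        have e : (fun v => pkAtomL E.lam E.Φ (j.Cr E.ε r) (E.rho r) (j.XJ E.ε r bs) q.1 q.2 v)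
            = fun v => conj (pkt E.lam E.Φ (j.Cr E.ε r) (E.rho r) (pkASite E r bs j q).V (pkASite E r bs j q).X
              (fun z => conj ((pkASite E r bs j q).ψ z)) v) := by
          funext v
          rw [← pk_asite_atom E hE.ε0 r bs j q v, pk_atom_eq]
          rfl
        rw [e]
        exact a2
      exact a1.integrable_mul (pk_pkt_memLp hE.phase (hsM 0) E.lam hρ' hs0 s.V s.X)
    rw [pk_ae_sup_pairing E hE.ε0 r bs J P j hjJ (E.rho t) s hint, pk_pairing_eq]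
    have hcc : |s.C - j.Cr E.ε r| ≤ E.ε ^ r := by
      rw [abs_of_nonneg (by linarith)]
      linarith
    have hRρ : B.Ra * E.rho t + 2 * E.rho r ≤ (|B.Ra| + 2) * E.ε ^ bs := by
      have a1 : B.Ra * E.rho t ≤ |B.Ra| * E.ε ^ bs :=
        (mul_le_mul_of_nonneg_right (le_abs_self _) hρ'.le).trans (mul_le_mul_of_nonneg_left hρ'b (abs_nonneg _))
      have a2 : E.rho r ≤ E.ε ^ bs := hρρ'.trans hρ'b
      linarith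
    have hloc : E.lam * E.rho r ^ 2 * (‖s.X - j.XJ E.ε r bs - (s.C - j.Cr E.ε r) • s.V‖ + |s.C - j.Cr E.ε r|) ≤ 2 := by
      have a1 : E.ε ^ r * E.ε ^ bs ≤ E.ε ^ r := mul_le_of_le_one_right her.le hb1
      calc E.lam * E.rho r ^ 2 * (‖s.X - j.XJ E.ε r bs - (s.C - j.Cr E.ε r) • s.V‖ + |s.C - j.Cr E.ε r|)
          ≤ E.lam * E.rho r ^ 2 * (2 * E.ε ^ r) := mul_le_mul_of_nonneg_left (by linarith) (by positivity)
        _ = 2 * (E.lam * E.rho r ^ 2 * E.ε ^ r) := by ring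
        _ = 2 := by rw [sc2, mul_one]
    have hSv : B.Ra * E.rho t + 2 * E.rho r + ‖s.V - j.VJ E.ε bs‖ ≤ Ca * E.ε ^ bs := by
      rw [hCa]
      linarith
    have hSx : E.ε ^ (-(E.u r - bs)) * (E.lam * E.rho r)⁻¹ + ‖s.X - j.XJ E.ε r bs - (s.C - j.Cr E.ε r) • s.V‖
        + |s.C - j.Cr E.ε r| * (B.Ra * E.rho t + 2 * E.rho r) ≤ Ca * (E.ε ^ r * E.ε ^ bs) := by
      rw [hz1, hCa]
      have a1 : |s.C - j.Cr E.ε r| * (B.Ra * E.rho t + 2 * E.rho r) ≤ E.ε ^ r * ((|B.Ra| + 2) * E.ε ^ bs) :=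
        (mul_le_mul_of_nonneg_left hRρ (abs_nonneg _)).trans (mul_le_mul_of_nonneg_right hcc (by positivity))
      have a2 : E.ε ^ r * ((|B.Ra| + 2) * E.ε ^ bs) = (|B.Ra| + 2) * (E.ε ^ r * E.ε ^ bs) := by ring
      linarith
    have key := hCd E.Φ E.ζ hE.phase E.lam (E.rho r) (E.rho t) (j.Cr E.ε r) s.C (j.XJ E.ε r bs) (j.VJ E.ε bs) s.V s.X s.ψ
      hlam hρ hρρ' hρ'1 (hJc j hjJ).1 (hJc j hjJ).2 hs0 hs1.le hloc (hsM M) E.f hE.mem (E.ε ^ (-(E.u r - bs)))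
      (Ca * E.ε ^ bs) (Ca * (E.ε ^ r * E.ε ^ bs)) (Real.rpow_nonneg hE.ε0.le _) hSv hSx θ hθ0 (P j) (hP j)
    refine key.trans ?_
    obtain ⟨N, hN⟩ : ∃ N : ℝ, N = ((pkRet E.lam E.ζ (j.Cr E.ε r) (E.rho r) (j.XJ E.ε r bs) (j.VJ E.ε bs) (Ca * E.ε ^ bs)
      (Ca * (E.ε ^ r * E.ε ^ bs))).ncard : ℝ) := ⟨_, rfl⟩
    have hN0 : 0 ≤ N := by rw [hN]; positivity
    have hNle := (hret j).2
    rw [← hN, mul_div_assoc, hz2, show E.lam * E.rho r * (Ca * (E.ε ^ r * E.ε ^ bs)) = Ca * (E.lam * E.rho r * (E.ε ^ r * E.ε ^ bs)) by ring,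
      hz3] at hNle
    obtain ⟨y, hy⟩ : ∃ y : ℝ, y = E.ε ^ (-(E.u r - bs)) := ⟨_, rfl⟩
    have hy0 : 0 ≤ y := by rw [hy]; exact Real.rpow_nonneg hE.ε0.le _
    rw [← hN, ← hy]
    rw [← hy] at hNle
    have hNle' : N ≤ Cn * (1 + Cn * y) ^ 2 * (1 + Cn * y) ^ 2 := by
      refine hNle.trans ?_
      have a1 : 1 + Ca * y ≤ 1 + Cn * y := by
        have := mul_le_mul_of_nonneg_right hCna hy0
        linarith
      have a2 : (1 + Ca * y) ^ 2 ≤ (1 + Cn * y) ^ 2 := pow_le_pow_left₀ (by positivity) a1 2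
      exact mul_le_mul (mul_le_mul hCn3 a2 (by positivity) hCn0) a2 (by positivity) (by positivity)
    have fin := hnum E.ε hE.ε0 hEε (E.u r - bs) hΔ1 hΔ2 E.nrm2 N hn2.le (by rw [← hy]; exact hNle')
    rw [← hy, ← hθ] at fin
    refine le_trans (add_le_add (Real.sqrt_le_sqrt ?_) ?_) fin
    · exact mul_le_mul_of_nonneg_right (mul_le_mul_of_nonneg_right hCnd hn2.le) (by positivity)
    · exact mul_le_mul_of_nonneg_right (mul_le_mul_of_nonneg_right hCnd hN0) (Real.sqrt_nonneg _)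

end Claimed.Agent.R255
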