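import Claimed.Agent.R255.Pkt.Cut
import Claimed.Agent.R255.Pk.Export
import Claimed.Agent.R255.Pk9.Score

/-!
# R255 / Pk / Loc : (1) THE ROOT FUNCTIONAL `K0` IS FINITE;  (2) SUPERPOSITIONS OF GOOD ATOM FAMILIES, LOCAL ENVIRONMENTS OBEY THE BOUNDS (T-LOCOBEYS)      (architect helper91)

(1) `pk_K0set_le`: every competitor of `K0set γ M E` is `≤ (3/2) log(C ‖f‖²)/ℓ + H/2`.
  PLAN.  Norm option: `C ≥ 1`, `H ≥ 0` (`Real.log` monotone; `nrm2 = 0`: both logs vanish).   Root test `T`: active sites `s = univ.filter T.act`; `PkLoc s T.site ρ₀ ρ₀ 1` from `IsRoot.sep` (`pk_local_of_sep`), `sig 0 = rho 0 = (lam ρ₀)⁻¹` (`pk_env_scales`), `ρ₀ ≤ 1` (`H ≥ 0`);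
  `pk_site_bessel` (`R = 100`, `b = 1`, `c = 0`, `CanC M → PkAmp 3 100 1`, `M ≥ 3`): `∑_{i ∈ s} m_i ≤ C ‖f‖²`.   `p9_logsum` and `p9_logsum_cond` (with `S D = s`): `H(O) + E log m ≤ log(C‖f‖²)`, `H(O|D) + E log m ≤ log (C‖f‖²)`.
  `wt γ g ≤ 2 g.a ≤ 2 u₀ = H` (`-1 ≤ γ`, `0 ≤ b ≤ a ≤ u₀` from `IsRoot.geo`).   Divide by `ℓ = lg ε > 0`.
(2) `At.sup E r S = ∑_{T ∈ S} c_T atom_T`: continuous with compact support (`pk_pkt_continuous`, dictionary `pk_atom_eq`), supported within `(Ra + Ca) ε^bs` of `VJ` if all atoms of `S` belong to one localizer (`ρ_r ≤ ε^bs` as `bs ≤ u_r`);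
  norm: `pk_site_synth` with `PkLoc` from `Atoms.Good.mult`.   `pk_envJ_obeys` = `pk_resc_env_obeys`.
-/

set_option autoImplicit false

namespace Claimed.Agent.R255

open MeasureTheory Metric Set Osc Pkt
open scoped ContDiff InnerProductSpace ComplexConjugate
open Classical

/-- **upper bound of all competitors of `K0`**. -/
theorem pk_K0set_le (K : OscBd) (h0 : 0 < K.a0) : ∃ C : ℝ, 1 ≤ C ∧ ∀ (γ : ℝ) (M : ℕ) (E : PEnv), -1 ≤ γ → 3 ≤ M → 0 < E.ε → E.ε < 1 → 0 ≤ E.H →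
    IsPhase K E.Φ E.ζ → MemLp E.f 2 volume → ∀ x ∈ K0set γ M E, x ≤ 3 / 2 * (Real.log (C * E.nrm2) / lg E.ε) + E.H / 2 := by
  obtain ⟨C₀, hC₀0, hC₀⟩ := pk_site_bessel K h0 100 (fun _ => 1)
  refine ⟨max 1 C₀, le_max_left _ _, ?_⟩
  intro γ M E hγ hM hε hε1 hH hE hf x hx
  have hC1 : 1 ≤ max 1 C₀ := le_max_left _ _
  have hl : 0 < lg E.ε := by
    unfold lg
    apply Real.log_pos
    rw [one_div]
    exact (one_lt_inv₀ hε).2 hε1
  have hn0 : 0 ≤ E.nrm2 := integral_nonneg fun v => sq_nonneg _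
  rcases hx with h | ⟨T, hT, h⟩
  · rw [h]
    have h1 : Real.log E.nrm2 ≤ Real.log (max 1 C₀ * E.nrm2) := by
      rcases hn0.eq_or_lt with h0 | h0
      · rw [← h0, mul_zero]
      · exact Real.log_le_log h0 (by nlinarith)
    have h2 : Real.log E.nrm2 / lg E.ε ≤ Real.log (max 1 C₀ * E.nrm2) / lg E.ε :=
      div_le_div_of_nonneg_right h1 hl.le
    linarith
  · rw [h]
    have hlam : 0 < E.lam := Real.rpow_pos_of_pos hε _
    have hρ : 0 < E.rho 0 := Real.rpow_pos_of_pos hε _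
    have hρ1 : E.rho 0 ≤ 1 := Real.rpow_le_one hε.le hε1.le (by unfold PEnv.u; linarith)
    have hσ : (E.lam * E.rho 0)⁻¹ = E.rho 0 := by
      obtain ⟨a1, _, a3⟩ := pk_env_scales (E := E) hε 0
      rw [Real.rpow_zero, one_mul] at a3
      rw [a3] at a1
      exact inv_eq_of_mul_eq_one_right a1
    have hbes := hC₀ E.Φ E.ζ hE E.lam (E.rho 0) 0 hlam hρ hρ1 le_rfl zero_le_one T.ι (Finset.univ.filter T.act) T.site 1
      (fun i hi => hT.time i (Finset.mem_filter.1 hi).2)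
      (fun i hi => ((pk_canC_iff M _).1 (hT.amp i (Finset.mem_filter.1 hi).2)).mono hM le_rfl (fun _ _ => le_rfl))
      (by
        rw [hσ]
        exact pk_local_of_sep _ (fun i => (T.site i).V) (fun i => (T.site i).X) (E.rho 0)
          (fun i hi j hj hij => hT.sep i j (Finset.mem_filter.1 hi).2 (Finset.mem_filter.1 hj).2 hij))
      E.f hf
    have hsum : ∑ i ∈ Finset.univ.filter T.act, E.m 0 (T.site i) ≤ max 1 C₀ * E.nrm2 := by
      refine hbes.trans ?_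
      rw [Nat.cast_one, mul_one]
      exact mul_le_mul_of_nonneg_right (le_max_right _ _) hn0
    have hp : ∀ o', T.P.p o' ≠ 0 → 0 < T.P.p o' := fun o' ho => lt_of_le_of_ne (T.P.nonneg o') (Ne.symm ho)
    have hS : ∀ o', T.P.p o' ≠ 0 → T.O o' ∈ Finset.univ.filter T.act := fun o' ho =>
      Finset.mem_filter.2 ⟨Finset.mem_univ _, o', hp o' ho, rfl⟩
    have hpos : ∀ o', T.P.p o' ≠ 0 → 0 < E.m 0 (T.site (T.O o')) := fun o' ho => hT.mpos o' (hp o' ho)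
    have hm0 : ∀ i, 0 ≤ E.m 0 (T.site i) := fun i => sq_nonneg _
    have L1 := p9_logsum T.P T.O (fun i => E.m 0 (T.site i)) (Finset.univ.filter T.act) hS (fun i _ => hm0 i) hpos
    have L2 := p9_logsum_cond T.P T.O T.D (fun i => E.m 0 (T.site i)) (fun _ => Finset.univ.filter T.act) hS hm0 hpos
    rw [ent_ev_const] at L2
    have hsumpos : 0 < ∑ i ∈ Finset.univ.filter T.act, E.m 0 (T.site i) := by
      obtain ⟨o₀, ho₀⟩ := ent_exists_supp T.P
      exact lt_of_lt_of_le (hpos o₀ ho₀)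
        (Finset.single_le_sum (f := fun i => E.m 0 (T.site i)) (fun i _ => hm0 i) (hS o₀ ho₀))
    have L3 : Real.log (∑ i ∈ Finset.univ.filter T.act, E.m 0 (T.site i)) ≤ Real.log (max 1 C₀ * E.nrm2) :=
      Real.log_le_log hsumpos hsum
    have hw : T.P.ev (fun o => wt γ (T.geo (T.D o))) ≤ E.H := by
      have h1 := ent_ev_mono T.P (f := fun o => wt γ (T.geo (T.D o))) (g := fun _ => E.H) (fun o' ho => by
        obtain ⟨b0, ba, _, au, _⟩ := hT.geo o' (hp o' ho)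
        have hu : E.u 0 = E.H / 2 := by unfold PEnv.u; ring
        rw [hu] at au
        have h2 := mul_nonneg (by linarith : 0 ≤ 1 + γ) (sub_nonneg.2 ba)
        show (1 + γ) * (T.geo (T.D o')).b + (1 - γ) * (T.geo (T.D o')).a ≤ E.H
        nlinarith)
      rwa [ent_ev_const] at h1
    have hev : T.P.ev (fun o => Real.log (E.m 0 (T.site (T.O o))) / lg E.ε)
        = T.P.ev (fun o => Real.log (E.m 0 (T.site (T.O o)))) / lg E.ε := by
      unfold FLaw.ev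
      rw [Finset.sum_div]
      exact Finset.sum_congr rfl fun o _ => by ring
    unfold score
    rw [hT.t0, hev]
    have key : (T.P.ent T.O + T.P.entC T.O T.D / 2) / lg E.ε
        + 3 / 2 * (T.P.ev (fun o => Real.log (E.m 0 (T.site (T.O o)))) / lg E.ε)
        ≤ 3 / 2 * (Real.log (max 1 C₀ * E.nrm2) / lg E.ε) := by
      have e1 : (T.P.ent T.O + T.P.entC T.O T.D / 2) / lg E.ε
          + 3 / 2 * (T.P.ev (fun o => Real.log (E.m 0 (T.site (T.O o)))) / lg E.ε)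
          = (T.P.ent T.O + T.P.entC T.O T.D / 2 + 3 / 2 * T.P.ev (fun o => Real.log (E.m 0 (T.site (T.O o))))) / lg E.ε := by
        ring
      have e2 : 3 / 2 * (Real.log (max 1 C₀ * E.nrm2) / lg E.ε) = (3 / 2 * Real.log (max 1 C₀ * E.nrm2)) / lg E.ε := by
        ring
      rw [e1, e2]
      exact div_le_div_of_nonneg_right (by linarith) hl.le
    linarith

theorem pk_K0set_bdd {K : OscBd} (h0 : 0 < K.a0) {γ : ℝ} {M : ℕ} {E : PEnv} (hγ : -1 ≤ γ) (hM : 3 ≤ M) (hε : 0 < E.ε) (hε1 : E.ε < 1) (hH : 0 ≤ E.H)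
    (hE : IsPhase K E.Φ E.ζ) (hf : MemLp E.f 2 volume) : BddAbove (K0set γ M E) := by
  obtain ⟨C, _, hC⟩ := pk_K0set_le K h0
  exact ⟨_, fun x hx => hC γ M E hγ hM hε hε1 hH hE hf x hx⟩

theorem pk_K0_obeys_bdd {B : PBd} (hB : B.Good) {γ : ℝ} (hγ : -1 ≤ γ) {E : PEnv} (hE : E.Obeys B) : BddAbove (K0set γ B.M E) :=
  pk_K0set_bdd hB.a0 hγ (le_trans (by norm_num) hB.M) hE.ε0 hE.ε1 hE.H0.le hE.phase hE.mem

/-- the norm option. -/
theorem pk_K0_norm_le {γ : ℝ} {M : ℕ} {E : PEnv} (hb : BddAbove (K0set γ M E)) : 3 / 2 * (Real.log E.nrm2 / lg E.ε) ≤ K0 γ M E :=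
  le_csSup hb (Or.inl rfl)

/-- root scores. -/
theorem pk_K0_root_le {γ : ℝ} {M : ℕ} {E : PEnv} (hb : BddAbove (K0set γ M E)) (T : PTest) (hT : T.IsRoot M E) : score γ E T ≤ K0 γ M E :=
  le_csSup hb (Or.inr ⟨T, hT, rfl⟩)

/-- `K0` is nonincreasing in the order of the canonical class. -/
theorem pk_K0_anti {γ : ℝ} {M M' : ℕ} {E : PEnv} (hb : BddAbove (K0set γ M E)) (hM : M ≤ M') : K0 γ M' E ≤ K0 γ M E := by
  refine csSup_le_csSup hb ⟨_, Or.inl rfl⟩ ?_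
  rintro x (h | ⟨T, hT, h⟩)
  · exact Or.inl h
  · refine Or.inr ⟨T, ⟨hT.t0, fun i hi => ?_, hT.time, hT.sep, hT.mpos, hT.geo⟩, h⟩
    have h1 := hT.amp i hi
    exact ⟨h1.smooth, h1.supp, fun j hj => h1.bound j (hj.trans hM)⟩

variable {E : PEnv} {B : PBd} {t r bs : ℝ} {p : Atoms.Par} {At : Atoms}

/-- superpositions are square integrable. -/
theorem pk_sup_memLp (hE : E.Obeys B) (hG : At.Good E B t r bs p) (S : At.𝔸 → Prop) (hC : ∀ T, S T → 0 ≤ (At.asite T).C) :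
    MemLp (At.sup E r S) 2 volume := by
  have hρ : 0 < E.rho r := Real.rpow_pos_of_pos hE.ε0 _
  unfold Atoms.sup
  refine memLp_finsetSum _ fun T _ => ?_
  by_cases hT : S T
  · simp only [hT, if_true]
    have h1 : MemLp (fun v => conj (pkt E.lam E.Φ (At.asite T).C (E.rho r) (At.asite T).V (At.asite T).X
        (fun z => conj ((At.asite T).ψ z)) v)) 2 volume :=
      pk_memLp_conj volume (pk_pkt_memLp hE.phase (pk_amp_conj ((pk_ampC_iff _ _ _).1 (hG.amp T) 0)) E.lam hρ (hC T hT) _ _)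
    have h2 := h1.const_mul (At.coef E r T)
    have e : (fun v => At.coef E r T * atom E.lam (E.rho r) E.Φ (At.asite T) v)
        = fun v => At.coef E r T * conj (pkt E.lam E.Φ (At.asite T).C (E.rho r) (At.asite T).V (At.asite T).X
          (fun z => conj ((At.asite T).ψ z)) v) := by
      funext v
      rw [pk_atom_eq]
    rw [e]
    exact h2
  · simp only [hT, if_false]
    exact MemLp.zero

/-- support of a superposition of atoms of one localizer. -/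
theorem pk_sup_supp (hE : E.Obeys B) (hG : At.Good E B t r bs p) (hbs : bs ≤ E.u r) (j : Loc0) (S : At.𝔸 → Prop) (hS : ∀ T, S T → At.loc T = j) (v : E2)
    (hv : At.sup E r S v ≠ 0) : ‖v - j.VJ E.ε bs‖ ≤ (p.Ra + p.Ca) * E.ε ^ bs := by
  have hρ : 0 < E.rho r := Real.rpow_pos_of_pos hE.ε0 _
  have hex : ∃ T, S T ∧ atom E.lam (E.rho r) E.Φ (At.asite T) v ≠ 0 := by
    by_contra hcon
    push Not at hcon
    apply hv
    unfold Atoms.sup
    refine Finset.sum_eq_zero fun T _ => ?_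
    by_cases hT : S T
    · rw [if_pos hT, hcon T hT, mul_zero]
    · rw [if_neg hT]
  obtain ⟨T, hT, hTv⟩ := hex
  have h1 := pk_atom_supp E.lam E.Φ hρ (At.asite T) ((pk_ampC_iff _ _ _).1 (hG.amp T) 0) v hTv
  have h2 := hG.nearV T
  rw [hS T hT] at h2
  have hRa : 0 ≤ p.Ra := by
    by_contra hneg
    have : p.Ra * E.rho r < 0 := mul_neg_of_neg_of_pos (not_le.1 hneg) hρ
    linarith [norm_nonneg (v - (At.asite T).V)]
  have h3 : E.rho r ≤ E.ε ^ bs := Real.rpow_le_rpow_of_exponent_ge hE.ε0 hE.ε1.le hbs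
  calc ‖v - j.VJ E.ε bs‖ = ‖(v - (At.asite T).V) + ((At.asite T).V - j.VJ E.ε bs)‖ := by rw [sub_add_sub_cancel]
    _ ≤ ‖v - (At.asite T).V‖ + ‖(At.asite T).V - j.VJ E.ε bs‖ := norm_add_le _ _
    _ ≤ p.Ra * E.ε ^ bs + p.Ca * E.ε ^ bs := add_le_add (h1.trans (mul_le_mul_of_nonneg_left h3 hRa)) h2
    _ = (p.Ra + p.Ca) * E.ε ^ bs := by ring

/-- synthesis Bessel for a superposition of atoms of one localizer. -/
theorem pk_sup_nrm2 (K : OscBd) (h0 : 0 < K.a0) (Ra : ℝ) (Bb : ℕ → ℝ) : ∃ C : ℝ, 0 ≤ C ∧ ∀ (E : PEnv) (B : PBd) (t r bs : ℝ) (p : Atoms.Par) (At : Atoms),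
    B.K = K → p.Ra = Ra → p.Bb = Bb → E.Obeys B → At.Good E B t r bs p → r ≤ E.H → ∀ (j : Loc0), 0 ≤ j.Cr E.ε r → j.Cr E.ε r ≤ 1 →
    ∀ S : At.𝔸 → Prop, (∀ T, S T → At.loc T = j) →
      ∫ v, ‖At.sup E r S v‖ ^ 2 ≤ C * p.Mu * ∑ T, if S T then ‖At.coef E r T‖ ^ 2 else 0 := by
  obtain ⟨C, hC0, hC⟩ := pk_site_synth K h0 Ra Bb
  refine ⟨C, hC0, ?_⟩
  intro E B t r bs p At hK hRa hBb hE hG hr j hj0 hj1 S hS
  have hlam : 0 < E.lam := Real.rpow_pos_of_pos hE.ε0 _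
  have hρ : 0 < E.rho r := Real.rpow_pos_of_pos hE.ε0 _
  have hρ1 : E.rho r ≤ 1 := Real.rpow_le_one hE.ε0.le hE.ε1.le (by unfold PEnv.u; linarith)
  have hσ : (E.lam * E.rho r)⁻¹ = E.sig r := inv_eq_of_mul_eq_one_right (pk_env_scales E hE.ε0 r).1
  have h1 := hC E.Φ E.ζ (hK ▸ hE.phase) E.lam (E.rho r) (j.Cr E.ε r) hlam hρ hρ1 hj0 hj1 At.𝔸 (Finset.univ.filter S) At.asite p.Mu
    (fun T hT => by rw [hG.time T, hS T (Finset.mem_filter.1 hT).2])
    (fun T _ => by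
      have := (pk_ampC_iff _ _ _).1 (hG.amp T) 3
      rwa [hRa, hBb] at this)
    (fun T hT u hu hu' => by
      rw [hσ] at hu'
      refine le_trans (Finset.card_le_card fun T' hT' => ?_) (hG.mult T)
      refine Finset.mem_filter.2 ⟨Finset.mem_univ _, ?_, hu' T' hT'⟩
      rw [hS T' (Finset.mem_filter.1 (hu hT')).2, hS T (Finset.mem_filter.1 hT).2])
    (At.coef E r)
  have e1 : ∀ v, At.sup E r S v = ∑ T ∈ Finset.univ.filter S, At.coef E r T * atom E.lam (E.rho r) E.Φ (At.asite T) v := by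
    intro v
    unfold Atoms.sup
    rw [Finset.sum_filter]
  have e2 : (∑ T, if S T then ‖At.coef E r T‖ ^ 2 else 0) = ∑ T ∈ Finset.univ.filter S, ‖At.coef E r T‖ ^ 2 := by
    rw [Finset.sum_filter]
  simp only [e1]
  rw [e2]
  exact h1

/-- **T-LOCOBEYS, environment half**: the local environment of a localizer with input a superposition of its atoms. -/
theorem pk_env_loc_obeys {B' : PBd} (hE : E.Obeys B) (hG : At.Good E B t r bs p) (hr : 0 ≤ r) (hrt : r < t) (hbs : 0 ≤ bs) (hbt : bs ≤ E.u t) (j : Loc0)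
    (hj0 : 0 ≤ j.Cr E.ε r) (hj1 : j.Cr E.ε r ≤ 1) (S : At.𝔸 → Prop) (hS : ∀ T, S T → At.loc T = j)
    (hK : B'.K.a0 = B.K.a0 ∧ B'.K.a1 = B.K.a1 ∧ B'.K.A = fun k => 3 ^ k * B.K.A k) (hHm : B.Hmax ≤ B'.Hmax) (hLm : B.Lmax ≤ B'.Lmax)
    (hRv : p.Ra + p.Ca ≤ B'.K.Rv) :
    (E.resc r bs (j.Cr E.ε r) (j.VJ E.ε bs) (j.XJ E.ε r bs) (At.sup E r S)).Obeys B' := by
  have hut : E.u t = (E.H - t) / 2 := rfl
  have hur : E.u r = (E.H - r) / 2 := rfl
  have hH : 0 < E.H - r - 2 * bs := by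
    rw [hut] at hbt
    linarith
  have hbr : bs ≤ E.u r := by
    rw [hut] at hbt
    rw [hur]
    linarith
  have hC : ∀ T, S T → 0 ≤ (At.asite T).C := fun T hT => by
    rw [hG.time T, hS T hT]
    exact hj0
  refine pk_resc_env_obeys E r bs _ _ _ _ hE hr hbs hj0 hj1 hH hK hHm hLm (pk_sup_memLp hE hG S hC)
    fun v hv => ?_
  exact (pk_sup_supp hE hG hbr j S hS v hv).trans
    (mul_le_mul_of_nonneg_right hRv (Real.rpow_pos_of_pos hE.ε0 bs).le)

end Claimed.Agent.R255
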