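import Claimed.Agent.R255.Pk.Loc
import Claimed.Agent.R255.Pk.AtomsExist

/-!
# R255 / Pk / An : THE AN LIST AT THE `ε`-LEVEL, IN THE VOCABULARY OF `Pkt/Base.lean`, `Pkt/Cut.lean`      (architect helper91)   -- KEEP

Wrappers of `Pk/Export.lean`, `Pk/Bridge.lean`, `Pk/Loc.lean` for the consumers P9.5, P9.6, S10, S11 (asked by helper256, #20710).   SCALES: `pk_env_scales` (`(lam ρ_r)⁻¹ = σ_r`, `lam ρ_r² = ε^{-r}`), `ρ_r ≤ ρ_t ≤ ε^bs ≤ 1`.
* `an_bessel`       `T.Obeys B E`, one time anchor `c` : `∑_{i active, C_i = c} m_i ≤ C ‖f‖²`.          [`pk_site_bessel`; `PkLoc` from `multS`; `T.t ≤ E.H` from `geo` of a charged sample]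
* `an_coef_bessel`  Good atoms of one localizer : `∑ |c_T|² ≤ C Mu ‖f‖²`.                              [`pk_site_bessel` for the conjugate sites; `PkLoc` from `Good.mult`]
* `an_transport`    L9.3(2) for ANY subset `S` of the atoms; the order `Atr` is chosen AFTER the family.  [`pk_site_mix` (velocity-far atoms: zero), `pk_site_transport` with `R₁ = ε^{-η}`, `C₀ = 3 + 2 Ca`, `M` with `η (2M-3) ≥ 2 Atr + 1`, `an_coef_bessel`, `pk_loc0_near`]
* `an_row`          pointwise: `mass (At.sup S) s ≤ C Mu² max |c_T|²` for canonical sites at the time of the localizer.     [`pk_site_row`]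
* `an_cap`          (9.cap-bessel) for canonical sites at the time of the localizer.                     [`pk_site_cap`]
* `an_mass_un`, `an_root_un`   a canonical root test of a local environment `E.resc …`, read in absolute coordinates (`pkSiteUn`): same masses, time `C_r`, separated at `(ρ_r, σ_r)`.
-/

set_option autoImplicit false

namespace Claimed.Agent.R255

open MeasureTheory Metric Set Osc Pkt
open scoped ContDiff InnerProductSpace ComplexConjugate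
open Classical

/-- scales of an environment: `λ > 0`, `0 < ρ_t`, `(λ ρ_t)⁻¹ = σ_t`, and `ρ_t ≤ 1` if `t ≤ H` -/
theorem an_scales (E : PEnv) (hε : 0 < E.ε) (hε1 : E.ε < 1) (t : ℝ) :
    0 < E.lam ∧ 0 < E.rho t ∧ (E.lam * E.rho t)⁻¹ = E.sig t ∧ (t ≤ E.H → E.rho t ≤ 1) := by
  have h1 : 0 < E.lam := Real.rpow_pos_of_pos hε _
  have h2 : 0 < E.rho t := Real.rpow_pos_of_pos hε _
  refine ⟨h1, h2, ?_, fun ht => ?_⟩
  · have h3 := (pk_env_scales E hε t).1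
    exact inv_eq_of_mul_eq_one_right h3
  · have hu : 0 ≤ (E.H - t) / 2 := by linarith
    exact Real.rpow_le_one hε.le hε1.le hu

/-- **BESSEL at one anchor** for the sites of a test. -/
theorem an_bessel (B : PBd) (hB : B.Good) : ∃ C : ℝ, 0 ≤ C ∧ ∀ (E : PEnv) (T : PTest), E.Obeys B → T.Obeys B E → ∀ c : ℝ,
    ∑ i ∈ Finset.univ.filter (fun i => T.act i ∧ (T.site i).C = c), E.m T.t (T.site i) ≤ C * E.nrm2 := by
  obtain ⟨C, hC0, hC⟩ := pk_site_bessel B.K hB.a0 B.Ra B.K.Bb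
  refine ⟨C * B.Mu, by positivity, fun E T hE hT c => ?_⟩
  have hn : 0 ≤ E.nrm2 := integral_nonneg fun v => by positivity
  rcases (Finset.univ.filter (fun i => T.act i ∧ (T.site i).C = c)).eq_empty_or_nonempty with he | ⟨i₀, hi₀⟩
  · rw [he, Finset.sum_empty]
    positivity
  obtain ⟨ha₀, hc₀⟩ := (Finset.mem_filter.1 hi₀).2
  obtain ⟨o, ho, hO⟩ := ha₀
  have hg := hT.geo o ho
  have hu : 0 ≤ E.u T.t := hg.1.trans (hg.2.1.trans hg.2.2.2.1)
  have htH : T.t ≤ E.H := by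
    have : 0 ≤ (E.H - T.t) / 2 := hu
    linarith
  obtain ⟨s1, s2, s3, s4⟩ := an_scales E hE.ε0 hE.ε1 T.t
  have hc := hT.time i₀ ⟨o, ho, hO⟩
  rw [hc₀] at hc
  refine hC E.Φ E.ζ hE.phase E.lam (E.rho T.t) c s1 s2 (s4 htH) hc.1 hc.2.le T.ι _ T.site B.Mu
    (fun i hi => (Finset.mem_filter.1 hi).2.2)
    (fun i hi => (pk_ampC_iff _ _ _).1 (hT.amp i (Finset.mem_filter.1 hi).2.1) 3)
    (fun i hi t' ht' hnear => ?_) E.f hE.mem
  refine le_trans (Finset.card_le_card fun j hj => ?_) (hT.multS i (Finset.mem_filter.1 hi).2.1)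
  have hj' := (Finset.mem_filter.1 (ht' hj)).2
  have hn' := hnear j hj
  rw [s3] at hn'
  exact Finset.mem_filter.2 ⟨Finset.mem_univ _, hj'.1, hj'.2.trans (Finset.mem_filter.1 hi).2.2.symm, hn'.1, hn'.2⟩

/-- **BESSEL for the coefficients** of the atoms of one localizer. -/
theorem an_coef_bessel (B : PBd) (hB : B.Good) (Ra : ℝ) (Bb : ℕ → ℝ) : ∃ C : ℝ, 0 ≤ C ∧ ∀ (E : PEnv) (t r bs : ℝ) (p : Atoms.Par) (At : Atoms),
    p.Ra = Ra → p.Bb = Bb → E.Obeys B → At.Good E B t r bs p → r ≤ E.H → ∀ j : Loc0, 0 ≤ j.Cr E.ε r → j.Cr E.ε r ≤ 1 →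
      ∑ T ∈ Finset.univ.filter (fun T => At.loc T = j), ‖At.coef E r T‖ ^ 2 ≤ C * p.Mu * E.nrm2 := by
  obtain ⟨C, hC0, hC⟩ := pk_site_bessel B.K hB.a0 Ra Bb
  refine ⟨C, hC0, fun E t r bs p At hRa hBb hE hG hr j hj0 hj1 => ?_⟩
  obtain ⟨s1, s2, s3, s4⟩ := an_scales E hE.ε0 hE.ε1 r
  refine hC E.Φ E.ζ hE.phase E.lam (E.rho r) (j.Cr E.ε r) s1 s2 (s4 hr) hj0 hj1 At.𝔸 _ (fun T => (At.asite T).conj) p.Mu
    (fun T hT => ?_) (fun T _ => ?_) (fun T hT t' ht' hnear => ?_) E.f hE.mem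
  · show (At.asite T).C = _
    rw [hG.time T, (Finset.mem_filter.1 hT).2]
  · have h1 := hG.amp T
    rw [hRa, hBb] at h1
    exact pk_amp_conj ((pk_ampC_iff _ _ _).1 h1 3)
  · refine le_trans (Finset.card_le_card fun T' hT' => ?_) (hG.mult T)
    have h1 := (Finset.mem_filter.1 (ht' hT')).2
    have hn' := hnear T' hT'
    rw [s3] at hn'
    exact Finset.mem_filter.2 ⟨Finset.mem_univ _, h1.trans (Finset.mem_filter.1 hT).2.symm, hn'.1, hn'.2⟩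

/-- the atom site `T` is near the back-transported endpoint site `s` (9.transport) -/
def AnNear (E : PEnv) (t r η Rn : ℝ) (s T : Site) : Prop :=
  ‖T.V - s.V‖ ≤ Rn * E.rho t ∧ ‖s.X - T.X - (s.C - T.C) • T.V‖ ≤ E.ε ^ (-η) * E.sig r

/-- a superposition as a sum over a filter. -/
theorem an_sup_eq (At : Atoms) (E : PEnv) (r : ℝ) (S : At.𝔸 → Prop) :
    At.sup E r S = fun v => ∑ T ∈ Finset.univ.filter S,
      At.coef E r T * atom E.lam (E.rho r) E.Φ (At.asite T) v := by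
  funext v
  rw [Finset.sum_filter]
  rfl

/-- localisation of the atoms of the localizer of an endpoint site. -/
theorem an_tr_local {E : PEnv} (hε : 0 < E.ε) (hε1 : E.ε < 1) {r bs Ca : ℝ} (hbs : 0 ≤ bs) (s T : Site)
    (hV : ‖T.V - (loc0 E.ε r bs s).VJ E.ε bs‖ ≤ Ca * E.ε ^ bs)
    (hX : ‖T.X - (loc0 E.ε r bs s).XJ E.ε r bs‖ ≤ Ca * (E.ε ^ r * E.ε ^ bs)) :
    E.lam * E.rho r ^ 2 * (‖s.X - T.X - (s.C - (loc0 E.ε r bs s).Cr E.ε r) • T.V‖ +
      |s.C - (loc0 E.ε r bs s).Cr E.ε r|) ≤ 3 + 2 * Ca := by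
  obtain ⟨n1, n2, n3, n4, -⟩ := pk_loc0_near hε r bs s
  obtain ⟨-, sc2, -⟩ := pk_env_scales E hε r
  obtain ⟨c, hc⟩ : ∃ c, c = (loc0 E.ε r bs s).Cr E.ε r := ⟨_, rfl⟩
  obtain ⟨VJ, hVJ⟩ : ∃ c, c = (loc0 E.ε r bs s).VJ E.ε bs := ⟨_, rfl⟩
  obtain ⟨XJ, hXJ⟩ : ∃ c, c = (loc0 E.ε r bs s).XJ E.ε r bs := ⟨_, rfl⟩
  rw [← hc] at n2 n3 n4 ⊢
  rw [← hVJ] at n1 hV
  rw [← hXJ] at n2 hX
  have e1 : 0 < E.ε ^ r := Real.rpow_pos_of_pos hε r
  have e2 : 0 < E.ε ^ bs := Real.rpow_pos_of_pos hε bs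
  have e3 : E.ε ^ bs ≤ 1 := Real.rpow_le_one hε.le hε1.le hbs
  have hCa : 0 ≤ Ca := by
    have := (norm_nonneg _).trans hV
    exact nonneg_of_mul_nonneg_left this e2
  have hd0 : 0 ≤ s.C - c := by linarith
  have hd1 : s.C - c ≤ E.ε ^ r := by linarith
  have dec : s.X - T.X - (s.C - c) • T.V = (s.X - XJ - (s.C - c) • s.V) - (T.X - XJ) +
      (s.C - c) • ((s.V - VJ) - (T.V - VJ)) := by
    simp only [smul_sub]
    abel
  have h1 : ‖s.X - T.X - (s.C - c) • T.V‖ ≤ E.ε ^ r * E.ε ^ bs + Ca * (E.ε ^ r * E.ε ^ bs) +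
      E.ε ^ r * (E.ε ^ bs + Ca * E.ε ^ bs) := by
    rw [dec]
    refine (norm_add_le _ _).trans (add_le_add ((norm_sub_le _ _).trans (add_le_add n2 hX)) ?_)
    rw [norm_smul, Real.norm_eq_abs, abs_of_nonneg hd0]
    exact mul_le_mul hd1 ((norm_sub_le _ _).trans (add_le_add n1 hV)) (norm_nonneg _) e1.le
  have h2 : ‖s.X - T.X - (s.C - c) • T.V‖ + |s.C - c| ≤ (3 + 2 * Ca) * E.ε ^ r := by
    rw [abs_of_nonneg hd0]
    have h3 : E.ε ^ r * E.ε ^ bs ≤ E.ε ^ r := by nlinarith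
    have h4 : Ca * (E.ε ^ r * E.ε ^ bs) ≤ Ca * E.ε ^ r := mul_le_mul_of_nonneg_left h3 hCa
    nlinarith
  have h5 : 0 < E.lam * E.rho r ^ 2 := by
    have : 0 < E.lam := Real.rpow_pos_of_pos hε _
    have : 0 < E.rho r := Real.rpow_pos_of_pos hε _
    positivity
  calc E.lam * E.rho r ^ 2 * (‖s.X - T.X - (s.C - c) • T.V‖ + |s.C - c|)
      ≤ E.lam * E.rho r ^ 2 * ((3 + 2 * Ca) * E.ε ^ r) := mul_le_mul_of_nonneg_left h2 h5.le
    _ = (3 + 2 * Ca) * (E.lam * E.rho r ^ 2 * E.ε ^ r) := by ring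
    _ = 3 + 2 * Ca := by rw [sc2, mul_one]

/-- the numerology of `an_transport`. -/
theorem an_tr_num {ε η Atr Q X N : ℝ} {n₀ : ℕ} (hε : 0 < ε) (hε1 : ε < 1) (hη : 0 < η)
    (hn₀ : (2 * Atr + 1) / η ≤ n₀) (hQ : 0 ≤ Q) (hεQ : ε < (Q + 1)⁻¹) (hN : 0 ≤ N) (hX0 : 0 ≤ X)
    (hX : X ^ 2 ≤ Q * N * ((1 + ε ^ (-η)) ^ (2 * (n₀ + 2) - 3))⁻¹) : X ≤ ε ^ Atr * Real.sqrt N := by
  have hx : 0 < ε ^ (-η) := Real.rpow_pos_of_pos hε _
  have e : 2 * (n₀ + 2) - 3 = 2 * n₀ + 1 := by omega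
  rw [e] at hX
  have h1 : ((1 + ε ^ (-η)) ^ (2 * n₀ + 1))⁻¹ ≤ ((ε ^ (-η)) ^ (2 * n₀ + 1))⁻¹ :=
    inv_anti₀ (by positivity) (pow_le_pow_left₀ hx.le (by linarith) _)
  have h2 : ((ε ^ (-η)) ^ (2 * n₀ + 1))⁻¹ = ε ^ (η * ((2 * n₀ + 1 : ℕ) : ℝ)) := by
    rw [← Real.rpow_natCast, ← Real.rpow_mul hε.le, ← Real.rpow_neg hε.le]
    congr 1
    ring
  have h3 : 2 * Atr + 1 ≤ η * ((2 * n₀ + 1 : ℕ) : ℝ) := by
    rw [div_le_iff₀ hη] at hn₀
    push_cast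
    nlinarith [(Nat.cast_nonneg n₀ : (0 : ℝ) ≤ n₀)]
  have h4 : ε ^ (η * ((2 * n₀ + 1 : ℕ) : ℝ)) ≤ ε ^ (2 * Atr + 1) :=
    Real.rpow_le_rpow_of_exponent_ge hε hε1.le h3
  have h5 : ε ^ (2 * Atr + 1) = (ε ^ Atr) ^ 2 * ε := by
    rw [Real.rpow_add hε, Real.rpow_one, ← Real.rpow_natCast, ← Real.rpow_mul hε.le]
    congr 2
    push_cast
    ring
  have h6 : ε * Q ≤ 1 := by
    have h7 : ε * (Q + 1) < 1 := by
      rw [lt_inv_comm₀ hε (by positivity)] at hεQ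
      have := (lt_div_iff₀ hε).1 (by rwa [one_div])
      linarith
    nlinarith
  have hA : 0 < ε ^ Atr := Real.rpow_pos_of_pos hε _
  have h8 : X ^ 2 ≤ (ε ^ Atr * Real.sqrt N) ^ 2 := by
    rw [mul_pow, Real.sq_sqrt hN]
    calc X ^ 2 ≤ Q * N * ((1 + ε ^ (-η)) ^ (2 * n₀ + 1))⁻¹ := hX
      _ ≤ Q * N * ((ε ^ Atr) ^ 2 * ε) := by
          refine mul_le_mul_of_nonneg_left ?_ (mul_nonneg hQ hN)
          rw [← h5]
          exact h1.trans (h2.le.trans h4)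
      _ = (ε * Q) * ((ε ^ Atr) ^ 2 * N) := by ring
      _ ≤ 1 * ((ε ^ Atr) ^ 2 * N) := mul_le_mul_of_nonneg_right h6 (by positivity)
      _ = (ε ^ Atr) ^ 2 * N := one_mul _
  exact (pow_le_pow_iff_left₀ hX0 (by positivity) two_ne_zero).1 h8

/-- **TRANSPORT** (L9.3(2)) for any subset of a Good family. -/
theorem an_transport (B : PBd) (hB : B.Good) (Ra : ℝ) (Bb : ℕ → ℝ) (Mu : ℕ) (Ca η Atr : ℝ) (hη : 0 < η) (hA : 0 < Atr) : ∃ ε₀ : ℝ, 0 < ε₀ ∧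
    ∀ (E : PEnv) (t r bs : ℝ) (p : Atoms.Par) (At : Atoms), p.Ra = Ra → p.Bb = Bb → p.Mu = Mu → p.Ca = Ca → E.Obeys B → E.ε < ε₀ →
      0 ≤ r → r ≤ t → 0 ≤ bs → bs ≤ E.u t → At.Good E B t r bs p → ∀ s : Site, AmpC B.Ra B.K.Bb s.ψ → 0 ≤ s.C → s.C < 1 → ∀ S : At.𝔸 → Prop,
      ‖pairing E.lam (E.rho t) E.Φ (At.sup E r (fun T => S T ∧ At.loc T = loc0 E.ε r bs s)) s
        - pairing E.lam (E.rho t) E.Φ
            (At.sup E r (fun T => S T ∧ At.loc T = loc0 E.ε r bs s ∧ AnNear E t r η (B.Ra + Ra) s (At.asite T))) s‖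
        ≤ E.ε ^ Atr * Real.sqrt E.nrm2 := by
  obtain ⟨C', hC'0, hC'⟩ := an_coef_bessel B hB Ra Bb
  obtain ⟨n₀, hn₀⟩ : ∃ n₀ : ℕ, (2 * Atr + 1) / η ≤ n₀ := exists_nat_ge _
  obtain ⟨Cm, -, hCm⟩ := pk_site_mix B.K hB.a0 B.Ra Ra (3 + 2 * Ca) (n₀ + 2) B.K.Bb Bb
  obtain ⟨C, hC0, hC⟩ := pk_site_transport B.K hB.a0 B.Ra Ra (3 + 2 * Ca) (n₀ + 2) (by omega) B.K.Bb Bb
  refine ⟨(C * Mu * (C' * Mu) + 1)⁻¹, by positivity, ?_⟩
  intro E t r bs p At hRa hBb hMu hCa hE hε₀ hr hrt hbs hbt hG s hs hs0 hs1 S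
  have hε := hE.ε0
  have hε1 := hE.ε1
  have hamp : ∀ T, AmpC Ra Bb (At.asite T).ψ := fun T => by
    rw [← hRa, ← hBb]
    exact hG.amp T
  have hampM : ∀ T, PkAmp (n₀ + 2) Ra Bb (At.asite T).ψ := fun T => (pk_ampC_iff _ _ _).1 (hamp T) _
  have hsM : PkAmp (n₀ + 2) B.Ra B.K.Bb s.ψ := (pk_ampC_iff _ _ _).1 hs _
  obtain ⟨sc1, -, -⟩ := pk_env_scales E hε r
  have hlam : 0 < E.lam := Real.rpow_pos_of_pos hε _
  have hρ : 0 < E.rho r := Real.rpow_pos_of_pos hε _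
  have hρ' : 0 < E.rho t := Real.rpow_pos_of_pos hε _
  have hσ : 0 < E.sig r := Real.rpow_pos_of_pos hε _
  have hut : E.u t = (E.H - t) / 2 := rfl
  have hur : E.u r = (E.H - r) / 2 := rfl
  have hut0 : 0 ≤ E.u t := hbs.trans hbt
  have hρρ : E.rho r ≤ E.rho t :=
    Real.rpow_le_rpow_of_exponent_ge hε hε1.le (by rw [hut, hur]; linarith)
  have hρ1 : E.rho t ≤ 1 := Real.rpow_le_one hε.le hε1.le hut0
  have hσe : (E.lam * E.rho r)⁻¹ = E.sig r := inv_eq_of_mul_eq_one_right sc1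
  have hrH : r ≤ E.H := by
    rw [hut] at hut0
    linarith
  obtain ⟨-, -, n3, -, n5⟩ := pk_loc0_near hε r bs s
  obtain ⟨j, hj⟩ : ∃ j, j = loc0 E.ε r bs s := ⟨_, rfl⟩
  rw [← hj] at n3 n5 ⊢
  have hc0 : 0 ≤ j.Cr E.ε r := n5 hs0
  have hc1 : j.Cr E.ε r ≤ 1 := n3.trans hs1.le
  have htime : ∀ T, At.loc T = j → (At.asite T).C = j.Cr E.ε r := fun T hT => by
    rw [hG.time T, hT]
  have hloc : ∀ T, At.loc T = j → E.lam * E.rho r ^ 2 *
      (‖s.X - (At.asite T).X - (s.C - j.Cr E.ε r) • (At.asite T).V‖ + |s.C - j.Cr E.ε r|) ≤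
        3 + 2 * Ca := fun T hT => by
    rw [hj]
    refine an_tr_local hε hε1 hbs s (At.asite T) ?_ ?_
    · rw [← hj, ← hT, ← hCa]
      exact hG.nearV T
    · rw [← hj, ← hT, ← hCa]
      exact hG.nearX T
  -- the pairing of a superposition
  have hpair : ∀ S' : At.𝔸 → Prop, (∀ T, S' T → At.loc T = j) →
      pairing E.lam (E.rho t) E.Φ (At.sup E r S') s = ∑ T ∈ Finset.univ.filter S', At.coef E r T *
        pairing E.lam (E.rho t) E.Φ (atom E.lam (E.rho r) E.Φ (At.asite T)) s := by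
    intro S' hS'
    rw [an_sup_eq]
    exact pk_pairing_sum hE.phase E.lam (E.rho r) hρ' _ At.asite
      (fun T hT => by rw [htime T (hS' T (Finset.mem_filter.1 hT).2)]; exact hc0)
      (fun T _ => hampM T) s hs0 hsM _
  -- velocity-far atoms do not see the site
  have hzero : ∀ T, At.loc T = j → (B.Ra + Ra) * E.rho t < ‖(At.asite T).V - s.V‖ →
      pairing E.lam (E.rho t) E.Φ (atom E.lam (E.rho r) E.Φ (At.asite T)) s = 0 := by
    intro T hT hfar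
    by_cases hRa0 : 0 ≤ Ra
    · refine (hCm E.Φ E.ζ hE.phase E.lam (E.rho r) (E.rho t) hlam hρ hρρ hρ1 (At.asite T) s
        (by rw [htime T hT]; exact hc0) (by rw [htime T hT]; exact hc1) hs0 hs1.le (hampM T) hsM
        (by rw [htime T hT]; exact hloc T hT)).2 ?_
      refine lt_of_le_of_lt ?_ hfar
      have := mul_le_mul_of_nonneg_left hρρ hRa0
      linarith
    · have hz : atom E.lam (E.rho r) E.Φ (At.asite T) = fun _ => 0 := by
        funext v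
        have h0 : (At.asite T).ψ ((E.rho r)⁻¹ • (v - (At.asite T).V)) = 0 := by
          by_contra hne
          have := (hamp T).supp _ hne
          exact hRa0 ((norm_nonneg _).trans this)
        simp [atom, h0]
      rw [hz]
      simp [pairing]
  rw [hpair _ (fun T h => h.2), hpair _ (fun T h => h.2.1)]
  -- the position-far atoms
  obtain ⟨F, hF⟩ : ∃ F : Finset At.𝔸, F = Finset.univ.filter (fun T => S T ∧ At.loc T = j ∧
      E.ε ^ (-η) * E.sig r < ‖s.X - (At.asite T).X - (s.C - j.Cr E.ε r) • (At.asite T).V‖) := ⟨_, rfl⟩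
  have hFj : ∀ T ∈ F, At.loc T = j := fun T hT => by
    rw [hF] at hT
    exact (Finset.mem_filter.1 hT).2.2.1
  suffices hmain : ‖∑ T ∈ F, At.coef E r T *
      pairing E.lam (E.rho t) E.Φ (atom E.lam (E.rho r) E.Φ (At.asite T)) s‖ ≤
      E.ε ^ Atr * Real.sqrt E.nrm2 by
    convert hmain using 2
    rw [hF, Finset.sum_filter, Finset.sum_filter, Finset.sum_filter, ← Finset.sum_sub_distrib]
    refine Finset.sum_congr rfl fun T _ => ?_
    by_cases h1 : S T ∧ At.loc T = j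
    · obtain ⟨hS, hT⟩ := h1
      have hN : AnNear E t r η (B.Ra + Ra) s (At.asite T) ↔
          (‖(At.asite T).V - s.V‖ ≤ (B.Ra + Ra) * E.rho t ∧
            ‖s.X - (At.asite T).X - (s.C - j.Cr E.ε r) • (At.asite T).V‖ ≤ E.ε ^ (-η) * E.sig r) := by
        unfold AnNear
        rw [htime T hT]
      by_cases h2 : ‖s.X - (At.asite T).X - (s.C - j.Cr E.ε r) • (At.asite T).V‖ ≤
          E.ε ^ (-η) * E.sig r
      · by_cases h3 : ‖(At.asite T).V - s.V‖ ≤ (B.Ra + Ra) * E.rho t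
        · rw [if_pos ⟨hS, hT⟩, if_pos ⟨hS, hT, hN.2 ⟨h3, h2⟩⟩, if_neg (fun h => absurd h.2.2 (not_lt.2 h2)),
            sub_self]
        · rw [if_pos ⟨hS, hT⟩, if_neg (fun h => h3 (hN.1 h.2.2).1), if_neg (fun h => absurd h.2.2 (not_lt.2 h2)),
            hzero T hT (not_le.1 h3), mul_zero, sub_zero]
      · rw [if_pos ⟨hS, hT⟩, if_neg (fun h => h2 (hN.1 h.2.2).2), if_pos ⟨hS, hT, not_le.1 h2⟩, sub_zero]
    · rw [if_neg h1, if_neg (fun h => h1 ⟨h.1, h.2.1⟩), if_neg (fun h => h1 ⟨h.1, h.2.1⟩), sub_zero]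
  rw [← pk_pairing_sum hE.phase E.lam (E.rho r) hρ' F At.asite
      (fun T hT => by rw [htime T (hFj T hT)]; exact hc0) (fun T _ => hampM T) s hs0 hsM _]
  -- the transport tail
  have hPk : PkLoc F At.asite (E.rho r) (E.lam * E.rho r)⁻¹ Mu := by
    rw [hσe]
    intro i hi u hu hnear
    rw [← hMu]
    refine (Finset.card_le_card fun T hT => ?_).trans (hG.mult i)
    rw [Finset.mem_filter]
    exact ⟨Finset.mem_univ _, by rw [hFj T (hu hT), hFj i hi], hnear T hT⟩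
  have htr := hC E.Φ E.ζ hE.phase E.lam (E.rho r) (E.rho t) (j.Cr E.ε r) hlam hρ hρρ hρ1 hc0 hc1 At.𝔸 F
    At.asite Mu (fun T hT => htime T (hFj T hT)) (fun T _ => hampM T) hPk s hs0 hs1.le hsM
    (fun T hT => hloc T (hFj T hT)) (E.ε ^ (-η)) (Real.rpow_pos_of_pos hε _).le
    (fun T hT => by
      rw [hF] at hT
      have h1 := (Finset.mem_filter.1 hT).2.2.2
      have h2 : E.lam * E.rho r * (E.ε ^ (-η) * E.sig r) = E.ε ^ (-η) := by
        calc E.lam * E.rho r * (E.ε ^ (-η) * E.sig r) = E.ε ^ (-η) * (E.lam * E.rho r * E.sig r) := by ring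
          _ = E.ε ^ (-η) := by rw [sc1, mul_one]
      rw [← h2]
      exact mul_le_mul_of_nonneg_left h1.le (by positivity)) (At.coef E r)
  have hbes := hC' E t r bs p At hRa hBb hE hG hrH j hc0 hc1
  rw [hMu] at hbes
  have hsum : ∑ T ∈ F, ‖At.coef E r T‖ ^ 2 ≤ C' * Mu * E.nrm2 := by
    refine le_trans (Finset.sum_le_sum_of_subset_of_nonneg (fun T hT => ?_) fun _ _ _ => sq_nonneg _) hbes
    rw [Finset.mem_filter]
    exact ⟨Finset.mem_univ _, hFj T hT⟩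
  have hn0 : 0 ≤ E.nrm2 := integral_nonneg fun _ => sq_nonneg _
  refine an_tr_num hε hε1 hη hn₀ (by positivity : 0 ≤ C * Mu * (C' * Mu)) hε₀ hn0 (norm_nonneg _) ?_
  refine htr.trans ?_
  refine mul_le_mul_of_nonneg_right ?_ (by positivity)
  calc C * Mu * ∑ T ∈ F, ‖At.coef E r T‖ ^ 2 ≤ C * Mu * (C' * Mu * E.nrm2) :=
        mul_le_mul_of_nonneg_left hsum (by positivity)
    _ = C * Mu * (C' * Mu) * E.nrm2 := by ring

/-- a superposition as a `Finset` sum over the selected atoms -/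
theorem an_c_sup_eq (At : Atoms) (E : PEnv) (r : ℝ) (S : At.𝔸 → Prop) :
    At.sup E r S = fun v => ∑ T ∈ Finset.univ.filter S, At.coef E r T * atom E.lam (E.rho r) E.Φ (At.asite T) v := by
  funext v
  show (∑ T, if S T then At.coef E r T * atom E.lam (E.rho r) E.Φ (At.asite T) v else 0) = _
  rw [Finset.sum_filter]

/-- local multiplicity of the atoms of one localizer -/
theorem an_c_loc {E : PEnv} {B : PBd} {t r bs : ℝ} {p : Atoms.Par} {At : Atoms} (hG : At.Good E B t r bs p) (j : Loc0)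
    (S : At.𝔸 → Prop) (hS : ∀ T, S T → At.loc T = j) {m : ℕ} (hm : p.Mu ≤ m) :
    PkLoc (Finset.univ.filter S) At.asite (E.rho r) (E.sig r) m := by
  intro T hT t' ht' hnear
  refine le_trans (le_trans (Finset.card_le_card fun T' hT' => ?_) (hG.mult T)) hm
  have h1 := hS T' (Finset.mem_filter.1 (ht' hT')).2
  have h2 := hS T (Finset.mem_filter.1 hT).2
  have hn' := hnear T' hT'
  exact Finset.mem_filter.2 ⟨Finset.mem_univ _, h1.trans h2.symm, hn'.1, hn'.2⟩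

/-- **ROW**: pointwise bound at canonical sites. -/
theorem an_row (B : PBd) (hB : B.Good) (Ra : ℝ) (Bb : ℕ → ℝ) : ∃ C : ℝ, 0 ≤ C ∧ ∀ (E : PEnv) (t r bs : ℝ) (p : Atoms.Par) (At : Atoms),
    p.Ra = Ra → p.Bb = Bb → E.Obeys B → At.Good E B t r bs p → r ≤ E.H → ∀ j : Loc0, 0 ≤ j.Cr E.ε r → j.Cr E.ε r ≤ 1 →
    ∀ S : At.𝔸 → Prop, (∀ T, S T → At.loc T = j) → ∀ s : Site, s.C = j.Cr E.ε r → CanC 3 s.ψ → ∀ A : ℝ, 0 ≤ A → (∀ T, S T → ‖At.coef E r T‖ ^ 2 ≤ A) →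
      mass E.lam (E.rho r) E.Φ (At.sup E r S) s ≤ C * (p.Mu : ℝ) ^ 2 * A := by
  obtain ⟨C, hC0, hC⟩ := pk_site_row B.K hB.a0 (max 100 Ra) (fun k => max 1 (Bb k))
  refine ⟨C, hC0, fun E t r bs p At hRa hBb hE hG hr j hj0 hj1 S hS s hsC hsψ A hA hcoef => ?_⟩
  obtain ⟨s1, s2, s3, s4⟩ := an_scales E hE.ε0 hE.ε1 r
  rw [an_c_sup_eq]
  refine hC E.Φ E.ζ hE.phase E.lam (E.rho r) (j.Cr E.ε r) s1 s2 (s4 hr) hj0 hj1 At.𝔸 _ At.asite p.Mu
    (fun T hT => ?_) (fun T _ => ?_) ?_ s hsC ?_ (At.coef E r) A hA (fun T hT => hcoef T (Finset.mem_filter.1 hT).2)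
  · rw [hG.time T, hS T (Finset.mem_filter.1 hT).2]
  · have h1 := hG.amp T
    rw [hRa, hBb] at h1
    exact ((pk_ampC_iff _ _ _).1 h1 3).mono le_rfl (le_max_right _ _) fun k _ => le_max_right _ _
  · rw [s3]
    exact an_c_loc hG j S hS le_rfl
  · exact ((pk_canC_iff _ _).1 hsψ).mono le_rfl (le_max_left _ _) fun k _ => le_max_left _ _

/-- **CAP BESSEL** at canonical sites. -/
theorem an_cap (B : PBd) (hB : B.Good) (Ra : ℝ) (Bb : ℕ → ℝ) (M : ℕ) (hM : 3 ≤ M) : ∃ C : ℝ, 0 ≤ C ∧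
    ∀ (E : PEnv) (t r bs : ℝ) (p : Atoms.Par) (At : Atoms), p.Ra = Ra → p.Bb = Bb → E.Obeys B → At.Good E B t r bs p → r ≤ E.H →
    ∀ j : Loc0, 0 ≤ j.Cr E.ε r → j.Cr E.ε r ≤ 1 → ∀ S : At.𝔸 → Prop, (∀ T, S T → At.loc T = j) →
    ∀ (ι : Type) (sO : Finset ι) (site : ι → Site) (m : ℕ), (∀ i ∈ sO, (site i).C = j.Cr E.ε r) → (∀ i ∈ sO, CanC M (site i).ψ) →
    PkLoc sO site (E.rho r) (E.sig r) m → p.Mu ≤ m → ∀ (FR : At.𝔸 → Prop) (R₁ : ℝ), 0 ≤ R₁ →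
    (∀ i ∈ sO, ∀ T, S T → ¬ FR T → 2 * max 100 Ra * E.rho r < ‖(site i).V - (At.asite T).V‖ ∨ R₁ * E.sig r ≤ ‖(site i).X - (At.asite T).X‖) →
      ∑ i ∈ sO, mass E.lam (E.rho r) E.Φ (At.sup E r S) (site i)
        ≤ C * (m : ℝ) ^ 2 * (∑ T, if S T ∧ FR T then ‖At.coef E r T‖ ^ 2 else 0)
          + C * (m : ℝ) ^ 2 * (((1 + R₁) ^ (M - 3))⁻¹) ^ 2 * ∑ T, if S T then ‖At.coef E r T‖ ^ 2 else 0 := by
  obtain ⟨C, hC0, hC⟩ := pk_site_cap B.K hB.a0 (max 100 Ra) M hM (fun k => max 1 (Bb k))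
  refine ⟨C, hC0, fun E t r bs p At hRa hBb hE hG hr j hj0 hj1 S hS ι sO site m hOc hOa hOl hm FR R₁ hR₁ hsep => ?_⟩
  obtain ⟨s1, s2, s3, s4⟩ := an_scales E hE.ε0 hE.ε1 r
  rw [an_c_sup_eq, ← Finset.sum_filter, ← Finset.sum_filter]
  refine hC E.Φ E.ζ hE.phase E.lam (E.rho r) (j.Cr E.ε r) s1 s2 (s4 hr) hj0 hj1 ι At.𝔸 sO site (Finset.univ.filter S)
    (Finset.univ.filter fun T => S T ∧ FR T) At.asite m hOc
    (fun i hi => ((pk_canC_iff _ _).1 (hOa i hi)).mono le_rfl (le_max_left _ _) fun k _ => le_max_left _ _)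
    (fun T hT => ?_) (fun T _ => ?_) ?_ ?_ ?_ R₁ hR₁ ?_ (At.coef E r)
  · rw [hG.time T, hS T (Finset.mem_filter.1 hT).2]
  · have h1 := hG.amp T
    rw [hRa, hBb] at h1
    exact ((pk_ampC_iff _ _ _).1 h1 M).mono le_rfl (le_max_right _ _) fun k _ => le_max_right _ _
  · rw [s3]
    exact hOl
  · rw [s3]
    exact an_c_loc hG j S hS hm
  · intro T hT
    exact Finset.mem_filter.2 ⟨Finset.mem_univ _, (Finset.mem_filter.1 hT).2.1⟩
  · intro i hi T hT hFR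
    rw [s3]
    have hST := (Finset.mem_filter.1 hT).2
    exact hsep i hi T hST fun hF => hFR (Finset.mem_filter.2 ⟨Finset.mem_univ _, hST, hF⟩)

/-- local root masses in absolute coordinates. -/
theorem an_mass_un (E : PEnv) (hε : 0 < E.ε) (r bs Cr : ℝ) (VJ XJ : E2) (h : E2 → ℂ) (s : Site) :
    (E.resc r bs Cr VJ XJ h).m 0 s = mass E.lam (E.rho r) E.Φ h (pkSiteUn s E.ε r bs Cr VJ XJ) := by
  have h1 := pk_resc_mass E r bs Cr VJ XJ h hε r (pkSiteUn s E.ε r bs Cr VJ XJ)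
  rw [sub_self, pk_site_un_resc r bs Cr VJ XJ hε] at h1
  rw [h1]
  rfl

/-- a canonical root test of a local environment, in absolute coordinates. -/
theorem an_root_un (E : PEnv) (hε : 0 < E.ε) (r bs Cr : ℝ) (VJ XJ : E2) (h : E2 → ℂ) (M : ℕ) (T : PTest) (hT : T.IsRoot M (E.resc r bs Cr VJ XJ h)) :
    (∀ i, T.act i → (pkSiteUn (T.site i) E.ε r bs Cr VJ XJ).C = Cr ∧ CanC M (pkSiteUn (T.site i) E.ε r bs Cr VJ XJ).ψ) ∧
    PkLoc (Finset.univ.filter T.act) (fun i => pkSiteUn (T.site i) E.ε r bs Cr VJ XJ) (E.rho r) (E.sig r) 1 := by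
  have hb : 0 < E.ε ^ bs := Real.rpow_pos_of_pos hε bs
  have hr : 0 < E.ε ^ r := Real.rpow_pos_of_pos hε r
  refine ⟨fun i hi => ⟨?_, hT.amp i hi⟩, ?_⟩
  · show Cr + E.ε ^ r * (T.site i).C = Cr
    rw [hT.time i hi, mul_zero, add_zero]
  · intro i hi t hts ht
    have hrho : (E.resc r bs Cr VJ XJ h).rho 0 = E.rho r / E.ε ^ bs := by
      have := pk_resc_rho E r bs Cr VJ XJ h hε r
      rwa [sub_self] at this
    have hsig : E.sig r = E.ε ^ r * E.rho r := (pk_env_scales E hε r).2.2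
    have hia : T.act i := (Finset.mem_filter.1 hi).2
    have key : ∀ j ∈ t, j = i := by
      intro j hj
      by_contra hne
      have hja : T.act j := (Finset.mem_filter.1 (hts hj)).2
      obtain ⟨h1, h2⟩ := ht j hj
      have eV : (pkSiteUn (T.site j) E.ε r bs Cr VJ XJ).V - (pkSiteUn (T.site i) E.ε r bs Cr VJ XJ).V
          = E.ε ^ bs • ((T.site j).V - (T.site i).V) := by
        show VJ + E.ε ^ bs • (T.site j).V - (VJ + E.ε ^ bs • (T.site i).V) = _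
        rw [smul_sub]
        abel
      have eX : (pkSiteUn (T.site j) E.ε r bs Cr VJ XJ).X - (pkSiteUn (T.site i) E.ε r bs Cr VJ XJ).X
          = (E.ε ^ r * E.ε ^ bs) • ((T.site j).X - (T.site i).X) := by
        show XJ + (E.ε ^ r * (T.site j).C) • VJ + (E.ε ^ r * E.ε ^ bs) • (T.site j).X
          - (XJ + (E.ε ^ r * (T.site i).C) • VJ + (E.ε ^ r * E.ε ^ bs) • (T.site i).X) = _
        rw [hT.time i hia, hT.time j hja, smul_sub]
        abel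
      simp only at h1 h2
      rw [eV, norm_smul, Real.norm_eq_abs, abs_of_pos hb] at h1
      rw [eX, norm_smul, Real.norm_eq_abs, abs_of_pos (mul_pos hr hb), hsig] at h2
      rcases hT.sep j i hja hia hne with h3 | h3
      · rw [hrho, div_le_iff₀ hb] at h3
        linarith
      · rw [hrho, div_le_iff₀ hb] at h3
        have h4 : E.ε ^ r * E.rho r ≤ E.ε ^ r * (‖(T.site j).X - (T.site i).X‖ * E.ε ^ bs) :=
          mul_le_mul_of_nonneg_left h3 hr.le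
        nlinarith
    refine Finset.card_le_one.2 fun a ha b hb' => ?_
    rw [key a ha, key b hb']

end Claimed.Agent.R255
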