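import Claimed.Agent.R255.Pk.Defs

/-!
# R255 / Pk / Amp : OPERATIONS ON AMPLITUDE CLASSES      (architect helper91)

All bounds are pointwise Leibniz / chain rule bounds of Mathlib: `norm_iteratedFDeriv_mul_le`, `ContinuousLinearMap.norm_iteratedFDeriv_le_of_bilinear`, `iteratedFDeriv_comp_add_left`,
 `ContinuousLinearMap.iteratedFDeriv_comp_right`, `iteratedFDeriv_const_smul_apply`, `LinearIsometryEquiv.norm_iteratedFDeriv_comp_left` (for `conj`).
`pkLeib b Λ n = ∑_{i ≤ n} C(n,i) b_i Λ_{n-i}`.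
For `pk_amp_mul_cb`: at `z ∈ ball 0 (R+1)` use the Leibniz bound (`Cb.bd`); at `z ∉ closedBall 0 R` the product vanishes in a neighbourhood, so all its derivatives vanish (`Filter.EventuallyEq.iteratedFDeriv`); bounds are `≥ 0`.
-/

set_option autoImplicit false

namespace Claimed.Agent.R255

open MeasureTheory Metric Set Osc
open scoped ContDiff InnerProductSpace ComplexConjugate

/-- the Leibniz combination of two bound sequences -/
noncomputable def pkLeib (b Λ : ℕ → ℝ) (n : ℕ) : ℝ := ∑ i ∈ Finset.range (n + 1), (n.choose i : ℝ) * b i * Λ (n - i)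

variable {M : ℕ} {R : ℝ} {b b' Λ : ℕ → ℝ} {ψ ψ' : E2 → ℂ}

/-- the pointwise Leibniz bound -/
theorem pk_amp_leib {f g : E2 → ℂ} (hf : ContDiff ℝ ∞ f) (hg : ContDiff ℝ ∞ g) {n : ℕ} {z : E2}
    (h1 : ∀ i ≤ n, ‖iteratedFDeriv ℝ i f z‖ ≤ b i) (h2 : ∀ i ≤ n, ‖iteratedFDeriv ℝ i g z‖ ≤ Λ i) :
    ‖iteratedFDeriv ℝ n (fun y => f y * g y) z‖ ≤ pkLeib b Λ n := by
  refine (norm_iteratedFDeriv_mul_le hf hg z (n := n) (by exact_mod_cast le_top)).trans ?_
  refine Finset.sum_le_sum fun i hi => ?_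
  have hi' : i ≤ n := Nat.lt_succ_iff.1 (Finset.mem_range.1 hi)
  have a1 := h1 i hi'
  have a2 := h2 (n - i) (Nat.sub_le n i)
  have a0 : (0 : ℝ) ≤ (n.choose i : ℝ) := Nat.cast_nonneg _
  exact mul_le_mul (mul_le_mul_of_nonneg_left a1 a0) a2 (norm_nonneg _)
    (mul_nonneg a0 ((norm_nonneg _).trans a1))

theorem pk_amp_leib_nonneg {n : ℕ} (h1 : ∀ i ≤ n, 0 ≤ b i) (h2 : ∀ i ≤ n, 0 ≤ Λ i) : 0 ≤ pkLeib b Λ n := by
  refine Finset.sum_nonneg fun i hi => ?_
  have hi' : i ≤ n := Nat.lt_succ_iff.1 (Finset.mem_range.1 hi)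
  exact mul_nonneg (mul_nonneg (Nat.cast_nonneg _) (h1 i hi')) (h2 _ (Nat.sub_le n i))

/-- product with a globally smooth factor which has bounds on a neighbourhood of the support -/
theorem pk_amp_mul_cb (hR : 0 ≤ R) (h : PkAmp M R b ψ) {g : E2 → ℂ} (hg : ContDiff ℝ ∞ g) (hgb : Cb Λ (ball 0 (R + 1)) g) :
    PkAmp M R (pkLeib b Λ) (fun z => ψ z * g z) := by
  refine ⟨h.smooth.mul hg, fun z hz => h.supp z (left_ne_zero_of_mul hz), fun j hj z => ?_⟩
  by_cases hz : z ∈ ball (0 : E2) (R + 1)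
  · exact pk_amp_leib h.smooth hg (fun i hi => h.bound i (hi.trans hj) z) (fun i _ => hgb.bd i z hz)
  · have h1 : z ∉ tsupport ψ := fun h' => by
      have h2 := h.tsupport_subset h'
      rw [mem_closedBall] at h2
      rw [mem_ball] at hz
      linarith
    have h2 : ψ =ᶠ[nhds z] 0 := notMem_tsupport_iff_eventuallyEq.1 h1
    have h3 : (fun z => ψ z * g z) =ᶠ[nhds z] 0 := by
      filter_upwards [h2] with y hy
      rw [hy]
      simp
    rw [(h3.iteratedFDeriv (𝕜 := ℝ) j).self_of_nhds]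
    have h4 : iteratedFDeriv ℝ j (0 : E2 → ℂ) z = 0 := by
      simp
    rw [h4, norm_zero]
    refine pk_amp_leib_nonneg (fun i hi => (norm_nonneg _).trans (h.bound i (hi.trans hj) 0))
      (fun i _ => (norm_nonneg _).trans (hgb.bd i 0 (by
        rw [mem_ball, dist_self]
        linarith)))

/-- product with a smooth factor which has global bounds up to order `M` -/
theorem pk_amp_mul_bdd (h : PkAmp M R b ψ) {g : E2 → ℂ} (hg : ContDiff ℝ ∞ g) (hgb : ∀ j ≤ M, ∀ z, ‖iteratedFDeriv ℝ j g z‖ ≤ Λ j) :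
    PkAmp M R (pkLeib b Λ) (fun z => ψ z * g z) := by
  refine ⟨h.smooth.mul hg, fun z hz => h.supp z (left_ne_zero_of_mul hz), fun j hj z => ?_⟩
  exact pk_amp_leib h.smooth hg (fun i hi => h.bound i (hi.trans hj) z) (fun i hi => hgb i (hi.trans hj) z)

/-- affine reparametrisation `z ↦ u + t z`, `|t| ≤ 1`: the derivative bounds persist -/
theorem pk_amp_affine_bdd {R' : ℝ} (h : PkAmp M R' b ψ) (u : E2) {t : ℝ} (ht : |t| ≤ 1) :
    ContDiff ℝ ∞ (fun z => ψ (u + t • z)) ∧ ∀ j ≤ M, ∀ z, ‖iteratedFDeriv ℝ j (fun z => ψ (u + t • z)) z‖ ≤ b j := by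
  refine ⟨h.smooth.comp (contDiff_const.add (contDiff_id.const_smul t)), fun j hj z => ?_⟩
  have hf : ContDiff ℝ ∞ (fun y => ψ (u + y)) := h.smooth.comp (contDiff_const.add contDiff_id)
  have e := (t • ContinuousLinearMap.id ℝ E2).iteratedFDeriv_comp_right hf z (i := j) (by exact_mod_cast le_top)
  have e' : iteratedFDeriv ℝ j (fun z => ψ (u + t • z)) z
      = (iteratedFDeriv ℝ j (fun y => ψ (u + y)) ((t • ContinuousLinearMap.id ℝ E2) z)).compContinuousLinearMap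
        fun _ => t • ContinuousLinearMap.id ℝ E2 := e
  rw [e']
  refine (ContinuousMultilinearMap.norm_compContinuousLinearMap_le _ _).trans ?_
  rw [iteratedFDeriv_comp_add_left]
  have h1 := h.bound j hj (u + (t • ContinuousLinearMap.id ℝ E2) z)
  have h2 : ‖t • ContinuousLinearMap.id ℝ E2‖ ≤ 1 := by
    rw [norm_smul, Real.norm_eq_abs]
    calc |t| * ‖ContinuousLinearMap.id ℝ E2‖ ≤ 1 * 1 :=
          mul_le_mul ht ContinuousLinearMap.norm_id_le (norm_nonneg _) zero_le_one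
      _ = 1 := one_mul _
  have h3 : ∏ _i : Fin j, ‖t • ContinuousLinearMap.id ℝ E2‖ ≤ 1 :=
    Finset.prod_le_one (fun _ _ => norm_nonneg _) (fun _ _ => h2)
  calc _ ≤ b j * 1 := mul_le_mul h1 h3 (Finset.prod_nonneg fun _ _ => norm_nonneg _) ((norm_nonneg _).trans h1)
    _ = b j := mul_one _

theorem pk_amp_shift (h : PkAmp M R b ψ) (u : E2) : PkAmp M (R + ‖u‖) b (fun z => ψ (u + z)) := by
  refine ⟨h.smooth.comp (contDiff_const.add contDiff_id), fun z hz => ?_, fun j hj z => ?_⟩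
  · have h1 := h.supp _ hz
    have h2 : ‖z‖ ≤ ‖u + z‖ + ‖u‖ := by
      have := norm_sub_le (u + z) u
      rwa [add_sub_cancel_left] at this
    linarith
  · rw [iteratedFDeriv_comp_add_left]
    exact h.bound j hj _

theorem pk_amp_conj (h : PkAmp M R b ψ) : PkAmp M R b (fun z => conj (ψ z)) := by
  refine ⟨Complex.conjCLE.contDiff.comp h.smooth, fun z hz => h.supp z fun h0 => hz (by rw [h0, map_zero]),
    fun j hj z => ?_⟩
  have e := Complex.conjLIE.norm_iteratedFDeriv_comp_left (𝕜 := ℝ) ψ z j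
  have e' : ‖iteratedFDeriv ℝ j (fun z => conj (ψ z)) z‖ = ‖iteratedFDeriv ℝ j ψ z‖ := e
  rw [e']
  exact h.bound j hj z

theorem pk_amp_smul (h : PkAmp M R b ψ) (t : ℂ) : PkAmp M R (fun j => ‖t‖ * b j) (fun z => t * ψ z) := by
  refine ⟨contDiff_const.mul h.smooth, fun z hz => h.supp z (right_ne_zero_of_mul hz), fun j hj z => ?_⟩
  have e : iteratedFDeriv ℝ j (fun z => t * ψ z) z
      = (ContinuousLinearMap.mul ℝ ℂ t).compContinuousMultilinearMap (iteratedFDeriv ℝ j ψ z) :=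
    (ContinuousLinearMap.mul ℝ ℂ t).iteratedFDeriv_comp_left (h.smooth.contDiffAt.of_le (by exact_mod_cast le_top)) le_rfl
  rw [e]
  refine ((ContinuousLinearMap.mul ℝ ℂ t).norm_compContinuousMultilinearMap_le _).trans ?_
  rw [ContinuousLinearMap.opNorm_mul_apply]
  exact mul_le_mul_of_nonneg_left (h.bound j hj z) (norm_nonneg _)

/-- every amplitude is a fixed multiple of a canonical one (D4). -/
theorem pk_amp_to_can (h : PkAmp M R b ψ) {B : ℝ} (hB : 0 < B) (hb : ∀ j ≤ M, b j ≤ B) :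
    PkAmp M R (fun _ => 1) (fun z => ((B⁻¹ : ℝ) : ℂ) * ψ z) := by
  refine (pk_amp_smul h ((B⁻¹ : ℝ) : ℂ)).mono le_rfl le_rfl fun j hj => ?_
  rw [Complex.norm_real, Real.norm_eq_abs, abs_of_pos (inv_pos.2 hB)]
  calc B⁻¹ * b j ≤ B⁻¹ * B := mul_le_mul_of_nonneg_left (hb j hj) (inv_pos.2 hB).le
    _ = 1 := inv_mul_cancel₀ hB.ne'

/-- a real smooth function with `Cb` bounds and support in the ball is an amplitude -/
theorem pk_amp_of_cb {χ : E2 → ℝ} (hs : ContDiff ℝ ∞ χ) (hχ : Cb Λ univ χ) (hsupp : ∀ z, χ z ≠ 0 → ‖z‖ ≤ R) (M : ℕ) :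
    PkAmp M R Λ (fun z => ((χ z : ℝ) : ℂ)) := by
  refine ⟨Complex.ofRealCLM.contDiff.comp hs, fun z hz => hsupp z fun h0 => hz (by rw [h0, Complex.ofReal_zero]),
    fun j _ z => (hχ.ofReal isOpen_univ).bd j z (mem_univ z)⟩

end Claimed.Agent.R255
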