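import Claimed.Agent.R255.Pk.Fourier

/-!
# R255 / Pk / FourierSq : TOOL T6, second half = from the unit cube of `Fin 2 → ℝ` to the square `pkCube V l` of `E2`      (architect helper91)

Black box: `pk_fourier_unit_pair` (`Fourier.lean`, with `a i = -1/2`).   Plan: header of `Fourier.lean` (affine change of variables `x = (v - V)/l`; `Fin 2 → ℤ ≃ ℤ × ℤ`).
`pk_fourier_parseval` = `pk_fourier_pair` with `G = conj H` (`HasSum.congr`/`ofReal` : `z * conj z = ‖z‖²`).
-/

set_option autoImplicit false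

namespace Claimed.Agent.R255

open MeasureTheory Set Osc
open scoped ComplexConjugate

/-- the affine chart `x ↦ V + l x` -/
noncomputable def pkAff (V : E2) (l : ℝ) (x : Fin 2 → ℝ) : E2 := V + l • (WithLp.toLp 2 x : E2)

theorem pk_aff_apply (V : E2) (l : ℝ) (x : Fin 2 → ℝ) (i : Fin 2) : pkAff V l x i = V i + l * x i := by
  unfold pkAff
  simp

theorem pk_aff_emb (V : E2) {l : ℝ} (hl : 0 < l) : MeasurableEmbedding (pkAff V l) := by
  have h1 : MeasurableEmbedding (fun x : Fin 2 → ℝ => (WithLp.toLp 2 x : E2)) :=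
    (MeasurableEquiv.toLp 2 (Fin 2 → ℝ)).measurableEmbedding
  have h2 : MeasurableEmbedding (fun w : E2 => l • w) := measurableEmbedding_const_smul₀ hl.ne'
  have h3 : MeasurableEmbedding (fun w : E2 => V + w) := measurableEmbedding_addLeft V
  exact h3.comp (h2.comp h1)

theorem pk_aff_map (V : E2) {l : ℝ} (hl : 0 < l) :
    Measure.map (pkAff V l) volume = ENNReal.ofReal ((l ^ 2)⁻¹) • (volume : Measure E2) := by
  have h1 : Measurable (fun x : Fin 2 → ℝ => (WithLp.toLp 2 x : E2)) :=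
    (MeasurableEquiv.toLp 2 (Fin 2 → ℝ)).measurable
  have h2 : Measurable (fun w : E2 => l • w) := measurable_const_smul l
  have h3 : Measurable (fun w : E2 => V + w) := measurable_const_add V
  have e : pkAff V l = (fun w : E2 => V + w) ∘ (fun w : E2 => l • w) ∘
      (fun x : Fin 2 → ℝ => (WithLp.toLp 2 x : E2)) := rfl
  rw [e, ← Measure.map_map h3 (h2.comp h1), ← Measure.map_map h2 h1,
    (PiLp.volume_preserving_toLp (Fin 2)).map_eq, Measure.map_addHaar_smul _ hl.ne', Measure.map_smul,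
    map_add_left_eq_self]
  congr 2
  rw [finrank_euclideanSpace_fin, abs_of_pos (by positivity)]

theorem pk_aff_preimage (V : E2) {l : ℝ} (hl : 0 < l) :
    pkAff V l ⁻¹' pkCube V l = {x : Fin 2 → ℝ | ∀ i, x i ∈ Ioc (-(1 / 2) : ℝ) (-(1 / 2) + 1)} := by
  ext x
  unfold pkCube
  simp only [mem_preimage, mem_ofPred_eq, pk_aff_apply, mem_Ioc]
  refine forall_congr' fun i => ?_
  constructor
  · rintro ⟨h1, h2⟩
    constructor
    · by_contra hc
      have : l * x i ≤ l * (-(1 / 2)) := mul_le_mul_of_nonneg_left (not_lt.1 hc) hl.le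
      linarith
    · by_contra hc
      have : l * (-(1 / 2) + 1) < l * x i := mul_lt_mul_of_pos_left (not_le.1 hc) hl
      linarith
  · rintro ⟨h1, h2⟩
    constructor
    · have : l * (-(1 / 2)) < l * x i := mul_lt_mul_of_pos_left h1 hl
      linarith
    · have : l * x i ≤ l * (-(1 / 2) + 1) := mul_le_mul_of_nonneg_left h2 hl.le
      linarith

theorem pk_aff_restrict (V : E2) {l : ℝ} (hl : 0 < l) :
    Measure.map (pkAff V l) (volume.restrict {x : Fin 2 → ℝ | ∀ i, x i ∈ Ioc (-(1 / 2) : ℝ) (-(1 / 2) + 1)})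
      = ENNReal.ofReal ((l ^ 2)⁻¹) • (volume.restrict (pkCube V l) : Measure E2) := by
  rw [← pk_aff_preimage V hl, ← (pk_aff_emb V hl).restrict_map, pk_aff_map V hl, Measure.restrict_smul]

theorem pk_aff_integral (V : E2) {l : ℝ} (hl : 0 < l) (F : E2 → ℂ) :
    ∫ x in {x : Fin 2 → ℝ | ∀ i, x i ∈ Ioc (-(1 / 2) : ℝ) (-(1 / 2) + 1)}, F (pkAff V l x)
      = (((l ^ 2)⁻¹ : ℝ) : ℂ) * ∫ v in pkCube V l, F v := by
  rw [← (pk_aff_emb V hl).integral_map, pk_aff_restrict V hl, integral_smul_measure,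
    ENNReal.toReal_ofReal (by positivity), Complex.real_smul]

theorem pk_aff_memLp (V : E2) {l : ℝ} (hl : 0 < l) (H : E2 → ℂ) (hH : MemLp H 2 (volume.restrict (pkCube V l))) :
    MemLp (fun x => H (pkAff V l x)) 2
      (volume.restrict {x : Fin 2 → ℝ | ∀ i, x i ∈ Ioc (-(1 / 2) : ℝ) (-(1 / 2) + 1)}) := by
  have h1 : MemLp H 2 (ENNReal.ofReal ((l ^ 2)⁻¹) • (volume.restrict (pkCube V l) : Measure E2)) :=
    hH.smul_measure ENNReal.ofReal_ne_top
  rw [← pk_aff_restrict V hl, (pk_aff_emb V hl).memLp_map_measure_iff] at h1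
  exact h1

theorem pk_aff_dot (V : E2) {l : ℝ} (hl : 0 < l) (n : Fin 2 → ℤ) (x : Fin 2 → ℝ) :
    2 * Real.pi * pkDot (n 0, n 1) (pkAff V l x - V) / l = 2 * Real.pi * ∑ i, n i * x i := by
  unfold pkDot
  have e0 : (pkAff V l x - V) 0 = l * x 0 := by
    have := pk_aff_apply V l x 0
    simp only [PiLp.sub_apply, this]
    ring
  have e1 : (pkAff V l x - V) 1 = l * x 1 := by
    have := pk_aff_apply V l x 1
    simp only [PiLp.sub_apply, this]
    ring
  rw [e0, e1, Fin.sum_univ_two]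
  field_simp

theorem pk_mode_conj (V : E2) (l : ℝ) (n : ℤ × ℤ) (v : E2) :
    conj (pkMode V l n v) = ((l⁻¹ : ℝ) : ℂ) * Complex.exp (-(Complex.I * ((2 * Real.pi * pkDot n (v - V) / l : ℝ) : ℂ))) := by
  unfold pkMode
  rw [map_mul, Complex.conj_ofReal, ← Complex.exp_conj, map_mul, Complex.conj_I, Complex.conj_ofReal, neg_mul]

theorem pk_cube_measurable (V : E2) (l : ℝ) : MeasurableSet (pkCube V l) := by
  unfold pkCube
  have hm : ∀ i : Fin 2, Measurable fun v : E2 => v i - V i := fun i =>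
    ((EuclideanSpace.proj i : E2 →L[ℝ] ℝ).continuous.measurable).sub_const _
  have e : {v : E2 | ∀ i, -(l / 2) < v i - V i ∧ v i - V i ≤ l / 2}
      = ⋂ i, ({v : E2 | -(l / 2) < v i - V i} ∩ {v : E2 | v i - V i ≤ l / 2}) := by
    ext v
    simp only [mem_ofPred_eq, mem_iInter, mem_inter_iff]
  rw [e]
  exact MeasurableSet.iInter fun i =>
    (measurableSet_lt measurable_const (hm i)).inter (measurableSet_le (hm i) measurable_const)

theorem pk_mode_norm (V : E2) {l : ℝ} (hl : 0 < l) (n : ℤ × ℤ) (v : E2) : ‖pkMode V l n v‖ = l⁻¹ := by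
  unfold pkMode
  rw [norm_mul, Complex.norm_real, mul_comm Complex.I, Complex.norm_exp_ofReal_mul_I, mul_one,
    Real.norm_eq_abs, abs_of_pos (by positivity)]

/-- **T6a**: bilinear Parseval on the square. -/
theorem pk_fourier_pair (V : E2) {l : ℝ} (hl : 0 < l) (H G : E2 → ℂ) (hH : MemLp H 2 (volume.restrict (pkCube V l)))
    (hG : MemLp G 2 (volume.restrict (pkCube V l))) :
    HasSum (fun n : ℤ × ℤ => (∫ v in pkCube V l, H v * conj (pkMode V l n v)) * (∫ v in pkCube V l, pkMode V l n v * G v))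
      (∫ v in pkCube V l, H v * G v) := by
  have hlC : ((l : ℝ) : ℂ) ≠ 0 := by exact_mod_cast hl.ne'
  have key := pk_fourier_unit_pair (fun _ => -(1 / 2)) (fun x => H (pkAff V l x)) (fun x => G (pkAff V l x))
    (pk_aff_memLp V hl H hH) (pk_aff_memLp V hl G hG)
  have e_tot := pk_aff_integral V hl fun v => H v * G v
  have e_H : ∀ n : Fin 2 → ℤ,
      ∫ x in {x : Fin 2 → ℝ | ∀ i, x i ∈ Ioc (-(1 / 2) : ℝ) (-(1 / 2) + 1)},
        H (pkAff V l x) * Complex.exp (-(Complex.I * ((2 * Real.pi * ∑ i, n i * x i : ℝ) : ℂ)))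
      = ((l⁻¹ : ℝ) : ℂ) * ∫ v in pkCube V l, H v * conj (pkMode V l (n 0, n 1) v) := by
    intro n
    have h1 := pk_aff_integral V hl fun v => H v * ((l : ℂ) * conj (pkMode V l (n 0, n 1) v))
    simp only [pk_mode_conj, pk_aff_dot V hl] at h1
    have h2 : ∀ x : Fin 2 → ℝ, H (pkAff V l x) * ((l : ℂ) * (((l⁻¹ : ℝ) : ℂ) *
        Complex.exp (-(Complex.I * ((2 * Real.pi * ∑ i, n i * x i : ℝ) : ℂ)))))
        = H (pkAff V l x) * Complex.exp (-(Complex.I * ((2 * Real.pi * ∑ i, n i * x i : ℝ) : ℂ))) := by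
      intro x
      push_cast
      field_simp
    simp only [h2] at h1
    rw [h1]
    simp only [pk_mode_conj]
    have h3 : ∀ v : E2, H v * ((l : ℂ) * (((l⁻¹ : ℝ) : ℂ) *
        Complex.exp (-(Complex.I * ((2 * Real.pi * pkDot (n 0, n 1) (v - V) / l : ℝ) : ℂ)))))
        = (l : ℂ) * (H v * (((l⁻¹ : ℝ) : ℂ) *
        Complex.exp (-(Complex.I * ((2 * Real.pi * pkDot (n 0, n 1) (v - V) / l : ℝ) : ℂ))))) := by
      intro v
      ring
    simp only [h3]
    rw [integral_const_mul, ← mul_assoc]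
    congr 1
    push_cast
    field_simp
  have e_G : ∀ n : Fin 2 → ℤ,
      ∫ x in {x : Fin 2 → ℝ | ∀ i, x i ∈ Ioc (-(1 / 2) : ℝ) (-(1 / 2) + 1)},
        Complex.exp (Complex.I * ((2 * Real.pi * ∑ i, n i * x i : ℝ) : ℂ)) * G (pkAff V l x)
      = ((l⁻¹ : ℝ) : ℂ) * ∫ v in pkCube V l, pkMode V l (n 0, n 1) v * G v := by
    intro n
    have h1 := pk_aff_integral V hl fun v => (l : ℂ) * (pkMode V l (n 0, n 1) v * G v)
    simp only [pkMode, pk_aff_dot V hl] at h1
    have h2 : ∀ x : Fin 2 → ℝ, (l : ℂ) * (((l⁻¹ : ℝ) : ℂ) *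
        Complex.exp (Complex.I * ((2 * Real.pi * ∑ i, n i * x i : ℝ) : ℂ)) * G (pkAff V l x))
        = Complex.exp (Complex.I * ((2 * Real.pi * ∑ i, n i * x i : ℝ) : ℂ)) * G (pkAff V l x) := by
      intro x
      push_cast
      field_simp
    simp only [h2] at h1
    rw [h1, integral_const_mul, ← mul_assoc]
    simp only [pkMode]
    congr 1
    push_cast
    field_simp
  simp only [e_H, e_G, e_tot] at key
  have key2 := key.mul_left (((l ^ 2 : ℝ)) : ℂ)
  have e1 : (((l ^ 2 : ℝ)) : ℂ) * ((((l ^ 2)⁻¹ : ℝ) : ℂ) * ∫ v in pkCube V l, H v * G v)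
      = ∫ v in pkCube V l, H v * G v := by
    rw [← mul_assoc]
    push_cast
    field_simp
  rw [e1] at key2
  rw [← (finTwoArrowEquiv ℤ).hasSum_iff]
  refine key2.congr_fun fun n => ?_
  have en : (finTwoArrowEquiv ℤ) n = (n 0, n 1) := rfl
  simp only [Function.comp, en]
  push_cast
  field_simp

/-- **T6b**: Parseval on the square. -/
theorem pk_fourier_parseval (V : E2) {l : ℝ} (hl : 0 < l) (H : E2 → ℂ) (hH : MemLp H 2 (volume.restrict (pkCube V l))) :
    HasSum (fun n : ℤ × ℤ => ‖∫ v in pkCube V l, H v * conj (pkMode V l n v)‖ ^ 2) (∫ v in pkCube V l, ‖H v‖ ^ 2) := by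
  have hc : MemLp (fun v => conj (H v)) 2 (volume.restrict (pkCube V l)) := hH.star
  have key := pk_fourier_pair V hl H (fun v => conj (H v)) hH hc
  rw [← Complex.hasSum_ofReal]
  have e_tot : ∫ v in pkCube V l, H v * conj (H v) = ((∫ v in pkCube V l, ‖H v‖ ^ 2 : ℝ) : ℂ) := by
    rw [← integral_complex_ofReal]
    refine integral_congr_ae (Filter.Eventually.of_forall fun v => ?_)
    simp only
    rw [Complex.mul_conj, Complex.normSq_eq_norm_sq]
  rw [e_tot] at key
  refine key.congr_fun fun n => ?_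
  have e1 : ∫ v in pkCube V l, pkMode V l n v * conj (H v)
      = conj (∫ v in pkCube V l, H v * conj (pkMode V l n v)) := by
    rw [← integral_conj]
    refine integral_congr_ae (Filter.Eventually.of_forall fun v => ?_)
    simp only
    rw [map_mul, Complex.conj_conj, mul_comm]
  rw [e1, Complex.mul_conj, Complex.normSq_eq_norm_sq]

end Claimed.Agent.R255
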