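import Claimed.Agent.R255.Pk.Amp
import Claimed.Agent.R255.Pk.NspMain

/-!
# R255 / Pk / Gram : BR (9.gram) = DECAY OF THE GRAM MATRIX OF PACKETS AT EQUAL TIME AND SCALE      (architect helper91)

`∫ pkt(V,X,ψ) conj pkt(V',X',ψ') dv = ∫ ψ(z) conj ψ'(z + (V-V')/ρ) e^{i pkPh lam Φ V ρ c c X X' z} dz`   (`v = V + ρ z`, `pk_integral_scale`).
PLAN of `pk_gram_z`: `t = λρ|X-X'|`.  If `t ≤ 1`: trivial bound.  Otherwise `pk_nsp` with `Ω = ball 0 (R+1)`, `S = closedBall 0 R`, `e = sg (X-X')/|X-X'|`, `m = a0 t`: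
  `∂_e φ = λρ ⟪pkD z, e⟫ ≥ m` (`pk_ph_fderiv`, `pk_D_mono`), `Cb` bounds of `z ↦ λρ ⟪pkD z, e⟫` from `pk_D_cb` (`c = c'`: `w = X - X'`, `|c-c'| = 0`, `ρ ≤ 1`) and `Cb.clm_post (innerSL ℝ e)`: `≤ A'_j λρ|X-X'| = (A'_j/a0) m`.
-/

set_option autoImplicit false

namespace Claimed.Agent.R255

open MeasureTheory Metric Set Osc
open scoped ContDiff InnerProductSpace ComplexConjugate

/-- the change of variables `v = V + ρ z`, general values. -/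
theorem pk_integral_scale_gen {G : Type} [NormedAddCommGroup G] [NormedSpace ℝ G] (F : E2 → G) (V : E2) {ρ : ℝ} (hρ : 0 < ρ) :
    ∫ v, F v = (ρ ^ 2) • ∫ z, F (V + ρ • z) := by
  have h1 := Measure.integral_comp_smul (volume : Measure E2) (fun y => F (V + y)) ρ
  have h2 : ∫ y, F (V + y) = ∫ v, F v := integral_add_left_eq_self F V
  have h3 : Module.finrank ℝ E2 = 2 := by simp
  rw [h2, h3, abs_of_pos (inv_pos.2 (pow_pos hρ 2))] at h1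
  rw [h1, smul_smul, mul_inv_cancel₀ (pow_pos hρ 2).ne', one_smul]

/-- the change of variables `v = V + ρ z`. -/
theorem pk_integral_scale (F : E2 → ℂ) (V : E2) {ρ : ℝ} (hρ : 0 < ρ) : ∫ v, F v = ((ρ ^ 2 : ℝ) : ℂ) * ∫ z, F (V + ρ • z) := by
  rw [pk_integral_scale_gen F V hρ, Complex.real_smul]

/-- Gram decay in packet coordinates. -/
theorem pk_gram_z (K : OscBd) (h0 : 0 < K.a0) (cmax R : ℝ) (M : ℕ) (b : ℕ → ℝ) : ∃ C : ℝ, 0 ≤ C ∧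
    ∀ (Φ : ℝ → E2 → E2 → ℝ) (ζ : E2 → E2 → E2), IsPhase K Φ ζ → ∀ (lam ρ c : ℝ) (V X X' : E2) (a : E2 → ℂ), 0 < lam → 0 < ρ → ρ ≤ 1 →
      0 ≤ c → c ≤ cmax → PkAmp M R b a →
      ‖∫ z, a z * Complex.exp (Complex.I * ((pkPh lam Φ V ρ c c X X' z : ℝ) : ℂ))‖ ≤ C * ((1 + lam * ρ * ‖X - X'‖) ^ M)⁻¹ := by
  obtain ⟨A', hA'0, hA'⟩ := pk_D_cb K cmax (R + 1)
  obtain ⟨C₁, hC₁0, hC₁⟩ := pk_nsp (E := E2) volume M b (fun j => A' j / K.a0)
  obtain ⟨vol, hvol⟩ : ∃ vol : ℝ, vol = (volume (closedBall (0 : E2) R)).toReal := ⟨_, rfl⟩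
  have hvol0 : 0 ≤ vol := by rw [hvol]; exact ENNReal.toReal_nonneg
  refine ⟨(C₁ * (K.a0 ^ M)⁻¹ + |b 0|) * 2 ^ M * vol, by positivity, ?_⟩
  intro Φ ζ h lam ρ c V X X' a hlam hρ hρ1 hc hcm ha
  obtain ⟨t, ht⟩ : ∃ t : ℝ, t = lam * ρ * ‖X - X'‖ := ⟨_, rfl⟩
  rw [← ht]
  have ht0 : 0 ≤ t := by rw [ht]; positivity
  have hpow : 0 < (1 + t) ^ M := by positivity
  rcases le_or_gt t 1 with ht1 | ht1
  · -- trivial bound
    have h1 := pk_nsp_base (volume : Measure E2) (φ := pkPh lam Φ V ρ c c X X')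
      (isCompact_closedBall (0 : E2) R) ha.tsupport_subset (B := |b 0|)
      (fun z => (ha.norm_le z).trans (le_abs_self _))
    rw [← hvol] at h1
    refine h1.trans ?_
    rw [← div_eq_mul_inv, le_div_iff₀ hpow]
    have h2 : (1 + t) ^ M ≤ 2 ^ M := pow_le_pow_left₀ (by linarith) (by linarith) M
    have h3 : |b 0| * vol * (1 + t) ^ M ≤ |b 0| * vol * 2 ^ M :=
      mul_le_mul_of_nonneg_left h2 (by positivity)
    have h4 : 0 ≤ C₁ * (K.a0 ^ M)⁻¹ * 2 ^ M * vol := by positivity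
    nlinarith [h3, h4]
  · have hd : 0 < ‖X - X'‖ := by
      by_contra hcon
      have : ‖X - X'‖ = 0 := le_antisymm (not_lt.1 hcon) (norm_nonneg _)
      rw [this, mul_zero] at ht
      linarith
    obtain ⟨e, he⟩ : ∃ e : E2, e = (pkSg h * ‖X - X'‖⁻¹) • (X - X') := ⟨_, rfl⟩
    have hen : ‖e‖ = 1 := by
      rw [he, norm_smul, Real.norm_eq_abs, abs_mul, pk_sg_abs, one_mul, abs_of_pos (inv_pos.2 hd),
        inv_mul_cancel₀ hd.ne']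
    have hm : 0 < K.a0 * t := by positivity
    have hΩ : IsOpen (ball (0 : E2) (R + 1)) := isOpen_ball
    have hfd : ∀ z, fderiv ℝ (pkPh lam Φ V ρ c c X X') z e
        = (lam * ρ) • (innerSL ℝ e (pkD ζ V ρ c c X X' z)) := by
      intro z
      rw [pk_ph_fderiv h lam V X X' ρ hc hc z e, innerSL_apply_apply, real_inner_comm, smul_eq_mul]
    have hlow : ∀ z ∈ ball (0 : E2) (R + 1), K.a0 * t ≤ fderiv ℝ (pkPh lam Φ V ρ c c X X') z e := by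
      intro z _
      rw [pk_ph_fderiv h lam V X X' ρ hc hc z e, he, inner_smul_right]
      have h1 := pk_D_mono h V X X' ρ c z
      have h2 : K.a0 * ‖X - X'‖ ≤ pkSg h * ‖X - X'‖⁻¹ * ⟪pkD ζ V ρ c c X X' z, X - X'⟫_ℝ := by
        have h3 := mul_le_mul_of_nonneg_left h1 (inv_pos.2 hd).le
        have e1 : ‖X - X'‖⁻¹ * (K.a0 * ‖X - X'‖ ^ 2) = K.a0 * ‖X - X'‖ := by
          field_simp
        rw [e1] at h3
        refine h3.trans (le_of_eq ?_)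
        ring
      have h4 := mul_le_mul_of_nonneg_left h2 (mul_pos hlam hρ).le
      rw [ht]
      refine le_trans (le_of_eq ?_) h4
      ring
    have hcb : Cb (fun j => A' j / K.a0 * (K.a0 * t)) (ball (0 : E2) (R + 1))
        (fun z => fderiv ℝ (pkPh lam Φ V ρ c c X X') z e) := by
      have habs : |c| ≤ cmax := by rw [abs_of_nonneg hc]; exact hcm
      have h1 := hA' Φ ζ h V X X' ρ c c hρ hρ1 habs habs
      have h2 := ((h1.clm_post hΩ (innerSL ℝ e)).const_smul hΩ (lam * ρ))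
      refine (h2.congr hΩ fun z _ => hfd z).mono subset_rfl fun j => ?_
      show |lam * ρ| * (‖innerSL ℝ e‖ * _) ≤ _
      rw [innerSL_apply_norm, hen, one_mul, abs_of_pos (mul_pos hlam hρ)]
      have e2 : A' j / K.a0 * (K.a0 * t) = lam * ρ * (A' j * ‖X - X'‖) := by
        rw [ht]
        field_simp
      rw [e2]
      refine mul_le_mul_of_nonneg_left ?_ (mul_pos hlam hρ).le
      simp only [sub_self, zero_smul, sub_zero, abs_zero, zero_mul, add_zero]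
      split_ifs with hj
      · rw [hj]
      · have h5 : A' j * ρ ≤ A' j := by
          have := mul_le_mul_of_nonneg_left hρ1 (hA'0 j)
          rwa [mul_one] at this
        exact mul_le_mul_of_nonneg_right h5 hd.le
    have h6 := hC₁ (ball 0 (R + 1)) (closedBall 0 R) a (pkPh lam Φ V ρ c c X X') e (K.a0 * t) hΩ
      (isCompact_closedBall _ _) (closedBall_subset_ball (by linarith)) hen.le hm ha.smooth
      ha.tsupport_subset ha.bound (pk_ph_smooth h lam V X X' ρ hc hc).contDiffOn hlow hcb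
    rw [← hvol] at h6
    refine h6.trans ?_
    rw [← div_eq_mul_inv _ ((1 + t) ^ M), le_div_iff₀ hpow, mul_pow, mul_inv]
    have h7 : (1 + t) ^ M ≤ 2 ^ M * t ^ M := by
      rw [← mul_pow]
      exact pow_le_pow_left₀ (by linarith) (by linarith) M
    have htM : 0 < t ^ M := by positivity
    have h8 : (t ^ M)⁻¹ * (1 + t) ^ M ≤ 2 ^ M := by
      rw [inv_mul_le_iff₀ htM]
      linarith
    have h9 : C₁ * (K.a0 ^ M)⁻¹ * vol * ((t ^ M)⁻¹ * (1 + t) ^ M) ≤ C₁ * (K.a0 ^ M)⁻¹ * vol * 2 ^ M :=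
      mul_le_mul_of_nonneg_left h8 (by positivity)
    have h10 : 0 ≤ |b 0| * 2 ^ M * vol := by positivity
    nlinarith [h9, h10]

variable {K : OscBd} {Φ : ℝ → E2 → E2 → ℝ} {ζ : E2 → E2 → E2}

/-- packets are continuous with compact support. -/
theorem pk_pkt_continuous (h : IsPhase K Φ ζ) {M : ℕ} {R : ℝ} {b : ℕ → ℝ} {ψ : E2 → ℂ} (hψ : PkAmp M R b ψ) (lam ρ : ℝ) {c : ℝ} (hc : 0 ≤ c)
    (V X : E2) : Continuous (pkt lam Φ c ρ V X ψ) := by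
  have h1 : Continuous fun v => Φ c X v :=
    continuous_iff_continuousAt.2 fun v => (h.grad c hc X v).hasFDerivAt.continuousAt
  have h2 : Continuous ψ := hψ.smooth.continuous
  show Continuous fun v => ((ρ⁻¹ : ℝ) : ℂ) * ψ (ρ⁻¹ • (v - V)) * Complex.exp (Complex.I * ((lam * Φ c X v : ℝ) : ℂ))
  fun_prop

theorem pk_pkt_supp {M : ℕ} {R : ℝ} {b : ℕ → ℝ} {ψ : E2 → ℂ} (hψ : PkAmp M R b ψ) (lam : ℝ) {ρ : ℝ} (hρ : 0 < ρ) (c : ℝ) (V X v : E2)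
    (hv : pkt lam Φ c ρ V X ψ v ≠ 0) : ‖v - V‖ ≤ R * ρ := by
  have h1 : ψ (ρ⁻¹ • (v - V)) ≠ 0 := right_ne_zero_of_mul (left_ne_zero_of_mul hv)
  have h2 := hψ.supp _ h1
  rw [norm_smul, Real.norm_eq_abs, abs_of_pos (inv_pos.2 hρ), ← div_eq_inv_mul, div_le_iff₀ hρ] at h2
  exact h2

theorem pk_pkt_memLp (h : IsPhase K Φ ζ) {M : ℕ} {R : ℝ} {b : ℕ → ℝ} {ψ : E2 → ℂ} (hψ : PkAmp M R b ψ) (lam : ℝ) {ρ : ℝ} (hρ : 0 < ρ) {c : ℝ}
    (hc : 0 ≤ c) (V X : E2) : MemLp (pkt lam Φ c ρ V X ψ) 2 volume := by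
  refine (pk_pkt_continuous h hψ lam ρ hc V X).memLp_of_hasCompactSupport ?_
  refine HasCompactSupport.intro (isCompact_closedBall V (R * ρ)) fun v hv => ?_
  by_contra h0
  exact hv (by
    rw [mem_closedBall, dist_eq_norm]
    exact pk_pkt_supp hψ lam hρ c V X v h0)

/-- the packet in packet coordinates. -/
theorem pk_pkt_scale (lam : ℝ) {ρ : ℝ} (hρ : 0 < ρ) (c : ℝ) (V V' X : E2) (ψ : E2 → ℂ) (z : E2) :
    pkt lam Φ c ρ V' X ψ (V + ρ • z)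
      = ((ρ⁻¹ : ℝ) : ℂ) * ψ (ρ⁻¹ • (V - V') + z) * Complex.exp (Complex.I * ((lam * Φ c X (V + ρ • z) : ℝ) : ℂ)) := by
  have e : ρ⁻¹ • (V + ρ • z - V') = ρ⁻¹ • (V - V') + z := by
    rw [add_sub_right_comm, smul_add, smul_smul, inv_mul_cancel₀ hρ.ne', one_smul]
  show ((ρ⁻¹ : ℝ) : ℂ) * ψ (ρ⁻¹ • (V + ρ • z - V')) * _ = _
  rw [e]

/-- `‖pkt‖₂² = ‖ψ‖₂² ≤ b₀² |B_R|`. -/
theorem pk_pkt_norm_sq {M : ℕ} {R : ℝ} {b : ℕ → ℝ} {ψ : E2 → ℂ} (hψ : PkAmp M R b ψ) (lam : ℝ) {ρ : ℝ} (hρ : 0 < ρ) (c : ℝ) (V X : E2) :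
    ∫ v, ‖pkt lam Φ c ρ V X ψ v‖ ^ 2 ≤ b 0 ^ 2 * (volume (closedBall (0 : E2) R)).toReal := by
  rw [pk_integral_scale_gen _ V hρ]
  have e : ∀ z, ‖pkt lam Φ c ρ V X ψ (V + ρ • z)‖ ^ 2 = (ρ ^ 2)⁻¹ * ‖ψ z‖ ^ 2 := by
    intro z
    rw [pk_pkt_scale lam hρ, sub_self, smul_zero, zero_add, norm_mul, norm_mul, mul_comm Complex.I,
      Complex.norm_exp_ofReal_mul_I, mul_one, Complex.norm_real, Real.norm_eq_abs, abs_of_pos (inv_pos.2 hρ), mul_pow,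
      inv_pow]
  simp only [e]
  rw [integral_const_mul, smul_eq_mul, ← mul_assoc, mul_inv_cancel₀ (pow_pos hρ 2).ne', one_mul]
  have h1 : ∫ z, ‖ψ z‖ ^ 2 = ∫ z in closedBall (0 : E2) R, ‖ψ z‖ ^ 2 := by
    refine (setIntegral_eq_integral_of_forall_compl_eq_zero fun z hz => ?_).symm
    have h0 : ψ z = 0 := by
      by_contra h
      exact hz (by simpa using hψ.supp z h)
    rw [h0]
    simp
  rw [h1]
  refine (le_abs_self _).trans ?_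
  rw [← Real.norm_eq_abs]
  refine norm_setIntegral_le_of_norm_le_const (isCompact_closedBall (0 : E2) R).measure_lt_top fun z _ => ?_
  rw [Real.norm_eq_abs, abs_of_nonneg (by positivity)]
  exact pow_le_pow_left₀ (norm_nonneg _) (hψ.norm_le z) 2

/-- the Gram entry in packet coordinates. -/
theorem pk_gram_eq (lam : ℝ) {ρ : ℝ} (hρ : 0 < ρ) (c c' : ℝ) (V V' X X' : E2) (ψ ψ' : E2 → ℂ) :
    ∫ v, pkt lam Φ c ρ V X ψ v * conj (pkt lam Φ c' ρ V' X' ψ' v)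
      = ∫ z, (ψ z * conj (ψ' (ρ⁻¹ • (V - V') + z))) * Complex.exp (Complex.I * ((pkPh lam Φ V ρ c c' X X' z : ℝ) : ℂ)) := by
  rw [pk_integral_scale _ V hρ, ← integral_const_mul]
  refine integral_congr_ae (Filter.Eventually.of_forall fun z => ?_)
  show ((ρ ^ 2 : ℝ) : ℂ) * (pkt lam Φ c ρ V X ψ (V + ρ • z) * conj (pkt lam Φ c' ρ V' X' ψ' (V + ρ • z)))
    = (ψ z * conj (ψ' (ρ⁻¹ • (V - V') + z))) * Complex.exp (Complex.I * ((pkPh lam Φ V ρ c c' X X' z : ℝ) : ℂ))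
  rw [pk_pkt_scale lam hρ, pk_pkt_scale lam hρ, sub_self, smul_zero, zero_add, map_mul, map_mul, Complex.conj_ofReal,
    ← Complex.exp_conj, map_mul, Complex.conj_I, Complex.conj_ofReal]
  have e : Complex.exp (Complex.I * ((pkPh lam Φ V ρ c c' X X' z : ℝ) : ℂ))
      = Complex.exp (Complex.I * ((lam * Φ c X (V + ρ • z) : ℝ) : ℂ))
        * Complex.exp (-Complex.I * ((lam * Φ c' X' (V + ρ • z) : ℝ) : ℂ)) := by
    rw [← Complex.exp_add]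
    congr 1
    show Complex.I * ((lam * (Φ c X (V + ρ • z) - Φ c' X' (V + ρ • z)) : ℝ) : ℂ) = _
    push_cast
    ring
  rw [e]
  have hρ' : (ρ : ℂ) ≠ 0 := Complex.ofReal_ne_zero.2 hρ.ne'
  push_cast
  field_simp

/-- **BR (9.gram)**. -/
theorem pk_gram (K : OscBd) (h0 : 0 < K.a0) (cmax R : ℝ) (M : ℕ) (b : ℕ → ℝ) : ∃ C : ℝ, 0 ≤ C ∧
    ∀ (Φ : ℝ → E2 → E2 → ℝ) (ζ : E2 → E2 → E2), IsPhase K Φ ζ → ∀ (lam ρ c : ℝ) (V V' X X' : E2) (ψ ψ' : E2 → ℂ), 0 < lam → 0 < ρ → ρ ≤ 1 →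
      0 ≤ c → c ≤ cmax → PkAmp M R b ψ → PkAmp M R b ψ' →
      ‖∫ v, pkt lam Φ c ρ V X ψ v * conj (pkt lam Φ c ρ V' X' ψ' v)‖ ≤ C * ((1 + lam * ρ * ‖X - X'‖) ^ M)⁻¹ := by
  obtain ⟨C, hC0, hC⟩ := pk_gram_z K h0 cmax R M (pkLeib b b)
  refine ⟨C, hC0, fun Φ ζ h lam ρ c V V' X X' ψ ψ' hlam hρ hρ1 hc hcm hψ hψ' => ?_⟩
  rw [pk_gram_eq lam hρ c c V V' X X' ψ ψ']
  have h1 := pk_amp_conj (pk_amp_shift hψ' (ρ⁻¹ • (V - V')))
  exact hC Φ ζ h lam ρ c V X X' _ hlam hρ hρ1 hc hcm (pk_amp_mul_bdd hψ h1.smooth h1.bound)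

/-- disjoint velocity supports. -/
theorem pk_gram_far {M : ℕ} {R : ℝ} {b : ℕ → ℝ} {ψ ψ' : E2 → ℂ} (hψ : PkAmp M R b ψ) (hψ' : PkAmp M R b ψ') (lam : ℝ) {ρ : ℝ} (hρ : 0 < ρ)
    (c c' : ℝ) (V V' X X' : E2) (hV : 2 * R * ρ < ‖V - V'‖) :
    ∫ v, pkt lam Φ c ρ V X ψ v * conj (pkt lam Φ c' ρ V' X' ψ' v) = 0 := by
  refine integral_eq_zero_of_ae (Filter.Eventually.of_forall fun v => ?_)
  show pkt lam Φ c ρ V X ψ v * conj (pkt lam Φ c' ρ V' X' ψ' v) = 0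
  by_contra h0
  have h1 := pk_pkt_supp hψ lam hρ c V X v (left_ne_zero_of_mul h0)
  have h2 := pk_pkt_supp hψ' lam hρ c' V' X' v fun h => right_ne_zero_of_mul h0 (by rw [h, map_zero])
  have h3 : ‖V - V'‖ ≤ ‖v - V‖ + ‖v - V'‖ := by
    have := norm_sub_le (v - V') (v - V)
    rw [sub_sub_sub_cancel_left] at this
    linarith
  linarith

end Claimed.Agent.R255
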