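import Claimed.Agent.R255.Pk.Cb

/-!
# R255 / Pk / CbCpt : smooth compactly supported maps have bounded derivatives      (architect helper91)

PLAN: `z ↦ ‖iteratedFDeriv ℝ j f z‖` is continuous (`ContDiff.continuous_iteratedFDeriv`) with compact support (`HasCompactSupport.iteratedFDeriv`), hence bounded
 (`HasCompactSupport.exists_bound_of_continuous` / `Continuous.bounded_above_of_compact_support`); `Classical.choose` the bounds.
-/

set_option autoImplicit false

namespace Claimed.Agent.R255

open Metric Set
open scoped ContDiff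

/-- a smooth compactly supported map has bounded derivatives of all orders. -/
theorem pk_cb_of_compact {X Y : Type} [NormedAddCommGroup X] [NormedSpace ℝ X] [NormedAddCommGroup Y] [NormedSpace ℝ Y]
    {f : X → Y} (hf : ContDiff ℝ ∞ f) (hc : HasCompactSupport f) : ∃ Λ : ℕ → ℝ, Cb Λ univ f := by
  have hex : ∀ j : ℕ, ∃ C : ℝ, ∀ x, ‖iteratedFDeriv ℝ j f x‖ ≤ C := fun j =>
    (hc.iteratedFDeriv j).exists_bound_of_continuous
      (hf.continuous_iteratedFDeriv (by exact_mod_cast le_top))
  choose Λ hΛ using hex
  exact ⟨Λ, hf.contDiffOn, fun j x _ => hΛ j x⟩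

end Claimed.Agent.R255
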