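import Claimed.Agent.R255.Pk.Window
import Claimed.Agent.R255.Pk.CbCpt

/-!
# R255 / Pk / Window2 : TOOL T5, second half = the 2D window      (architect helper91)

Black boxes: the 1D lemmas `pk_win1_*` (`Window.lean`), `pk_cb_of_compact` (`CbCpt.lean`).   Plan: header of `Window.lean`.
 coordinates of `E2 = EuclideanSpace ℝ (Fin 2)`: `z ↦ z i` is `EuclideanSpace.proj i` (continuous linear); `‖z‖² = z 0² + z 1²` (`EuclideanSpace.norm_eq`, `Fin.sum_univ_two`); `|z i| ≤ ‖z‖`.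
-/

set_option autoImplicit false

namespace Claimed.Agent.R255

open Metric Set Osc
open scoped ContDiff

theorem pk_e2_norm_sq (z : E2) : ‖z‖ ^ 2 = z 0 ^ 2 + z 1 ^ 2 := by
  rw [EuclideanSpace.norm_sq_eq, Fin.sum_univ_two, Real.norm_eq_abs, Real.norm_eq_abs, sq_abs, sq_abs]

theorem pk_e2_norm_lt_two (z : E2) (h0 : |z 0| < 1) (h1 : |z 1| < 1) : ‖z‖ < 2 := by
  have h := pk_e2_norm_sq z
  have a0 : z 0 ^ 2 < 1 := by
    rw [← sq_abs]
    have := abs_nonneg (z 0)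
    nlinarith
  have a1 : z 1 ^ 2 < 1 := by
    rw [← sq_abs]
    have := abs_nonneg (z 1)
    nlinarith
  by_contra hn
  have h2 : (2 : ℝ) ≤ ‖z‖ := not_lt.1 hn
  nlinarith

theorem pk_e2_abs_le (z : E2) (i : Fin 2) : |z i| ≤ ‖z‖ := by
  have h := EuclideanSpace.norm_sq_eq z
  have h1 : ‖z i‖ ^ 2 ≤ ∑ j, ‖z j‖ ^ 2 :=
    Finset.single_le_sum (f := fun j => ‖z j‖ ^ 2) (fun j _ => by positivity) (Finset.mem_univ i)
  rw [← h, Real.norm_eq_abs] at h1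
  exact (pow_le_pow_iff_left₀ (abs_nonneg _) (norm_nonneg _) (by norm_num)).1 h1

theorem pk_lat_sub (z : E2) (j : ℤ × ℤ) : (z - pkLat j) 0 = z 0 - j.1 ∧ (z - pkLat j) 1 = z 1 - j.2 := by
  unfold pkLat
  constructor <;> simp

theorem pk_int_count (x r : ℝ) (hr : 0 ≤ r) : ((Finset.Icc ⌈x - r⌉ ⌊x + r⌋).card : ℝ) ≤ 2 * r + 1 := by
  rw [Int.card_Icc]
  have h1 : (⌊x + r⌋ : ℝ) ≤ x + r := Int.floor_le _
  have h2 : x - r ≤ (⌈x - r⌉ : ℝ) := Int.le_ceil _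
  rcases le_or_gt 0 (⌊x + r⌋ + 1 - ⌈x - r⌉) with h | h
  · have e : (((⌊x + r⌋ + 1 - ⌈x - r⌉).toNat : ℕ) : ℝ) = ((⌊x + r⌋ + 1 - ⌈x - r⌉ : ℤ) : ℝ) := by
      have := Int.toNat_of_nonneg h
      exact_mod_cast this
    rw [e]
    push_cast
    linarith
  · rw [Int.toNat_of_nonpos h.le]
    push_cast
    linarith

theorem pk_win_smooth : ContDiff ℝ ∞ pkWin := by
  have h0 : ContDiff ℝ ∞ fun z : E2 => z 0 := (EuclideanSpace.proj (0 : Fin 2) : E2 →L[ℝ] ℝ).contDiff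
  have h1 : ContDiff ℝ ∞ fun z : E2 => z 1 := (EuclideanSpace.proj (1 : Fin 2) : E2 →L[ℝ] ℝ).contDiff
  exact (pk_win1_smooth.comp h0).mul (pk_win1_smooth.comp h1)

theorem pk_win_supp (z : E2) (h : pkWin z ≠ 0) : |z 0| < 1 ∧ |z 1| < 1 ∧ ‖z‖ < 2 := by
  unfold pkWin at h
  have h0 := pk_win1_supp _ (left_ne_zero_of_mul h)
  have h1 := pk_win1_supp _ (right_ne_zero_of_mul h)
  exact ⟨h0, h1, pk_e2_norm_lt_two z h0 h1⟩

theorem pk_win_tsupport : tsupport pkWin ⊆ closedBall 0 2 := by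
  refine closure_minimal ?_ isClosed_closedBall
  intro z hz
  rw [mem_closedBall, dist_zero_right]
  exact (pk_win_supp z hz).2.2.le

theorem pk_win_range (z : E2) : 0 ≤ pkWin z ∧ pkWin z ≤ 1 := by
  unfold pkWin
  have h0 := pk_win1_range (z 0)
  have h1 := pk_win1_range (z 1)
  exact ⟨mul_nonneg h0.1 h1.1, mul_le_one₀ h0.2 h1.1 h1.2⟩

/-- **T5**. -/
theorem pk_win_sum (z : E2) (S : Finset (ℤ × ℤ)) (hS : ∀ j : ℤ × ℤ, ‖z - pkLat j‖ < 2 → j ∈ S) :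
    ∑ j ∈ S, pkWin (z - pkLat j) ^ 2 = 1 := by
  classical
  have hfl : ∀ x : ℝ, |x - (⌊x⌋ : ℝ)| < 1 := by
    intro x
    rw [abs_lt]
    constructor
    · linarith [Int.floor_le x]
    · linarith [Int.lt_floor_add_one x]
  have hin : ∀ j : ℤ × ℤ, |z 0 - j.1| < 1 → |z 1 - j.2| < 1 → j ∈ S := by
    intro j h0 h1
    refine hS j (pk_e2_norm_lt_two _ ?_ ?_)
    · rw [(pk_lat_sub z j).1]; exact h0
    · rw [(pk_lat_sub z j).2]; exact h1
  have hterm : ∀ j : ℤ × ℤ, pkWin (z - pkLat j) ^ 2 = pkWin1 (z 0 - j.1) ^ 2 * pkWin1 (z 1 - j.2) ^ 2 := by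
    intro j
    unfold pkWin
    rw [(pk_lat_sub z j).1, (pk_lat_sub z j).2, mul_pow]
  have e1 : ∑ j ∈ S, pkWin (z - pkLat j) ^ 2
      = ∑ j ∈ S.image Prod.fst ×ˢ S.image Prod.snd, pkWin (z - pkLat j) ^ 2 := by
    refine Finset.sum_subset ?_ ?_
    · intro j hj
      exact Finset.mem_product.2 ⟨Finset.mem_image_of_mem _ hj, Finset.mem_image_of_mem _ hj⟩
    · intro j _ hj
      have : pkWin (z - pkLat j) = 0 := by
        by_contra hne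
        exact hj (hS j (pk_win_supp _ hne).2.2)
      rw [this]
      norm_num
  rw [e1, Finset.sum_product]
  simp_rw [hterm]
  simp_rw [← Finset.mul_sum]
  rw [← Finset.sum_mul, pk_win1_sum (z 0), pk_win1_sum (z 1), one_mul]
  · intro k hk
    exact Finset.mem_image.2 ⟨(⌊z 0⌋, k), hin _ (hfl _) hk, rfl⟩
  · intro k hk
    exact Finset.mem_image.2 ⟨(k, ⌊z 1⌋), hin _ hk (hfl _), rfl⟩

/-- the bounds of the window -/
theorem pk_win_cb : ∃ Λ : ℕ → ℝ, Cb Λ univ pkWin := by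
  refine pk_cb_of_compact pk_win_smooth ?_
  exact IsCompact.of_isClosed_subset (isCompact_closedBall (0 : E2) 2) (isClosed_tsupport _) pk_win_tsupport

/-- number of lattice points in a ball: `#{j : ‖z - j‖ < r} ≤ (2r+1)²`. -/
theorem pk_lat_count (z : E2) (r : ℝ) (hr : 0 ≤ r) (S : Finset (ℤ × ℤ)) (hS : ∀ j ∈ S, ‖z - pkLat j‖ < r) :
    (S.card : ℝ) ≤ (2 * r + 1) ^ 2 := by
  classical
  have hsub : S ⊆ Finset.Icc ⌈z 0 - r⌉ ⌊z 0 + r⌋ ×ˢ Finset.Icc ⌈z 1 - r⌉ ⌊z 1 + r⌋ := by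
    intro j hj
    have h := hS j hj
    have h0 := (pk_e2_abs_le (z - pkLat j) 0).trans_lt h
    have h1 := (pk_e2_abs_le (z - pkLat j) 1).trans_lt h
    rw [(pk_lat_sub z j).1, abs_lt] at h0
    rw [(pk_lat_sub z j).2, abs_lt] at h1
    rw [Finset.mem_product, Finset.mem_Icc, Finset.mem_Icc]
    refine ⟨⟨Int.ceil_le.2 ?_, Int.le_floor.2 ?_⟩, ⟨Int.ceil_le.2 ?_, Int.le_floor.2 ?_⟩⟩ <;> linarith [h0.1, h0.2, h1.1, h1.2]
  have h1 := Finset.card_le_card hsub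
  rw [Finset.card_product] at h1
  have h2 : (S.card : ℝ) ≤ ((Finset.Icc ⌈z 0 - r⌉ ⌊z 0 + r⌋).card : ℝ) * ((Finset.Icc ⌈z 1 - r⌉ ⌊z 1 + r⌋).card : ℝ) := by
    exact_mod_cast h1
  refine h2.trans ?_
  rw [sq]
  exact mul_le_mul (pk_int_count _ r hr) (pk_int_count _ r hr) (Nat.cast_nonneg _) (by linarith)

end Claimed.Agent.R255
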