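import Claimed.Agent.R255.Pk.Lin
import Claimed.Agent.R255.Pk.Gram
import Claimed.Agent.R255.Pk.Window2
import Claimed.Agent.R255.Pk.FourierSq

/-!
# R255 / Pk / Atoms : BR LEMMA 9.3, part 1 = WINDOWS × FOURIER MODES, GRADIENT MATCHING, THE AMPLITUDES `η_{j,n}`      (architect helper91)

SCALE FREE.  Data: `lam > 0`, `0 < ρ ≤ 1` (window scale `ρ_r`), time `c` (`= C_r`), reference position `XJ`.   Indices `j n : ℤ × ℤ`.   Side of the Fourier square: `2ρ` (`K = 2`).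
* `pkVc ρ j = ρ • pkLat j`                          window centre `V_j`;   `z = (v - V_j)/ρ`
* `pkAtomL … j n v = χ(z) · (2ρ)⁻¹ e^{iπ n·z} · e^{-i lam Φ(c,XJ,v)}`    the exact linear atom (9.linear-fourier-atoms)
* `pkCoef … f j n = ∫ f · χ(z) · (2ρ)⁻¹ e^{-iπ n·z} · e^{i lam Φ(c,XJ,v)}`  the coefficient `c_{j,n}`
* `pkPos … j n`                                      the matched position `X_{j,n}` (9.gradient-matching):  `ζ(V_j, X_{j,n} - c V_j) = ζ(V_j, XJ - c V_j) - (π/(lam ρ)) n`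
* `pkEta … X j n z = ½ χ(z) exp(i [pkPh lam Φ V_j ρ c c X XJ z + π n·z])`    the amplitude for which `pkAtomL = ρ⁻¹ η(z) e^{-i lam Φ(c,X,v)}`  (identity valid for EVERY `X`).
PLANS.
 `pk_coef_parseval`, `pk_coef_pair`: `pk_fourier_parseval` / `pk_fourier_pair` on `pkCube (pkVc ρ j) (2ρ)` with `H = f χ_j e^{i lam Φ}`, `G' = χ_j e^{-i lam Φ} G`; the window vanishes off the cube (`pk_win_supp`), so `∫ in cube = ∫` (`setIntegral_eq_integral_of_forall_compl_eq_zero`).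
 `pk_coef_sum_le`: group a finite `P` by `j`; `∑_{n ∈ P_j} ≤ ∫ |f|² χ_j²` (`sum_le_hasSum`); `∑_{j ∈ S} χ_j² ≤ 1` (`pk_win_sum` on a larger finite set, terms `≥ 0`).
 `pk_window_sum_pair`: `∑_{j∈S} χ_j(v)² = 1` wherever `G v ≠ 0`.
 `pk_pos_spec`: `Function.invFun_eq` + `pk_zeta_bij`.   `pk_pos_bilip`: `pk_zeta_lower`, `pk_zeta_lip`.
 `pk_pos_mult`: in a cell `closedBall V₀ ρ × closedBall X₀ σ`: at most `9`… window centres (`pk_lat_count`), and for each of them the modes are pairwise at distance `≤ 2 A₀/π` (`pk_pos_bilip`), `pk_lat_count` again.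
 `pk_eta_amp`: `pk_lin_cb` (`c = c'`, `ξ = π n`, `C₁`) + `pk_amp_mul_cb` + `pk_win_cb`, `pk_amp_of_cb`, `pk_amp_smul`.
-/

set_option autoImplicit false

namespace Claimed.Agent.R255

open MeasureTheory Metric Set Osc
open scoped ContDiff InnerProductSpace ComplexConjugate

/-- window centre -/
noncomputable def pkVc (ρ : ℝ) (j : ℤ × ℤ) : E2 := ρ • pkLat j

/-- the window `χ_j` in the variable `v` -/
noncomputable def pkWinV (ρ : ℝ) (j : ℤ × ℤ) (v : E2) : ℝ := pkWin (ρ⁻¹ • (v - pkVc ρ j))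

/-- the exact linear atom -/
noncomputable def pkAtomL (lam : ℝ) (Φ : ℝ → E2 → E2 → ℝ) (c ρ : ℝ) (XJ : E2) (j n : ℤ × ℤ) (v : E2) : ℂ :=
  ((pkWinV ρ j v : ℝ) : ℂ) * pkMode (pkVc ρ j) (2 * ρ) n v * Complex.exp (-(Complex.I * ((lam * Φ c XJ v : ℝ) : ℂ)))

/-- the coefficient -/
noncomputable def pkCoef (lam : ℝ) (Φ : ℝ → E2 → E2 → ℝ) (c ρ : ℝ) (XJ : E2) (f : E2 → ℂ) (j n : ℤ × ℤ) : ℂ :=
  ∫ v, f v * (((pkWinV ρ j v : ℝ) : ℂ) * conj (pkMode (pkVc ρ j) (2 * ρ) n v) * Complex.exp (Complex.I * ((lam * Φ c XJ v : ℝ) : ℂ)))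

/-- the matched position -/
noncomputable def pkPos (lam : ℝ) (ζ : E2 → E2 → E2) (c ρ : ℝ) (XJ : E2) (j n : ℤ × ℤ) : E2 :=
  c • pkVc ρ j + Function.invFun (ζ (pkVc ρ j)) (ζ (pkVc ρ j) (XJ - c • pkVc ρ j) - (Real.pi / (lam * ρ)) • pkLat n)

/-- the amplitude of the atom relative to the position `X` -/
noncomputable def pkEta (lam : ℝ) (Φ : ℝ → E2 → E2 → ℝ) (c ρ : ℝ) (XJ X : E2) (j n : ℤ × ℤ) (z : E2) : ℂ :=
  (1 / 2 : ℂ) * ((pkWin z : ℝ) : ℂ) *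
    Complex.exp (Complex.I * ((pkPh lam Φ (pkVc ρ j) ρ c c X XJ z + ⟪Real.pi • pkLat n, z⟫_ℝ : ℝ) : ℂ))

variable {K : OscBd} {Φ : ℝ → E2 → E2 → ℝ} {ζ : E2 → E2 → E2}

theorem pk_dot_eq_inner (n : ℤ × ℤ) (z : E2) : pkDot n z = ⟪pkLat n, z⟫_ℝ := by
  unfold pkDot pkLat
  rw [PiLp.inner_apply, Fin.sum_univ_two]
  simp [mul_comm]

theorem pk_winV_eq {ρ : ℝ} (hρ : 0 < ρ) (j : ℤ × ℤ) (v : E2) : pkWinV ρ j v = pkWin (ρ⁻¹ • v - pkLat j) := by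
  unfold pkWinV pkVc
  rw [smul_sub, smul_smul, inv_mul_cancel₀ hρ.ne', one_smul]

theorem pk_winV_range (ρ : ℝ) (j : ℤ × ℤ) (v : E2) : 0 ≤ pkWinV ρ j v ∧ pkWinV ρ j v ≤ 1 := pk_win_range _

theorem pk_winV_sq_le (ρ : ℝ) (j : ℤ × ℤ) (v : E2) : pkWinV ρ j v ^ 2 ≤ 1 := by
  have h := pk_winV_range ρ j v
  exact pow_le_one₀ h.1 h.2

theorem pk_winV_cont (ρ : ℝ) (j : ℤ × ℤ) : Continuous (pkWinV ρ j) := by
  unfold pkWinV
  exact pk_win_smooth.continuous.comp (by fun_prop)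

theorem pk_winV_cube {ρ : ℝ} (hρ : 0 < ρ) (j : ℤ × ℤ) (v : E2) (h : pkWinV ρ j v ≠ 0) : v ∈ pkCube (pkVc ρ j) (2 * ρ) := by
  have h1 := pk_win_supp _ h
  intro i
  have hi : |(ρ⁻¹ • (v - pkVc ρ j)) i| < 1 := by
    fin_cases i
    · exact h1.1
    · exact h1.2.1
  have e : (ρ⁻¹ • (v - pkVc ρ j)) i = ρ⁻¹ * (v i - pkVc ρ j i) := by simp
  rw [e, abs_lt] at hi
  have a1 : ρ * (ρ⁻¹ * (v i - pkVc ρ j i)) = v i - pkVc ρ j i := by field_simp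
  have a2 : ρ * (-1) < ρ * (ρ⁻¹ * (v i - pkVc ρ j i)) := mul_lt_mul_of_pos_left hi.1 hρ
  have a3 : ρ * (ρ⁻¹ * (v i - pkVc ρ j i)) < ρ * 1 := mul_lt_mul_of_pos_left hi.2 hρ
  rw [a1] at a2 a3
  constructor <;> linarith

theorem pk_phase_cont (h : IsPhase K Φ ζ) {c : ℝ} (hc : 0 ≤ c) (X : E2) : Continuous fun v => Φ c X v :=
  continuous_iff_continuousAt.2 fun v => (h.grad c hc X v).continuousAt

/-- the unimodular factor -/
theorem pk_phase_exp_cont (h : IsPhase K Φ ζ) (lam : ℝ) {c : ℝ} (hc : 0 ≤ c) (X : E2) :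
    Continuous fun v => Complex.exp (Complex.I * ((lam * Φ c X v : ℝ) : ℂ)) := by
  have := pk_phase_cont h hc X
  fun_prop

theorem pk_phase_exp_cont' (h : IsPhase K Φ ζ) (lam : ℝ) {c : ℝ} (hc : 0 ≤ c) (X : E2) :
    Continuous fun v => Complex.exp (-(Complex.I * ((lam * Φ c X v : ℝ) : ℂ))) := by
  have := pk_phase_cont h hc X
  fun_prop

theorem pk_exp_norm (x : ℝ) : ‖Complex.exp (Complex.I * (x : ℂ))‖ = 1 := by
  rw [mul_comm, Complex.norm_exp_ofReal_mul_I]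

theorem pk_exp_norm' (x : ℝ) : ‖Complex.exp (-(Complex.I * (x : ℂ)))‖ = 1 := by
  have : -(Complex.I * (x : ℂ)) = ((-x : ℝ) : ℂ) * Complex.I := by push_cast; ring
  rw [this, Complex.norm_exp_ofReal_mul_I]

/-- `f χ_j e^{iλΦ}` -/
theorem pk_atH_memLp (h : IsPhase K Φ ζ) (lam : ℝ) {c : ℝ} (hc : 0 ≤ c) (ρ : ℝ) (XJ : E2) (f : E2 → ℂ) (hf : MemLp f 2 volume) (j : ℤ × ℤ)
    (s : Set E2) :
    MemLp (fun v => f v * (((pkWinV ρ j v : ℝ) : ℂ) * Complex.exp (Complex.I * ((lam * Φ c XJ v : ℝ) : ℂ)))) 2 (volume.restrict s) := by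
  have hc1 : Continuous fun v => (((pkWinV ρ j v : ℝ) : ℂ) * Complex.exp (Complex.I * ((lam * Φ c XJ v : ℝ) : ℂ))) :=
    (Complex.continuous_ofReal.comp (pk_winV_cont ρ j)).mul (pk_phase_exp_cont h lam hc XJ)
  refine (MemLp.of_le hf (hf.1.mul hc1.aestronglyMeasurable) (Filter.Eventually.of_forall fun v => ?_)).restrict s
  rw [Pi.mul_apply, norm_mul, norm_mul, pk_exp_norm, mul_one, Complex.norm_real, Real.norm_eq_abs, abs_of_nonneg (pk_winV_range ρ j v).1]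
  exact mul_le_of_le_one_right (norm_nonneg _) (pk_winV_range ρ j v).2

theorem pk_atG_memLp (h : IsPhase K Φ ζ) (lam : ℝ) {c : ℝ} (hc : 0 ≤ c) (ρ : ℝ) (XJ : E2) (f : E2 → ℂ) (hf : MemLp f 2 volume) (j : ℤ × ℤ)
    (s : Set E2) :
    MemLp (fun v => (((pkWinV ρ j v : ℝ) : ℂ) * Complex.exp (-(Complex.I * ((lam * Φ c XJ v : ℝ) : ℂ)))) * f v) 2 (volume.restrict s) := by
  have hc1 : Continuous fun v => (((pkWinV ρ j v : ℝ) : ℂ) * Complex.exp (-(Complex.I * ((lam * Φ c XJ v : ℝ) : ℂ)))) :=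
    (Complex.continuous_ofReal.comp (pk_winV_cont ρ j)).mul (pk_phase_exp_cont' h lam hc XJ)
  refine (MemLp.of_le hf (hc1.aestronglyMeasurable.mul hf.1) (Filter.Eventually.of_forall fun v => ?_)).restrict s
  rw [Pi.mul_apply, norm_mul, norm_mul, pk_exp_norm', mul_one, Complex.norm_real, Real.norm_eq_abs, abs_of_nonneg (pk_winV_range ρ j v).1]
  exact mul_le_of_le_one_left (norm_nonneg _) (pk_winV_range ρ j v).2

/-- the coefficient as an integral over the cube -/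
theorem pk_coef_cube (lam : ℝ) (Φ : ℝ → E2 → E2 → ℝ) (c : ℝ) {ρ : ℝ} (hρ : 0 < ρ) (XJ : E2) (f : E2 → ℂ) (j n : ℤ × ℤ) :
    pkCoef lam Φ c ρ XJ f j n = ∫ v in pkCube (pkVc ρ j) (2 * ρ),
      (f v * (((pkWinV ρ j v : ℝ) : ℂ) * Complex.exp (Complex.I * ((lam * Φ c XJ v : ℝ) : ℂ)))) * conj (pkMode (pkVc ρ j) (2 * ρ) n v) := by
  unfold pkCoef
  rw [setIntegral_eq_integral_of_forall_compl_eq_zero]
  · refine integral_congr_ae (Filter.Eventually.of_forall fun v => ?_)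
    simp only
    ring
  · intro v hv
    have : pkWinV ρ j v = 0 := by
      by_contra hne
      exact hv (pk_winV_cube hρ j v hne)
    rw [this]
    simp

theorem pk_atom_cube (lam : ℝ) (Φ : ℝ → E2 → E2 → ℝ) (c : ℝ) {ρ : ℝ} (hρ : 0 < ρ) (XJ : E2) (G : E2 → ℂ) (j n : ℤ × ℤ) :
    ∫ v, pkAtomL lam Φ c ρ XJ j n v * G v = ∫ v in pkCube (pkVc ρ j) (2 * ρ),
      pkMode (pkVc ρ j) (2 * ρ) n v * ((((pkWinV ρ j v : ℝ) : ℂ) * Complex.exp (-(Complex.I * ((lam * Φ c XJ v : ℝ) : ℂ)))) * G v) := by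
  unfold pkAtomL
  rw [setIntegral_eq_integral_of_forall_compl_eq_zero]
  · refine integral_congr_ae (Filter.Eventually.of_forall fun v => ?_)
    simp only
    ring
  · intro v hv
    have : pkWinV ρ j v = 0 := by
      by_contra hne
      exact hv (pk_winV_cube hρ j v hne)
    rw [this]
    simp

/-- Parseval in one window. -/
theorem pk_coef_parseval (h : IsPhase K Φ ζ) (lam : ℝ) {c ρ : ℝ} (hc : 0 ≤ c) (hρ : 0 < ρ) (XJ : E2) (f : E2 → ℂ) (hf : MemLp f 2 volume) (j : ℤ × ℤ) :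
    HasSum (fun n : ℤ × ℤ => ‖pkCoef lam Φ c ρ XJ f j n‖ ^ 2) (∫ v, ‖f v‖ ^ 2 * pkWinV ρ j v ^ 2) := by
  have key := pk_fourier_parseval (pkVc ρ j) (by positivity : 0 < 2 * ρ) _ (pk_atH_memLp h lam hc ρ XJ f hf j (pkCube (pkVc ρ j) (2 * ρ)))
  simp only [← pk_coef_cube lam Φ c hρ XJ f j] at key
  convert key using 1
  rw [setIntegral_eq_integral_of_forall_compl_eq_zero]
  · refine integral_congr_ae (Filter.Eventually.of_forall fun v => ?_)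
    simp only
    rw [norm_mul, norm_mul, pk_exp_norm, mul_one, Complex.norm_real, Real.norm_eq_abs, mul_pow, sq_abs]
  · intro v hv
    have : pkWinV ρ j v = 0 := by
      by_contra hne
      exact hv (pk_winV_cube hρ j v hne)
    rw [this]
    simp

theorem pk_lat_near_finite (z : E2) : ∃ T : Finset (ℤ × ℤ), ∀ j : ℤ × ℤ, ‖z - pkLat j‖ < 2 → j ∈ T := by
  refine ⟨Finset.Icc ⌈z 0 - 2⌉ ⌊z 0 + 2⌋ ×ˢ Finset.Icc ⌈z 1 - 2⌉ ⌊z 1 + 2⌋, fun j h => ?_⟩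
  have h0 := (pk_e2_abs_le (z - pkLat j) 0).trans_lt h
  have h1 := (pk_e2_abs_le (z - pkLat j) 1).trans_lt h
  rw [(pk_lat_sub z j).1, abs_lt] at h0
  rw [(pk_lat_sub z j).2, abs_lt] at h1
  rw [Finset.mem_product, Finset.mem_Icc, Finset.mem_Icc]
  refine ⟨⟨Int.ceil_le.2 ?_, Int.le_floor.2 ?_⟩, ⟨Int.ceil_le.2 ?_, Int.le_floor.2 ?_⟩⟩ <;> linarith [h0.1, h0.2, h1.1, h1.2]

theorem pk_winV_sum_le {ρ : ℝ} (hρ : 0 < ρ) (S : Finset (ℤ × ℤ)) (v : E2) : ∑ j ∈ S, pkWinV ρ j v ^ 2 ≤ 1 := by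
  classical
  obtain ⟨T, hT⟩ := pk_lat_near_finite (ρ⁻¹ • v)
  have h1 := pk_win_sum (ρ⁻¹ • v) (S ∪ T) (fun j hj => Finset.mem_union_right _ (hT j hj))
  simp only [pk_winV_eq hρ]
  rw [← h1]
  exact Finset.sum_le_sum_of_subset_of_nonneg Finset.subset_union_left (fun j _ _ => sq_nonneg _)

theorem pk_sq_win_integrable {f : E2 → ℂ} (hf : MemLp f 2 volume) (ρ : ℝ) (j : ℤ × ℤ) :
    Integrable fun v => ‖f v‖ ^ 2 * pkWinV ρ j v ^ 2 := by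
  have h1 : Integrable fun v => ‖f v‖ ^ 2 := by
    have := hf.integrable_norm_pow (by norm_num : (2 : ℕ) ≠ 0)
    simpa using this
  refine h1.mono (h1.1.mul ((pk_winV_cont ρ j).pow 2).aestronglyMeasurable) (Filter.Eventually.of_forall fun v => ?_)
  rw [norm_mul, Real.norm_eq_abs (pkWinV ρ j v ^ 2), abs_of_nonneg (sq_nonneg _)]
  exact mul_le_of_le_one_right (norm_nonneg _) (pk_winV_sq_le ρ j v)

/-- `∑ |c_{j,n}|² ≤ ‖f‖²`. -/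
theorem pk_coef_sum_le (h : IsPhase K Φ ζ) (lam : ℝ) {c ρ : ℝ} (hc : 0 ≤ c) (hρ : 0 < ρ) (XJ : E2) (f : E2 → ℂ) (hf : MemLp f 2 volume)
    (P : Finset ((ℤ × ℤ) × (ℤ × ℤ))) : ∑ q ∈ P, ‖pkCoef lam Φ c ρ XJ f q.1 q.2‖ ^ 2 ≤ ∫ v, ‖f v‖ ^ 2 := by
  classical
  have h1 : Integrable fun v => ‖f v‖ ^ 2 := by
    have := hf.integrable_norm_pow (by norm_num : (2 : ℕ) ≠ 0)
    simpa using this
  calc ∑ q ∈ P, ‖pkCoef lam Φ c ρ XJ f q.1 q.2‖ ^ 2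
      ≤ ∑ q ∈ P.image Prod.fst ×ˢ P.image Prod.snd, ‖pkCoef lam Φ c ρ XJ f q.1 q.2‖ ^ 2 := by
        refine Finset.sum_le_sum_of_subset_of_nonneg ?_ (fun q _ _ => sq_nonneg _)
        intro q hq
        exact Finset.mem_product.2 ⟨Finset.mem_image_of_mem _ hq, Finset.mem_image_of_mem _ hq⟩
    _ = ∑ j ∈ P.image Prod.fst, ∑ n ∈ P.image Prod.snd, ‖pkCoef lam Φ c ρ XJ f j n‖ ^ 2 := Finset.sum_product _ _ _
    _ ≤ ∑ j ∈ P.image Prod.fst, ∫ v, ‖f v‖ ^ 2 * pkWinV ρ j v ^ 2 := by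
        refine Finset.sum_le_sum fun j _ => ?_
        exact sum_le_hasSum _ (fun n _ => sq_nonneg _) (pk_coef_parseval h lam hc hρ XJ f hf j)
    _ = ∫ v, ∑ j ∈ P.image Prod.fst, ‖f v‖ ^ 2 * pkWinV ρ j v ^ 2 :=
        (integral_finsetSum _ fun j _ => pk_sq_win_integrable hf ρ j).symm
    _ ≤ ∫ v, ‖f v‖ ^ 2 := by
        refine integral_mono (integrable_finsetSum _ fun j _ => pk_sq_win_integrable hf ρ j) h1 fun v => ?_
        simp only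
        rw [← Finset.mul_sum]
        exact mul_le_of_le_one_right (sq_nonneg _) (pk_winV_sum_le hρ _ v)

/-- the expansion of `∫ f χ_j² G`. -/
theorem pk_coef_pair (h : IsPhase K Φ ζ) (lam : ℝ) {c ρ : ℝ} (hc : 0 ≤ c) (hρ : 0 < ρ) (XJ : E2) (f G : E2 → ℂ) (hf : MemLp f 2 volume)
    (hG : MemLp G 2 volume) (j : ℤ × ℤ) :
    HasSum (fun n : ℤ × ℤ => pkCoef lam Φ c ρ XJ f j n * ∫ v, pkAtomL lam Φ c ρ XJ j n v * G v)
      (∫ v, f v * ((pkWinV ρ j v ^ 2 : ℝ) : ℂ) * G v) := by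
  have key := pk_fourier_pair (pkVc ρ j) (by positivity : 0 < 2 * ρ) _ _ (pk_atH_memLp h lam hc ρ XJ f hf j (pkCube (pkVc ρ j) (2 * ρ)))
    (pk_atG_memLp h lam hc ρ XJ G hG j (pkCube (pkVc ρ j) (2 * ρ)))
  simp only [← pk_coef_cube lam Φ c hρ XJ f j, ← pk_atom_cube lam Φ c hρ XJ G j] at key
  convert key using 1
  rw [setIntegral_eq_integral_of_forall_compl_eq_zero]
  · refine integral_congr_ae (Filter.Eventually.of_forall fun v => ?_)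
    simp only
    have e : Complex.exp (Complex.I * ((lam * Φ c XJ v : ℝ) : ℂ)) * Complex.exp (-(Complex.I * ((lam * Φ c XJ v : ℝ) : ℂ))) = 1 := by
      rw [← Complex.exp_add, add_neg_cancel, Complex.exp_zero]
    calc f v * ((pkWinV ρ j v ^ 2 : ℝ) : ℂ) * G v
        = f v * ((pkWinV ρ j v ^ 2 : ℝ) : ℂ) * G v * (Complex.exp (Complex.I * ((lam * Φ c XJ v : ℝ) : ℂ)) * Complex.exp (-(Complex.I * ((lam * Φ c XJ v : ℝ) : ℂ)))) := by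
          rw [e, mul_one]
      _ = _ := by push_cast; ring
  · intro v hv
    have : pkWinV ρ j v = 0 := by
      by_contra hne
      exact hv (pk_winV_cube hρ j v hne)
    rw [this]
    simp

/-- the windows which meet the support of `G` reconstruct `∫ f G`. -/
theorem pk_window_sum_pair {ρ : ℝ} (hρ : 0 < ρ) (f G : E2 → ℂ) (hf : MemLp f 2 volume) (hG : MemLp G 2 volume) (S : Finset (ℤ × ℤ))
    (hS : ∀ v, G v ≠ 0 → ∀ j : ℤ × ℤ, ‖v - pkVc ρ j‖ < 2 * ρ → j ∈ S) :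
    ∑ j ∈ S, ∫ v, f v * ((pkWinV ρ j v ^ 2 : ℝ) : ℂ) * G v = ∫ v, f v * G v := by
  have hfG : Integrable fun v => f v * G v := hf.integrable_mul hG
  have hint : ∀ j ∈ S, Integrable fun v => f v * ((pkWinV ρ j v ^ 2 : ℝ) : ℂ) * G v := by
    intro j _
    have hc1 : Continuous fun v => ((pkWinV ρ j v ^ 2 : ℝ) : ℂ) := Complex.continuous_ofReal.comp ((pk_winV_cont ρ j).pow 2)
    refine hfG.mono ((hf.1.mul hc1.aestronglyMeasurable).mul hG.1) (Filter.Eventually.of_forall fun v => ?_)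
    rw [norm_mul, norm_mul, norm_mul, Complex.norm_real, Real.norm_eq_abs, abs_of_nonneg (sq_nonneg _)]
    refine mul_le_mul_of_nonneg_right ?_ (norm_nonneg _)
    exact mul_le_of_le_one_right (norm_nonneg _) (pk_winV_sq_le ρ j v)
  rw [← integral_finsetSum _ hint]
  refine integral_congr_ae (Filter.Eventually.of_forall fun v => ?_)
  simp only
  by_cases hGv : G v = 0
  · simp [hGv]
  · have h1 : ∑ j ∈ S, pkWinV ρ j v ^ 2 = 1 := by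
      simp only [pk_winV_eq hρ]
      refine pk_win_sum (ρ⁻¹ • v) S fun j hj => hS v hGv j ?_
      have e : v - pkVc ρ j = ρ • (ρ⁻¹ • v - pkLat j) := by
        unfold pkVc
        rw [smul_sub, smul_smul, mul_inv_cancel₀ hρ.ne', one_smul]
      rw [e, norm_smul, Real.norm_eq_abs, abs_of_pos hρ, mul_comm]
      exact mul_lt_mul_of_pos_right hj hρ
    have h2 : ∑ j ∈ S, f v * ((pkWinV ρ j v ^ 2 : ℝ) : ℂ) * G v = f v * ((∑ j ∈ S, pkWinV ρ j v ^ 2 : ℝ) : ℂ) * G v := by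
      push_cast
      rw [Finset.mul_sum, Finset.sum_mul]
    rw [h2, h1]
    simp

/-- gradient matching. -/
theorem pk_pos_spec (h : IsPhase K Φ ζ) (h0 : 0 < K.a0) (lam c ρ : ℝ) (XJ : E2) (j n : ℤ × ℤ) :
    ζ (pkVc ρ j) (pkPos lam ζ c ρ XJ j n - c • pkVc ρ j) = ζ (pkVc ρ j) (XJ - c • pkVc ρ j) - (Real.pi / (lam * ρ)) • pkLat n := by
  unfold pkPos
  rw [add_sub_cancel_left]
  exact Function.invFun_eq ((pk_zeta_bij h h0 (pkVc ρ j)).2 _)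

/-- the mode-to-position map is bilipschitz at spacing `σ = (lam ρ)⁻¹`. -/
theorem pk_pos_bilip (h : IsPhase K Φ ζ) (h0 : 0 < K.a0) {lam ρ : ℝ} (hl : 0 < lam) (hρ : 0 < ρ) (c : ℝ) (XJ : E2) (j n n' : ℤ × ℤ) :
    K.a0 * ‖pkPos lam ζ c ρ XJ j n - pkPos lam ζ c ρ XJ j n'‖ ≤ Real.pi / (lam * ρ) * ‖pkLat n - pkLat n'‖ ∧
    Real.pi / (lam * ρ) * ‖pkLat n - pkLat n'‖ ≤ K.A 0 * ‖pkPos lam ζ c ρ XJ j n - pkPos lam ζ c ρ XJ j n'‖ := by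
  have e1 : pkPos lam ζ c ρ XJ j n - pkPos lam ζ c ρ XJ j n' =
      (pkPos lam ζ c ρ XJ j n - c • pkVc ρ j) - (pkPos lam ζ c ρ XJ j n' - c • pkVc ρ j) := by abel
  have e2 : ‖ζ (pkVc ρ j) (pkPos lam ζ c ρ XJ j n - c • pkVc ρ j) - ζ (pkVc ρ j) (pkPos lam ζ c ρ XJ j n' - c • pkVc ρ j)‖
      = Real.pi / (lam * ρ) * ‖pkLat n - pkLat n'‖ := by
    rw [pk_pos_spec h h0, pk_pos_spec h h0, sub_sub_sub_cancel_left, ← smul_sub, norm_smul, Real.norm_eq_abs,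
      abs_of_pos (by positivity), norm_sub_rev]
  rw [e1, ← e2]
  exact ⟨pk_zeta_lower h _ _ _, pk_zeta_lip h _ _ _⟩

theorem pk_pos_zero (h : IsPhase K Φ ζ) (h0 : 0 < K.a0) (lam c ρ : ℝ) (XJ : E2) (j : ℤ × ℤ) : pkPos lam ζ c ρ XJ j (0, 0) = XJ := by
  have e : pkLat (0, 0) = 0 := by
    unfold pkLat
    ext i
    fin_cases i <;> simp
  unfold pkPos
  rw [e, smul_zero, sub_zero, Function.leftInverse_invFun (pk_zeta_bij h h0 (pkVc ρ j)).1]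
  abel

/-- for one window, the positions `X_{j,n}` have bounded multiplicity at scale `σ`. -/
theorem pk_pos_mult1 (K : OscBd) (h0 : 0 < K.a0) : ∃ m₁ : ℕ, ∀ (Φ : ℝ → E2 → E2 → ℝ) (ζ : E2 → E2 → E2), IsPhase K Φ ζ →
    ∀ (lam ρ c : ℝ) (XJ : E2) (j : ℤ × ℤ), 0 < lam → 0 < ρ → ∀ N : Finset (ℤ × ℤ),
      PkMult N (fun n => pkPos lam ζ c ρ XJ j n) (lam * ρ)⁻¹ m₁ := by
  refine ⟨⌈(2 * (2 * K.A 0 / Real.pi + 1) + 1) ^ 2⌉₊, fun Φ ζ h lam ρ c XJ j hl hρ N y t _ ht => ?_⟩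
  have hA : 0 ≤ K.A 0 := (norm_nonneg _).trans (pk_dpZ_norm_le h (0, 0))
  have hpi := Real.pi_pos
  rcases t.eq_empty_or_nonempty with rfl | ⟨n0, hn0⟩
  · simp
  have hlr : 0 < lam * ρ := mul_pos hl hρ
  have key : ∀ n ∈ t, ‖pkLat n0 - pkLat n‖ < 2 * K.A 0 / Real.pi + 1 := by
    intro n hn
    have h1 := (pk_pos_bilip h h0 hl hρ c XJ j n0 n).2
    have h2 : ‖pkPos lam ζ c ρ XJ j n0 - pkPos lam ζ c ρ XJ j n‖ ≤ (lam * ρ)⁻¹ + (lam * ρ)⁻¹ := by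
      have := norm_sub_le_norm_sub_add_norm_sub (pkPos lam ζ c ρ XJ j n0) y (pkPos lam ζ c ρ XJ j n)
      have h3 := ht n0 hn0
      have h4 := ht n hn
      rw [norm_sub_rev] at h4
      linarith
    have h3 : Real.pi / (lam * ρ) * ‖pkLat n0 - pkLat n‖ ≤ K.A 0 * ((lam * ρ)⁻¹ + (lam * ρ)⁻¹) :=
      h1.trans (mul_le_mul_of_nonneg_left h2 hA)
    have h4 : ‖pkLat n0 - pkLat n‖ ≤ 2 * K.A 0 / Real.pi := by
      rw [le_div_iff₀ hpi]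
      have e1 : Real.pi / (lam * ρ) * ‖pkLat n0 - pkLat n‖ = (‖pkLat n0 - pkLat n‖ * Real.pi) * (lam * ρ)⁻¹ := by
        rw [div_eq_mul_inv]; ring
      have e2 : K.A 0 * ((lam * ρ)⁻¹ + (lam * ρ)⁻¹) = (2 * K.A 0) * (lam * ρ)⁻¹ := by ring
      rw [e1, e2] at h3
      exact le_of_mul_le_mul_right h3 (inv_pos.2 hlr)
    linarith
  have := pk_lat_count (pkLat n0) (2 * K.A 0 / Real.pi + 1) (by positivity) t key
  exact Nat.cast_le.1 (this.trans (Nat.le_ceil _))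

/-- the sites `(V_j, X_{j,n})` have bounded phase-space multiplicity. -/
theorem pk_pos_mult (K : OscBd) (h0 : 0 < K.a0) : ∃ m₀ : ℕ, ∀ (Φ : ℝ → E2 → E2 → ℝ) (ζ : E2 → E2 → E2), IsPhase K Φ ζ →
    ∀ (lam ρ c : ℝ) (XJ : E2), 0 < lam → 0 < ρ → ∀ P : Finset ((ℤ × ℤ) × (ℤ × ℤ)),
      PkMult2 P (fun q => pkVc ρ q.1) (fun q => pkPos lam ζ c ρ XJ q.1 q.2) ρ (lam * ρ)⁻¹ m₀ := by
  classical
  obtain ⟨m₁, hm₁⟩ := pk_pos_mult1 K h0
  refine ⟨m₁ * 25, fun Φ ζ h lam ρ c XJ hl hρ P V₀ X₀ t _ ht => ?_⟩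
  have h1 : t.card ≤ m₁ * (t.image Prod.fst).card := by
    refine Finset.card_le_mul_card_image t m₁ fun j _ => ?_
    have hinj : Set.InjOn Prod.snd ((t.filter fun q => q.1 = j : Finset _) : Set ((ℤ × ℤ) × (ℤ × ℤ))) := by
      intro a ha b hb hab
      rw [Finset.mem_coe, Finset.mem_filter] at ha hb
      exact Prod.ext (ha.2.trans hb.2.symm) hab
    rw [← Finset.card_image_of_injOn hinj]
    refine hm₁ Φ ζ h lam ρ c XJ j hl hρ _ X₀ _ subset_rfl fun n hn => ?_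
    obtain ⟨q, hq, rfl⟩ := Finset.mem_image.1 hn
    rw [Finset.mem_filter] at hq
    have : ‖pkPos lam ζ c ρ XJ q.1 q.2 - X₀‖ ≤ (lam * ρ)⁻¹ := (ht q hq.1).2
    rw [hq.2] at this
    exact this
  have h2 : ((t.image Prod.fst).card : ℝ) ≤ (2 * 2 + 1) ^ 2 := by
    refine pk_lat_count (ρ⁻¹ • V₀) 2 (by norm_num) _ fun j hj => ?_
    obtain ⟨q, hq, rfl⟩ := Finset.mem_image.1 hj
    have h3 : ‖pkVc ρ q.1 - V₀‖ ≤ ρ := (ht q hq).1
    have e : ρ⁻¹ • V₀ - pkLat q.1 = ρ⁻¹ • (V₀ - pkVc ρ q.1) := by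
      unfold pkVc
      rw [smul_sub, smul_smul, inv_mul_cancel₀ hρ.ne', one_smul]
    rw [e, norm_smul, Real.norm_eq_abs, abs_of_pos (inv_pos.2 hρ), norm_sub_rev]
    calc ρ⁻¹ * ‖pkVc ρ q.1 - V₀‖ ≤ ρ⁻¹ * ρ := mul_le_mul_of_nonneg_left h3 (inv_pos.2 hρ).le
      _ = 1 := inv_mul_cancel₀ hρ.ne'
      _ < 2 := by norm_num
  have h3 : (t.image Prod.fst).card ≤ 25 := by
    have : ((t.image Prod.fst).card : ℝ) ≤ ((25 : ℕ) : ℝ) := by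
      refine h2.trans ?_
      norm_num
    exact Nat.cast_le.1 this
  exact h1.trans (Nat.mul_le_mul_left _ h3)

/-- the atom is a synthesis packet at ANY position `X`, with amplitude `pkEta`. -/
theorem pk_atomL_eq (lam : ℝ) (Φ : ℝ → E2 → E2 → ℝ) (c : ℝ) {ρ : ℝ} (hρ : 0 < ρ) (XJ X : E2) (j n : ℤ × ℤ) (v : E2) :
    pkAtomL lam Φ c ρ XJ j n v = conj (pkt lam Φ c ρ (pkVc ρ j) X (fun z => conj (pkEta lam Φ c ρ XJ X j n z)) v) := by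
  have hv : pkVc ρ j + ρ • (ρ⁻¹ • (v - pkVc ρ j)) = v := by
    rw [smul_smul, mul_inv_cancel₀ hρ.ne', one_smul]
    abel
  have hq : 2 * Real.pi * pkDot n (v - pkVc ρ j) / (2 * ρ) = ⟪Real.pi • pkLat n, ρ⁻¹ • (v - pkVc ρ j)⟫_ℝ := by
    rw [pk_dot_eq_inner, real_inner_smul_left, real_inner_smul_right]
    field_simp
  unfold pkAtomL pkt pkEta pkMode pkWinV pkPh
  beta_reduce
  rw [hv, hq]
  simp only [map_mul, Complex.conj_conj, Complex.conj_ofReal, ← Complex.exp_conj, Complex.conj_I, map_neg, neg_neg]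
  have e1 : (((2 * ρ)⁻¹ : ℝ) : ℂ) = ((ρ⁻¹ : ℝ) : ℂ) * (1 / 2 : ℂ) := by
    rw [mul_inv]
    push_cast
    ring
  have e2 : Complex.exp (Complex.I * ((⟪Real.pi • pkLat n, ρ⁻¹ • (v - pkVc ρ j)⟫_ℝ : ℝ) : ℂ)) *
      Complex.exp (-(Complex.I * ((lam * Φ c XJ v : ℝ) : ℂ))) =
      Complex.exp (Complex.I * ((lam * (Φ c X v - Φ c XJ v) + ⟪Real.pi • pkLat n, ρ⁻¹ • (v - pkVc ρ j)⟫_ℝ : ℝ) : ℂ)) *
      Complex.exp (-Complex.I * ((lam * Φ c X v : ℝ) : ℂ)) := by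
    rw [← Complex.exp_add, ← Complex.exp_add]
    congr 1
    push_cast
    ring
  rw [e1]
  calc _ = ((pkWin (ρ⁻¹ • (v - pkVc ρ j)) : ℝ) : ℂ) * (((ρ⁻¹ : ℝ) : ℂ) * (1 / 2 : ℂ)) *
        (Complex.exp (Complex.I * ((⟪Real.pi • pkLat n, ρ⁻¹ • (v - pkVc ρ j)⟫_ℝ : ℝ) : ℂ)) *
      Complex.exp (-(Complex.I * ((lam * Φ c XJ v : ℝ) : ℂ)))) := by ring
    _ = _ := by rw [e2]; ring

/-- the coefficient is an analysis pairing at `(c, V_j, X)`, with the conjugate amplitude. -/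
theorem pk_coef_eq (lam : ℝ) (Φ : ℝ → E2 → E2 → ℝ) (c : ℝ) {ρ : ℝ} (hρ : 0 < ρ) (XJ X : E2) (f : E2 → ℂ) (j n : ℤ × ℤ) :
    pkCoef lam Φ c ρ XJ f j n = ∫ v, f v * pkt lam Φ c ρ (pkVc ρ j) X (fun z => conj (pkEta lam Φ c ρ XJ X j n z)) v := by
  unfold pkCoef
  refine integral_congr_ae (Filter.Eventually.of_forall fun v => ?_)
  have h1 := congrArg conj (pk_atomL_eq lam Φ c hρ XJ X j n v)
  rw [Complex.conj_conj] at h1
  show f v * _ = f v * _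
  rw [← h1]
  unfold pkAtomL
  simp only [map_mul, Complex.conj_ofReal, ← Complex.exp_conj, Complex.conj_I, map_neg, neg_mul, neg_neg]

/-- **uniform bounds of the amplitudes**: `lam ρ² |X - XJ| ≤ C₀` and `X` within `C₁ σ` of the matched position. -/
theorem pk_eta_amp (K : OscBd) (h0 : 0 < K.a0) (cmax C₀ C₁ : ℝ) : ∃ b' : ℕ → ℝ, (∀ k, 0 ≤ b' k) ∧
    ∀ (Φ : ℝ → E2 → E2 → ℝ) (ζ : E2 → E2 → E2), IsPhase K Φ ζ → ∀ (lam ρ c : ℝ) (XJ X : E2) (j n : ℤ × ℤ), 0 < lam → 0 < ρ → ρ ≤ 1 →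
      0 ≤ c → c ≤ cmax → lam * ρ ^ 2 * ‖X - XJ‖ ≤ C₀ → lam * ρ * ‖X - pkPos lam ζ c ρ XJ j n‖ ≤ C₁ →
      ∀ M : ℕ, PkAmp M 2 b' (pkEta lam Φ c ρ XJ X j n) := by
  obtain ⟨Λ, hΛ⟩ := pk_win_cb
  obtain ⟨Λ', hΛ'0, hΛ'⟩ := pk_lin_cb K cmax (2 + 1) C₀ (K.A 0 * C₁)
  have hΛ0 : ∀ i, 0 ≤ Λ i := fun i => (norm_nonneg _).trans (hΛ.bd i 0 (mem_univ _))
  refine ⟨fun k => ‖(1 / 2 : ℂ)‖ * pkLeib Λ Λ' k, fun k =>
    mul_nonneg (norm_nonneg _) (pk_amp_leib_nonneg (fun i _ => hΛ0 i) (fun i _ => hΛ'0 i)),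
    fun Φ ζ h lam ρ c XJ X j n hl hρ hρ1 hc hcm hC₀ hC₁ M => ?_⟩
  have hA : 0 ≤ K.A 0 := (norm_nonneg _).trans (pk_dpZ_norm_le h (0, 0))
  have hlr : 0 < lam * ρ := mul_pos hl hρ
  have hc0 : lam * ρ ^ 2 * (‖X - XJ - (c - c) • pkVc ρ j‖ + |c - c|) ≤ C₀ := by
    simpa using hC₀
  have hc1 : ‖(lam * ρ) • pkD ζ (pkVc ρ j) ρ c c X XJ 0 + Real.pi • pkLat n‖ ≤ K.A 0 * C₁ := by
    have e : (lam * ρ) • pkD ζ (pkVc ρ j) ρ c c X XJ 0 + Real.pi • pkLat n =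
        (lam * ρ) • (ζ (pkVc ρ j) (X - c • pkVc ρ j) - ζ (pkVc ρ j) (pkPos lam ζ c ρ XJ j n - c • pkVc ρ j)) := by
      rw [pk_pos_spec h h0]
      unfold pkD
      rw [smul_zero, add_zero, smul_sub, smul_sub, smul_sub, smul_smul, mul_div_cancel₀ _ hlr.ne']
      abel
    rw [e, norm_smul, Real.norm_eq_abs, abs_of_pos hlr]
    have h1 := pk_zeta_lip h (pkVc ρ j) (X - c • pkVc ρ j) (pkPos lam ζ c ρ XJ j n - c • pkVc ρ j)
    rw [sub_sub_sub_cancel_right] at h1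
    calc lam * ρ * ‖ζ (pkVc ρ j) (X - c • pkVc ρ j) - ζ (pkVc ρ j) (pkPos lam ζ c ρ XJ j n - c • pkVc ρ j)‖
        ≤ lam * ρ * (K.A 0 * ‖X - pkPos lam ζ c ρ XJ j n‖) := mul_le_mul_of_nonneg_left h1 hlr.le
      _ = K.A 0 * (lam * ρ * ‖X - pkPos lam ζ c ρ XJ j n‖) := by ring
      _ ≤ K.A 0 * C₁ := mul_le_mul_of_nonneg_left hC₁ hA
  obtain ⟨hg, hgb⟩ := hΛ' Φ ζ h lam ρ c c (pkVc ρ j) X XJ (Real.pi • pkLat n) hl hρ hρ1 hc hcm hc hcm hc0 hc1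
  have a1 : PkAmp M 2 Λ (fun z => ((pkWin z : ℝ) : ℂ)) :=
    pk_amp_of_cb pk_win_smooth hΛ (fun z hz => (pk_win_supp z hz).2.2.le) M
  have a2 := pk_amp_smul (pk_amp_mul_cb (by norm_num) a1 hg hgb) (1 / 2 : ℂ)
  have e : pkEta lam Φ c ρ XJ X j n = fun z => (1 / 2 : ℂ) * (((pkWin z : ℝ) : ℂ) *
      Complex.exp (Complex.I * ((pkPh lam Φ (pkVc ρ j) ρ c c X XJ z + ⟪Real.pi • pkLat n, z⟫_ℝ : ℝ) : ℂ))) := by
    funext z
    unfold pkEta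
    rw [mul_assoc]
  rw [e]
  exact a2

end Claimed.Agent.R255
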