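import Claimed.Agent.R255.Pk.Cb

/-!
# R255 / Pk / CbInt : TOOL T3 = DERIVATIVE BOUNDS FOR `x ↦ ∫₀¹ F(s,x) ds`      (architect helper91)

PLAN.  (1) `G x = ∫₀¹ F s x ds` is differentiable on `Ω` with `fderiv G x = ∫₀¹ fderiv (F s) x ds`
 (`intervalIntegral.hasFDerivAt_integral_of_dominated_of_fderiv_le`, on a small closed ball in `Ω`; bound `‖fderiv (F s) y‖ ≤ Λ 1`; measurability in `s` from the joint continuity).
 (2) `(s,x) ↦ fderiv (F s) x = (fderiv (uncurry F) (s,x)).comp (inr)` is again jointly smooth on `univ ×ˢ Ω`, and `Cb (Λ (·+1)) Ω (fderiv (F s))` (`Cb.fd`).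
 (3) prove `∀ j, ∀ Y F Λ, … → (ContDiffOn ℝ j G Ω ∧ ∀ x ∈ Ω, ‖iteratedFDeriv ℝ j G x‖ ≤ Λ j)` by induction on `j` (generalise the target space `Y ↦ X →L[ℝ] Y`), with `norm_iteratedFDeriv_fderiv`,
 `contDiffOn_succ_iff_fderiv_of_isOpen`; `j = 0`: `intervalIntegral.norm_integral_le_of_norm_le_const`.
-/

set_option autoImplicit false

namespace Claimed.Agent.R255

open MeasureTheory Metric Set
open scoped ContDiff

variable {X Y : Type} [NormedAddCommGroup X] [NormedSpace ℝ X] [NormedAddCommGroup Y] [NormedSpace ℝ Y] [CompleteSpace Y]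

omit [CompleteSpace Y] in
/-- the partial derivative in terms of the full derivative. -/
theorem pk_cbint_partial {Ω : Set X} (hΩ : IsOpen Ω) {F : ℝ → X → Y}
    (hF : ContDiffOn ℝ ∞ (fun q : ℝ × X => F q.1 q.2) (univ ×ˢ Ω)) {s : ℝ} {x : X} (hx : x ∈ Ω) :
    HasFDerivAt (F s) ((fderiv ℝ (fun q : ℝ × X => F q.1 q.2) (s, x)).comp (ContinuousLinearMap.inr ℝ ℝ X)) x := by
  have hU : IsOpen ((univ : Set ℝ) ×ˢ Ω) := isOpen_univ.prod hΩ
  have h1 : HasFDerivAt (fun q : ℝ × X => F q.1 q.2) (fderiv ℝ (fun q : ℝ × X => F q.1 q.2) (s, x)) (s, x) :=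
    ((hF.contDiffAt (hU.mem_nhds ⟨mem_univ _, hx⟩)).differentiableAt (by simp)).hasFDerivAt
  exact h1.comp x (hasFDerivAt_prodMk_right s x)

omit [CompleteSpace Y] in
theorem pk_cbint_smooth {Ω : Set X} (hΩ : IsOpen Ω) {F : ℝ → X → Y}
    (hF : ContDiffOn ℝ ∞ (fun q : ℝ × X => F q.1 q.2) (univ ×ˢ Ω)) :
    ContDiffOn ℝ ∞ (fun q : ℝ × X => fderiv ℝ (F q.1) q.2) (univ ×ˢ Ω) := by
  have hU : IsOpen ((univ : Set ℝ) ×ˢ Ω) := isOpen_univ.prod hΩ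
  have h1 : ContDiffOn ℝ ∞ (fun q : ℝ × X => (fderiv ℝ (fun q : ℝ × X => F q.1 q.2) q).comp
      (ContinuousLinearMap.inr ℝ ℝ X)) (univ ×ˢ Ω) :=
    (hF.fderiv_of_isOpen hU (m := ∞) (by simp)).clm_comp contDiffOn_const
  refine h1.congr fun q hq => ?_
  exact (pk_cbint_partial hΩ hF (s := q.1) hq.2).fderiv

omit [CompleteSpace Y] in
theorem pk_cbint_cont {Ω : Set X} {F : ℝ → X → Y}
    (hF : ContDiffOn ℝ ∞ (fun q : ℝ × X => F q.1 q.2) (univ ×ˢ Ω)) {x : X} (hx : x ∈ Ω) :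
    Continuous fun s => F s x := by
  have h1 : ContinuousOn (fun q : ℝ × X => F q.1 q.2) (univ ×ˢ Ω) := hF.continuousOn
  have h2 := h1.comp_continuous (f := fun s : ℝ => (s, x)) (by fun_prop) (fun s => ⟨mem_univ _, hx⟩)
  exact h2

omit [CompleteSpace Y] in
/-- differentiation under the integral sign. -/
theorem pk_cbint_hasFDerivAt {Ω : Set X} (hΩ : IsOpen Ω) {F : ℝ → X → Y} {K : ℝ}
    (hF : ContDiffOn ℝ ∞ (fun q : ℝ × X => F q.1 q.2) (univ ×ˢ Ω))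
    (hK : ∀ s ∈ Icc (0 : ℝ) 1, ∀ x ∈ Ω, ‖fderiv ℝ (F s) x‖ ≤ K) {x : X} (hx : x ∈ Ω) :
    HasFDerivAt (fun x => ∫ s in (0 : ℝ)..1, F s x) (∫ s in (0 : ℝ)..1, fderiv ℝ (F s) x) x := by
  have hI : Set.uIoc (0 : ℝ) 1 ⊆ Icc 0 1 := by
    rw [uIoc_of_le zero_le_one]
    exact Ioc_subset_Icc_self
  refine intervalIntegral.hasFDerivAt_integral_of_dominated_of_fderiv_le (𝕜 := ℝ) (μ := volume) (s := Ω)
    (F := fun x s => F s x) (F' := fun x s => fderiv ℝ (F s) x) (bound := fun _ => K) (hΩ.mem_nhds hx) ?_ ?_ ?_ ?_ ?_ ?_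
  · filter_upwards [hΩ.mem_nhds hx] with y hy
    exact (pk_cbint_cont hF hy).aestronglyMeasurable
  · exact (pk_cbint_cont hF hx).intervalIntegrable _ _
  · have : SecondCountableTopologyEither ℝ (X →L[ℝ] Y) := secondCountableTopologyEither_of_left ℝ _
    exact (pk_cbint_cont (pk_cbint_smooth hΩ hF) hx).aestronglyMeasurable
  · exact Filter.Eventually.of_forall fun t ht y hy => hK t (hI ht) y hy
  · exact intervalIntegrable_const
  · exact Filter.Eventually.of_forall fun t _ y hy => (pk_cbint_partial hΩ hF hy).differentiableAt.hasFDerivAt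

theorem pk_cbint_aux {Ω : Set X} (hΩ : IsOpen Ω) (j : ℕ) : ∀ {Y : Type} [NormedAddCommGroup Y] [NormedSpace ℝ Y]
    [CompleteSpace Y] {Λ : ℕ → ℝ} {F : ℝ → X → Y}, ContDiffOn ℝ ∞ (fun q : ℝ × X => F q.1 q.2) (univ ×ˢ Ω) →
    (∀ s ∈ Icc (0 : ℝ) 1, Cb Λ Ω (F s)) →
    ContDiffOn ℝ j (fun x => ∫ s in (0 : ℝ)..1, F s x) Ω ∧
      ∀ x ∈ Ω, ‖iteratedFDeriv ℝ j (fun x => ∫ s in (0 : ℝ)..1, F s x) x‖ ≤ Λ j := by
  induction j with
  | zero =>
    intro Y _ _ _ Λ F hF hb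
    have hK : ∀ s ∈ Icc (0 : ℝ) 1, ∀ x ∈ Ω, ‖fderiv ℝ (F s) x‖ ≤ Λ 1 := fun s hs x hx => by
      have := (hb s hs).bd 1 x hx
      rwa [← zero_add 1, ← norm_iteratedFDeriv_fderiv, norm_iteratedFDeriv_zero] at this
    refine ⟨?_, fun x hx => ?_⟩
    · rw [Nat.cast_zero, contDiffOn_zero]
      exact fun x hx => (pk_cbint_hasFDerivAt hΩ hF hK hx).continuousAt.continuousWithinAt
    · rw [norm_iteratedFDeriv_zero]
      have h1 := intervalIntegral.norm_integral_le_of_norm_le_const (a := (0 : ℝ)) (b := 1) (f := fun s => F s x)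
        (C := Λ 0) (fun s hs => by
          rw [uIoc_of_le zero_le_one] at hs
          have := (hb s (Ioc_subset_Icc_self hs)).bd 0 x hx
          rwa [norm_iteratedFDeriv_zero] at this)
      simpa using h1
  | succ j ih =>
    intro Y _ _ _ Λ F hF hb
    have hK : ∀ s ∈ Icc (0 : ℝ) 1, ∀ x ∈ Ω, ‖fderiv ℝ (F s) x‖ ≤ Λ 1 := fun s hs x hx => by
      have := (hb s hs).bd 1 x hx
      rwa [← zero_add 1, ← norm_iteratedFDeriv_fderiv, norm_iteratedFDeriv_zero] at this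
    obtain ⟨h1, h2⟩ := ih (Y := X →L[ℝ] Y) (Λ := fun j => Λ (j + 1)) (F := fun s x => fderiv ℝ (F s) x)
      (pk_cbint_smooth hΩ hF) (fun s hs => (hb s hs).fd hΩ)
    have hd : ∀ x ∈ Ω, fderiv ℝ (fun x => ∫ s in (0 : ℝ)..1, F s x) x = ∫ s in (0 : ℝ)..1, fderiv ℝ (F s) x :=
      fun x hx => (pk_cbint_hasFDerivAt hΩ hF hK hx).fderiv
    refine ⟨?_, fun x hx => ?_⟩
    · rw [Nat.cast_succ, contDiffOn_succ_iff_fderiv_of_isOpen hΩ]
      refine ⟨fun x hx => (pk_cbint_hasFDerivAt hΩ hF hK hx).differentiableAt.differentiableWithinAt, ?_, h1.congr hd⟩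
      intro h
      exact absurd h (by simp)
    · rw [← norm_iteratedFDeriv_fderiv]
      have h3 : fderiv ℝ (fun x => ∫ s in (0 : ℝ)..1, F s x) =ᶠ[nhds x] fun x => ∫ s in (0 : ℝ)..1, fderiv ℝ (F s) x := by
        filter_upwards [hΩ.mem_nhds hx] with y hy using hd y hy
      rw [(h3.iteratedFDeriv (𝕜 := ℝ) j).self_of_nhds]
      exact h2 x hx

/-- **T3**. -/
theorem pk_cb_integral {Λ : ℕ → ℝ} {Ω : Set X} (hΩ : IsOpen Ω) {F : ℝ → X → Y}
    (hF : ContDiffOn ℝ ∞ (fun q : ℝ × X => F q.1 q.2) (univ ×ˢ Ω)) (hb : ∀ s ∈ Icc (0 : ℝ) 1, Cb Λ Ω (F s)) :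
    Cb Λ Ω (fun x => ∫ s in (0 : ℝ)..1, F s x) := by
  refine ⟨contDiffOn_infty.2 fun j => (pk_cbint_aux hΩ j hF hb).1, fun j x hx => (pk_cbint_aux hΩ j hF hb).2 x hx⟩

end Claimed.Agent.R255
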