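import Claimed.Agent.R255.Osc.Contract

/-!
# R255 / Pk / Count : TOOL COUNT = SUMS OF `(1 + |x_i - y|/σ)^{-M}` OVER FAMILIES OF BOUNDED MULTIPLICITY      (architect helper91)

A finite family `x_i ∈ E2` (`i ∈ s`) has multiplicity `≤ m` at scale `σ` if every closed ball of radius `σ` contains at most `m` of the points.
`pk_count`: `∑_{i : |x_i - y| ≥ R σ} (1 + |x_i - y|/σ)^{-M} ≤ C_M m (1+R)^{-(M-3)}`  for `M ≥ 3`, `R ≥ 0`   (one power is given away: `M` is arbitrary in all uses).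
PLAN (integral comparison; scale to `σ = 1`, translate to `y = 0`).  `w(x) = (1+|x|)^{-M}`.  For `|x' - x| ≤ 1`: `1 + |x'| ≤ 2 + |x| ≤ 2 (1+|x|)`, so `w(x) ≤ 2^M w(x')`.
 `w(x_i) = |B₁|⁻¹ ∫ 1_{|x' - x_i| ≤ 1} w(x_i) dx' ≤ 2^M |B₁|⁻¹ ∫ 1_{|x'-x_i| ≤ 1} w(x') dx'`;  sum over `i`: `∑_i 1_{|x' - x_i| ≤ 1} ≤ m`;  and `|x_i| ≥ R` forces `|x'| ≥ R - 1`, `1 + |x'| ≥ (1+R)/2`… :
 `w(x') ≤ (2/(1+R))^{M-3} (1+|x'|)^{-3}` there;  `∫ (1+|x'|)^{-3} dx' < ∞` (`integrable_one_add_norm`, `finrank = 2 < 3`).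
 ALTERNATIVE: unit cells of `ℤ²` and `EisensteinSeries.summable_one_div_norm_rpow`-type sums.
-/

set_option autoImplicit false

namespace Claimed.Agent.R255

open Metric Set Osc

/-- multiplicity `≤ m` at scale `σ` -/
def PkMult {ι : Type} (s : Finset ι) (x : ι → E2) (σ : ℝ) (m : ℕ) : Prop :=
  ∀ (y : E2) (t : Finset ι), t ⊆ s → (∀ i ∈ t, ‖x i - y‖ ≤ σ) → t.card ≤ m

theorem pk_cnt_norm_sq (z : E2) : ‖z‖ ^ 2 = z 0 ^ 2 + z 1 ^ 2 := by
  rw [EuclideanSpace.norm_sq_eq, Fin.sum_univ_two, Real.norm_eq_abs, Real.norm_eq_abs, sq_abs, sq_abs]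

theorem pk_cnt_abs_le (z : E2) (i : Fin 2) : |z i| ≤ ‖z‖ := by
  have h := EuclideanSpace.norm_sq_eq z
  have h1 : ‖z i‖ ^ 2 ≤ ∑ j, ‖z j‖ ^ 2 :=
    Finset.single_le_sum (f := fun j => ‖z j‖ ^ 2) (fun j _ => by positivity) (Finset.mem_univ i)
  rw [← h, Real.norm_eq_abs] at h1
  exact (pow_le_pow_iff_left₀ (abs_nonneg _) (norm_nonneg _) (by norm_num)).1 h1

/-- the lattice index of `z` (lattice `y + σ ℤ²`) -/
noncomputable def pkIdx (σ : ℝ) (y z : E2) : Fin 2 → ℤ := fun k => round ((z - y) k / σ)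

theorem pk_idx_near {σ : ℝ} (hσ : 0 < σ) (y z : E2) :
    ‖z - (y + σ • (WithLp.toLp 2 (fun k => ((pkIdx σ y z k : ℤ) : ℝ)) : E2))‖ ≤ σ := by
  have hk : ∀ k : Fin 2, |(z - (y + σ • (WithLp.toLp 2 (fun k => ((pkIdx σ y z k : ℤ) : ℝ)) : E2))) k| ≤ σ / 2 := by
    intro k
    have e : (z - (y + σ • (WithLp.toLp 2 (fun k => ((pkIdx σ y z k : ℤ) : ℝ)) : E2))) k
        = σ * ((z - y) k / σ - (round ((z - y) k / σ) : ℝ)) := by
      unfold pkIdx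
      simp only [PiLp.sub_apply, PiLp.add_apply, PiLp.smul_apply, smul_eq_mul]
      field_simp
      ring
    rw [e, abs_mul, abs_of_pos hσ]
    have := abs_sub_round ((z - y) k / σ)
    nlinarith
  have h0 := hk 0
  have h1 := hk 1
  have hsq := pk_cnt_norm_sq (z - (y + σ • (WithLp.toLp 2 (fun k => ((pkIdx σ y z k : ℤ) : ℝ)) : E2)))
  have a0 := sq_le_sq' (by linarith [(abs_le.1 h0).1]) (abs_le.1 h0).2
  have a1 := sq_le_sq' (by linarith [(abs_le.1 h1).1]) (abs_le.1 h1).2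
  have h2 : ‖z - (y + σ • (WithLp.toLp 2 (fun k => ((pkIdx σ y z k : ℤ) : ℝ)) : E2))‖ ^ 2 ≤ σ ^ 2 := by
    rw [hsq]
    nlinarith
  exact (pow_le_pow_iff_left₀ (norm_nonneg _) hσ.le (by norm_num)).1 h2

theorem pk_idx_abs_le {σ : ℝ} (hσ : 0 < σ) (y z : E2) (k : Fin 2) :
    |((pkIdx σ y z k : ℤ) : ℝ)| ≤ 1 / 2 + ‖z - y‖ / σ := by
  unfold pkIdx
  have h1 := abs_sub_round ((z - y) k / σ)
  have h2 : |(z - y) k / σ| ≤ ‖z - y‖ / σ := by
    rw [abs_div, abs_of_pos hσ]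
    exact div_le_div_of_nonneg_right (pk_cnt_abs_le _ k) hσ.le
  have h3 : |(round ((z - y) k / σ) : ℝ)| ≤ |(z - y) k / σ| + |(z - y) k / σ - (round ((z - y) k / σ) : ℝ)| := by
    have := abs_sub_abs_le_abs_sub ((round ((z - y) k / σ) : ℝ)) ((z - y) k / σ)
    rw [abs_sub_comm] at this
    linarith
  linarith

theorem pk_idx_norm_le {σ : ℝ} (hσ : 0 < σ) (y z : E2) : ‖pkIdx σ y z‖ ≤ 1 + ‖z - y‖ / σ := by
  have h0 : 0 ≤ ‖z - y‖ / σ := by positivity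
  rw [pi_norm_le_iff_of_nonneg (by linarith)]
  intro k
  rw [Int.norm_eq_abs]
  have := pk_idx_abs_le hσ y z k
  linarith

theorem pk_idx_fib {ι : Type} [DecidableEq ι] {s : Finset ι} {x : ι → E2} {σ : ℝ} {m : ℕ} (hσ : 0 < σ) (h : PkMult s x σ m)
    (y : E2) (j : Fin 2 → ℤ) : (s.filter fun i => pkIdx σ y (x i) = j).card ≤ m := by
  refine h (y + σ • (WithLp.toLp 2 (fun k => ((j k : ℤ) : ℝ)) : E2)) _ (Finset.filter_subset _ _) fun i hi => ?_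
  rw [Finset.mem_filter] at hi
  have := pk_idx_near hσ y (x i)
  rw [hi.2] at this
  exact this

/-- the summable weight on `ℤ²` -/
noncomputable def pkW (j : Fin 2 → ℤ) : ℝ := ‖j‖ ^ (-3 : ℝ) + if j = 0 then 1 else 0

theorem pk_W_nonneg (j : Fin 2 → ℤ) : 0 ≤ pkW j := by
  unfold pkW
  have : 0 ≤ ‖j‖ ^ (-3 : ℝ) := Real.rpow_nonneg (norm_nonneg _) _
  split_ifs <;> linarith

theorem pk_W_summable : Summable pkW := by
  unfold pkW
  refine (EisensteinSeries.summable_one_div_norm_rpow (k := 3) (by norm_num)).add ?_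
  refine summable_of_ne_finset_zero (s := {0}) fun j hj => ?_
  rw [Finset.mem_singleton] at hj
  rw [if_neg hj]

theorem pk_W_ge {j : Fin 2 → ℤ} {t : ℝ} (ht : 1 ≤ t) (hj : ‖j‖ ≤ t) : (t ^ 3)⁻¹ ≤ pkW j := by
  unfold pkW
  by_cases h0 : j = 0
  · rw [if_pos h0]
    have h1 : 0 ≤ ‖j‖ ^ (-3 : ℝ) := Real.rpow_nonneg (norm_nonneg _) _
    have h2 : (t ^ 3)⁻¹ ≤ 1 := inv_le_one_of_one_le₀ (one_le_pow₀ ht)
    linarith
  · rw [if_neg h0, add_zero]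
    have hpos : 0 < ‖j‖ := norm_pos_iff.2 h0
    rw [Real.rpow_neg hpos.le]
    have e : ‖j‖ ^ (3 : ℝ) = ‖j‖ ^ 3 := by
      rw [← Real.rpow_natCast]
      norm_num
    rw [e]
    exact inv_anti₀ (by positivity) (pow_le_pow_left₀ hpos.le hj 3)

/-- **COUNT**. -/
theorem pk_count (M : ℕ) (hM : 3 ≤ M) : ∃ C : ℝ, 0 ≤ C ∧ ∀ (ι : Type) (s : Finset ι) (x : ι → E2) (σ : ℝ) (m : ℕ), 0 < σ →
    PkMult s x σ m → ∀ (y : E2) (R : ℝ), 0 ≤ R → (∀ i ∈ s, R * σ ≤ ‖x i - y‖) →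
      ∑ i ∈ s, ((1 + ‖x i - y‖ / σ) ^ M)⁻¹ ≤ C * m * ((1 + R) ^ (M - 3))⁻¹ := by
  classical
  refine ⟨∑' j, pkW j, tsum_nonneg pk_W_nonneg, ?_⟩
  intro ι s x σ m hσ hmult y R hR hfar
  have hR1 : (0 : ℝ) < 1 + R := by linarith
  have hterm : ∀ i ∈ s, ((1 + ‖x i - y‖ / σ) ^ M)⁻¹ ≤ ((1 + R) ^ (M - 3))⁻¹ * pkW (pkIdx σ y (x i)) := by
    intro i hi
    have hρ : R ≤ ‖x i - y‖ / σ := by
      rw [le_div_iff₀ hσ]
      exact hfar i hi
    have h1 : (1 : ℝ) ≤ 1 + ‖x i - y‖ / σ := by linarith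
    have hW := pk_W_ge h1 (pk_idx_norm_le hσ y (x i))
    have e : (1 + ‖x i - y‖ / σ) ^ M = (1 + ‖x i - y‖ / σ) ^ (M - 3) * (1 + ‖x i - y‖ / σ) ^ 3 := by
      rw [← pow_add]
      congr 1
      omega
    rw [e, mul_inv]
    refine mul_le_mul ?_ hW (by positivity) (by positivity)
    exact inv_anti₀ (by positivity) (pow_le_pow_left₀ hR1.le (by linarith) _)
  refine (Finset.sum_le_sum hterm).trans ?_
  rw [← Finset.mul_sum]
  have hsum : ∑ i ∈ s, pkW (pkIdx σ y (x i)) ≤ m * ∑' j, pkW j := by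
    rw [← Finset.sum_fiberwise_of_maps_to (s := s) (t := s.image fun i => pkIdx σ y (x i))
      (g := fun i => pkIdx σ y (x i)) (fun i hi => Finset.mem_image_of_mem _ hi)]
    calc ∑ j ∈ s.image fun i => pkIdx σ y (x i), ∑ i ∈ s with pkIdx σ y (x i) = j, pkW (pkIdx σ y (x i))
        ≤ ∑ j ∈ s.image fun i => pkIdx σ y (x i), (m : ℝ) * pkW j := by
          refine Finset.sum_le_sum fun j _ => ?_
          have e : ∑ i ∈ s with pkIdx σ y (x i) = j, pkW (pkIdx σ y (x i))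
              = ∑ i ∈ s with pkIdx σ y (x i) = j, pkW j :=
            Finset.sum_congr rfl fun i hi => by rw [(Finset.mem_filter.1 hi).2]
          rw [e, Finset.sum_const, nsmul_eq_mul]
          exact mul_le_mul_of_nonneg_right (by exact_mod_cast pk_idx_fib hσ hmult y j) (pk_W_nonneg j)
      _ = m * ∑ j ∈ s.image fun i => pkIdx σ y (x i), pkW j := by rw [Finset.mul_sum]
      _ ≤ m * ∑' j, pkW j :=
          mul_le_mul_of_nonneg_left (pk_W_summable.sum_le_tsum _ fun j _ => pk_W_nonneg j) (Nat.cast_nonneg _)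
  calc ((1 + R) ^ (M - 3))⁻¹ * ∑ i ∈ s, pkW (pkIdx σ y (x i))
      ≤ ((1 + R) ^ (M - 3))⁻¹ * (m * ∑' j, pkW j) := mul_le_mul_of_nonneg_left hsum (by positivity)
    _ = (∑' j, pkW j) * m * ((1 + R) ^ (M - 3))⁻¹ := by ring

/-- number of points of the family in a ball of radius `R σ`. -/
theorem pk_count_ball : ∃ C : ℝ, 0 ≤ C ∧ ∀ (ι : Type) (s : Finset ι) (x : ι → E2) (σ : ℝ) (m : ℕ), 0 < σ →
    PkMult s x σ m → ∀ (y : E2) (R : ℝ), 0 ≤ R → (∀ i ∈ s, ‖x i - y‖ ≤ R * σ) → (s.card : ℝ) ≤ C * m * (1 + R) ^ 2 := by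
  classical
  refine ⟨25, by norm_num, ?_⟩
  intro ι s x σ m hσ hmult y R hR hnear
  obtain ⟨K, hK⟩ : ∃ K : ℤ, K = ⌈R⌉ + 1 := ⟨_, rfl⟩
  have hKR : R + 1 ≤ (K : ℝ) := by
    rw [hK]
    push_cast
    linarith [Int.le_ceil R]
  have hKR2 : (K : ℝ) < R + 2 := by
    rw [hK]
    push_cast
    linarith [Int.ceil_lt_add_one R]
  have hK0 : 0 ≤ K := by
    have : (0 : ℝ) ≤ K := by linarith
    exact_mod_cast this
  have h1 := Finset.card_le_mul_card_image (f := fun i => pkIdx σ y (x i)) s m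
    (fun j _ => pk_idx_fib hσ hmult y j)
  have hsub : (s.image fun i => pkIdx σ y (x i)) ⊆ Fintype.piFinset fun _ : Fin 2 => Finset.Icc (-K) K := by
    intro j hj
    obtain ⟨i, hi, rfl⟩ := Finset.mem_image.1 hj
    rw [Fintype.mem_piFinset]
    intro k
    have h2 := pk_idx_abs_le hσ y (x i) k
    have h3 : ‖x i - y‖ / σ ≤ R := by
      rw [div_le_iff₀ hσ]
      exact hnear i hi
    have h4 : |((pkIdx σ y (x i) k : ℤ) : ℝ)| ≤ K := by linarith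
    rw [abs_le] at h4
    rw [Finset.mem_Icc]
    constructor
    · have := h4.1
      exact_mod_cast this
    · have := h4.2
      exact_mod_cast this
  have h5 := Finset.card_le_card hsub
  rw [Fintype.card_piFinset_const, Int.card_Icc] at h5
  have e : ((K + 1 - -K).toNat : ℝ) = 2 * K + 1 := by
    have h6 : 0 ≤ K + 1 - -K := by omega
    have := Int.toNat_of_nonneg h6
    have h7 : (((K + 1 - -K).toNat : ℤ) : ℝ) = ((K + 1 - -K : ℤ) : ℝ) := by rw [this]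
    push_cast at h7
    rw [h7]
    ring
  have h8 : ((s.image fun i => pkIdx σ y (x i)).card : ℝ) ≤ (2 * K + 1) ^ 2 := by
    rw [← e]
    exact_mod_cast h5
  have h9 : (s.card : ℝ) ≤ m * ((s.image fun i => pkIdx σ y (x i)).card : ℝ) := by exact_mod_cast h1
  have h10 : (2 * (K : ℝ) + 1) ^ 2 ≤ 25 * (1 + R) ^ 2 := by
    have a1 : 2 * (K : ℝ) + 1 ≤ 5 * (1 + R) := by linarith
    have a2 : 0 ≤ 2 * (K : ℝ) + 1 := by linarith
    calc (2 * (K : ℝ) + 1) ^ 2 ≤ (5 * (1 + R)) ^ 2 := pow_le_pow_left₀ a2 a1 2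
      _ = 25 * (1 + R) ^ 2 := by ring
  calc (s.card : ℝ) ≤ m * ((s.image fun i => pkIdx σ y (x i)).card : ℝ) := h9
    _ ≤ m * (25 * (1 + R) ^ 2) := mul_le_mul_of_nonneg_left (h8.trans h10) (Nat.cast_nonneg _)
    _ = 25 * m * (1 + R) ^ 2 := by ring

/-- a subfamily has the same multiplicity bound. -/
theorem PkMult.mono {ι : Type} {s t : Finset ι} {x : ι → E2} {σ : ℝ} {m : ℕ} (h : PkMult s x σ m) (hts : t ⊆ s) :
    PkMult t x σ m := fun y u hu hy => h y u (hu.trans hts) hy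

end Claimed.Agent.R255
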