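import Claimed.Agent.R255.Pk.Zeta
import Claimed.Agent.R255.Pk.CbInt

/-!
# R255 / Pk / DField : PK1 = THE DIFFERENCE FIELD IN PACKET COORDINATES      (architect helper91)

`v = V + ρ z`.   `pkD ζ V ρ c c' X X' z = ζ(v, X - c v) - ζ(v, X' - c' v)`  is `(λρ)⁻¹ ∇_z` of the phase difference `λ[Φ(c,X,v) - Φ(c',X',v)]`.
With `δ(z) = (X - c v) - (X' - c' v) = w - (c - c') ρ z`, `w = X - X' - (c - c') V`:   `pkD z = ∫₀¹ N(s,z) δ(z) ds`, `N(s,z) = dpZ ζ (v, X' - c' v + s δ(z))`   (`pk_zeta_sub`).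
BOUNDS on `ball 0 R` (`0 < ρ ≤ 1`, `|c|,|c'| ≤ cmax`):   `‖pkD‖ ≤ A'₀ (|w| + |c-c'| ρ)`,   `‖D^j pkD‖ ≤ A'_j ρ (|w| + |c-c'|)` for `j ≥ 1`.
PLAN.  For fixed `s ∈ [0,1]`, `z ↦ (v, X' - c' v + s δ(z))` is affine with linear part `z ↦ (ρ z, -(c' + s (c - c')) ρ z)` of norm `≤ ρ (1 + cmax)`: `Cb.comp_clm` + `Cb.comp_add` on `pk_dpZ_cb` give
 `Cb (fun i => K.A i * (ρ (1+cmax))^i) univ (N s)`.   `δ` is affine: `‖δ‖ ≤ |w| + |c-c'| ρ R` on the ball, `‖Dδ‖ ≤ |c-c'| ρ`, `D^i δ = 0` for `i ≥ 2`.   `Cb.bilin` (evaluation `(T,x) ↦ T x`, norm `≤ 1`), then `pk_cb_integral` (joint smoothness in `(s,z)`: composition of smooth maps).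
 In the Leibniz sum for `j ≥ 1` only `i = j` (`≤ K.A j (1+cmax)^j ρ^j ‖δ‖`, `ρ^j ≤ ρ`) and `i = j-1` (`≤ j K.A (j-1) (1+cmax)^(j-1) |c-c'| ρ`) survive.
-/

set_option autoImplicit false

namespace Claimed.Agent.R255

open Metric Set Osc
open scoped ContDiff InnerProductSpace

variable {K : OscBd} {Φ : ℝ → E2 → E2 → ℝ} {ζ : E2 → E2 → E2}

/-- the difference field -/
def pkD (ζ : E2 → E2 → E2) (V : E2) (ρ c c' : ℝ) (X X' : E2) (z : E2) : E2 :=
  ζ (V + ρ • z) (X - c • (V + ρ • z)) - ζ (V + ρ • z) (X' - c' • (V + ρ • z))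

/-- the phase difference in packet coordinates -/
def pkPh (lam : ℝ) (Φ : ℝ → E2 → E2 → ℝ) (V : E2) (ρ c c' : ℝ) (X X' : E2) (z : E2) : ℝ :=
  lam * (Φ c X (V + ρ • z) - Φ c' X' (V + ρ • z))

/-- affine maps: sharp bounds (`D^j = 0` for `j ≥ 2`) -/
theorem pk_cb_affine {X Y : Type} [NormedAddCommGroup X] [NormedSpace ℝ X] [NormedAddCommGroup Y] [NormedSpace ℝ Y]
    (w : Y) (T : X →L[ℝ] Y) {Ω : Set X} {r : ℝ} (hr : ∀ x ∈ Ω, ‖w + T x‖ ≤ r) :
    Cb (fun j => if j = 0 then r else if j = 1 then ‖T‖ else 0) Ω (fun x => w + T x) := by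
  refine ⟨(contDiff_const.add T.contDiff).contDiffOn, fun j x hx => ?_⟩
  cases j with
  | zero =>
    rw [norm_iteratedFDeriv_zero]
    simpa using hr x hx
  | succ n =>
    rw [if_neg (Nat.succ_ne_zero n), ← norm_iteratedFDeriv_fderiv]
    have e : fderiv ℝ (fun x => w + T x) = fun _ => T := by
      funext y
      rw [fderiv_const_add]
      exact T.fderiv
    rw [e]
    rcases Nat.eq_zero_or_pos n with rfl | hn
    · rw [norm_iteratedFDeriv_zero]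
      simp
    · rw [iteratedFDeriv_const_of_ne hn.ne', if_neg (by omega)]
      simp

/-- **PK1a**: bounds of all derivatives of the difference field. -/
theorem pk_D_cb (K : OscBd) (cmax R : ℝ) : ∃ A' : ℕ → ℝ, (∀ j, 0 ≤ A' j) ∧ ∀ (Φ : ℝ → E2 → E2 → ℝ) (ζ : E2 → E2 → E2), IsPhase K Φ ζ →
    ∀ (V X X' : E2) (ρ c c' : ℝ), 0 < ρ → ρ ≤ 1 → |c| ≤ cmax → |c'| ≤ cmax →
      Cb (fun j => if j = 0 then A' 0 * (‖X - X' - (c - c') • V‖ + |c - c'| * ρ)
        else A' j * ρ * (‖X - X' - (c - c') • V‖ + |c - c'|)) (ball 0 R) (pkD ζ V ρ c c' X X') := by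
  refine ⟨fun n => (1 + |R|) * ∑ i ∈ Finset.range (n + 1), (n.choose i : ℝ) * (|K.A i| * (1 + |cmax|) ^ i),
    fun j => by positivity, ?_⟩
  intro Φ ζ h V X X' ρ c c' hρ hρ1 hc hc'
  obtain ⟨w, hw⟩ : ∃ w, w = X - X' - (c - c') • V := ⟨_, rfl⟩
  obtain ⟨κ, hκ⟩ : ∃ κ, κ = |c - c'| := ⟨_, rfl⟩
  rw [← hw, ← hκ]
  have hκ0 : 0 ≤ κ := hκ ▸ abs_nonneg _
  have hcm : 0 ≤ cmax := (abs_nonneg c).trans hc
  have hA0 : ∀ j, 0 ≤ K.A j := fun j => (norm_nonneg _).trans (h.bound j 0)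
  have hw0 : 0 ≤ ‖w‖ := norm_nonneg w
  have hR0 : 0 ≤ |R| := abs_nonneg R
  -- the affine factor
  obtain ⟨T, hTdef⟩ : ∃ T : E2 →L[ℝ] E2, T = (-((c - c') * ρ)) • ContinuousLinearMap.id ℝ E2 := ⟨_, rfl⟩
  have hTa : ∀ z, T z = (-((c - c') * ρ)) • z := fun z => by rw [hTdef]; rfl
  have hT : ‖T‖ ≤ κ * ρ := by
    rw [hTdef, norm_smul, Real.norm_eq_abs, abs_neg, abs_mul, abs_of_pos hρ, ← hκ]
    calc κ * ρ * ‖ContinuousLinearMap.id ℝ E2‖ ≤ κ * ρ * 1 :=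
          mul_le_mul_of_nonneg_left ContinuousLinearMap.norm_id_le (by positivity)
      _ = κ * ρ := mul_one _
  have hδ : Cb (fun j => if j = 0 then ‖w‖ + κ * ρ * |R| else if j = 1 then ‖T‖ else 0) (ball (0 : E2) R)
      (fun z => w + T z) := by
    refine pk_cb_affine w T fun z hz => ?_
    have hz' : ‖z‖ ≤ |R| := by
      have : ‖z‖ < R := by simpa using hz
      exact this.le.trans (le_abs_self R)
    calc ‖w + T z‖ ≤ ‖w‖ + ‖T z‖ := norm_add_le _ _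
      _ ≤ ‖w‖ + ‖T‖ * ‖z‖ := by gcongr; exact T.le_opNorm z
      _ ≤ ‖w‖ + κ * ρ * |R| := by gcongr
  -- the matrix factor
  have hN : ∀ s ∈ Icc (0 : ℝ) 1, Cb (fun i => K.A i * (ρ * (1 + cmax)) ^ i) (ball (0 : E2) R)
      (fun z => dpZ ζ ((V, X' - c' • V + s • w) +
        ((ρ • ContinuousLinearMap.id ℝ E2).prod ((-((c' + s * (c - c')) * ρ)) • ContinuousLinearMap.id ℝ E2)) z)) := by
    intro s hs
    have h1 : Cb K.A univ (fun x => dpZ ζ ((V, X' - c' • V + s • w) + x)) :=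
      ((pk_dpZ_cb h).comp_add (V, X' - c' • V + s • w)).mono (fun _ _ => mem_univ _) fun _ => le_rfl
    have h2 := h1.comp_clm isOpen_univ (isOpen_ball (x := (0 : E2)) (ε := R))
      ((ρ • ContinuousLinearMap.id ℝ E2).prod ((-((c' + s * (c - c')) * ρ)) • ContinuousLinearMap.id ℝ E2))
      (fun _ _ => mem_univ _)
    refine h2.mono subset_rfl fun j => ?_
    refine mul_le_mul_of_nonneg_left (pow_le_pow_left₀ (norm_nonneg _) ?_ j) (hA0 j)
    refine ContinuousLinearMap.opNorm_le_bound _ (by positivity) fun z => ?_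
    have hcs : |c' + s * (c - c')| ≤ cmax := by
      have e : c' + s * (c - c') = (1 - s) * c' + s * c := by ring
      rw [e]
      calc |(1 - s) * c' + s * c| ≤ |(1 - s) * c'| + |s * c| := abs_add_le _ _
        _ = (1 - s) * |c'| + s * |c| := by
            rw [abs_mul, abs_mul, abs_of_nonneg (sub_nonneg.2 hs.2), abs_of_nonneg hs.1]
        _ ≤ (1 - s) * cmax + s * cmax := by
            have := sub_nonneg.2 hs.2
            have := hs.1
            gcongr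
        _ = cmax := by ring
    rw [ContinuousLinearMap.prod_apply, Prod.norm_def]
    refine max_le ?_ ?_
    · show ‖ρ • z‖ ≤ _
      rw [norm_smul, Real.norm_eq_abs, abs_of_pos hρ]
      have : 0 ≤ ρ * cmax * ‖z‖ := by positivity
      nlinarith
    · show ‖(-((c' + s * (c - c')) * ρ)) • z‖ ≤ _
      rw [norm_smul, Real.norm_eq_abs, abs_neg, abs_mul, abs_of_pos hρ]
      have h3 : |c' + s * (c - c')| * ρ * ‖z‖ ≤ cmax * ρ * ‖z‖ := by gcongr
      have : 0 ≤ ρ * ‖z‖ := by positivity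
      nlinarith
  -- the integrand
  obtain ⟨F, hF⟩ : ∃ F : ℝ → E2 → E2, F = fun s z => dpZ ζ (V + ρ • z, (X' - c' • (V + ρ • z)) +
      s • ((X - c • (V + ρ • z)) - (X' - c' • (V + ρ • z)))) ((X - c • (V + ρ • z)) - (X' - c' • (V + ρ • z))) := ⟨_, rfl⟩
  have hδe : ∀ z, (X - c • (V + ρ • z)) - (X' - c' • (V + ρ • z)) = w + T z := by
    intro z
    rw [hTa, hw]
    module
  have hsm : ContDiffOn ℝ ∞ (fun q : ℝ × E2 => F q.1 q.2) (univ ×ˢ ball (0 : E2) R) := by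
    rw [hF]
    refine ContDiff.contDiffOn ?_
    refine ContDiff.clm_apply ((pk_dpZ_contDiff h).comp ?_) ?_
    · fun_prop
    · fun_prop
  obtain ⟨Λ, hΛ⟩ : ∃ Λ : ℕ → ℝ, Λ = fun j => if j = 0 then ((1 + |R|) * ∑ i ∈ Finset.range (0 + 1), ((0 : ℕ).choose i : ℝ) * (|K.A i| * (1 + |cmax|) ^ i)) * (‖w‖ + κ * ρ)
        else ((1 + |R|) * ∑ i ∈ Finset.range (j + 1), (j.choose i : ℝ) * (|K.A i| * (1 + |cmax|) ^ i)) * ρ * (‖w‖ + κ) := ⟨_, rfl⟩
  rw [← hΛ]
  have hb : ∀ s ∈ Icc (0 : ℝ) 1, Cb Λ (ball (0 : E2) R) (F s) := by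
    intro s hs
    have h1 := (hN s hs).bilin isOpen_ball hδ (ContinuousLinearMap.id ℝ (E2 →L[ℝ] E2))
    have h2 : Cb Λ (ball (0 : E2) R) (fun z => (ContinuousLinearMap.id ℝ (E2 →L[ℝ] E2))
        (dpZ ζ ((V, X' - c' • V + s • w) +
          ((ρ • ContinuousLinearMap.id ℝ E2).prod ((-((c' + s * (c - c')) * ρ)) • ContinuousLinearMap.id ℝ E2)) z))
        (w + T z)) := by
      refine h1.mono subset_rfl fun n => ?_
      rw [hΛ]
      have hid : ‖ContinuousLinearMap.id ℝ (E2 →L[ℝ] E2)‖ ≤ 1 := ContinuousLinearMap.norm_id_le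
      obtain ⟨L2, hL2⟩ : ∃ L2 : ℕ → ℝ, L2 = fun j => if j = 0 then ‖w‖ + κ * ρ * |R| else if j = 1 then ‖T‖ else 0 :=
        ⟨_, rfl⟩
      obtain ⟨a, ha⟩ : ∃ a : ℕ → ℝ, a = fun i => |K.A i| * (1 + |cmax|) ^ i := ⟨_, rfl⟩
      obtain ⟨L1, hL1⟩ : ∃ L1 : ℕ → ℝ, L1 = fun i => K.A i * (ρ * (1 + cmax)) ^ i := ⟨_, rfl⟩
      have ha0 : ∀ i, 0 ≤ a i := fun i => by rw [ha]; positivity
      have f1 : ∀ m, 0 ≤ L2 m := by
        intro m
        rw [hL2]
        show 0 ≤ if m = 0 then ‖w‖ + κ * ρ * |R| else if m = 1 then ‖T‖ else 0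
        split_ifs <;> positivity
      have f3 : ∀ m, 1 ≤ m → L2 m ≤ κ * ρ := by
        intro m hm
        rw [hL2]
        show (if m = 0 then ‖w‖ + κ * ρ * |R| else if m = 1 then ‖T‖ else 0) ≤ κ * ρ
        rw [if_neg (by omega)]
        split_ifs
        · exact hT
        · positivity
      have f4 : L2 0 ≤ (1 + |R|) * (‖w‖ + κ * ρ) := by
        rw [hL2]
        show (if (0 : ℕ) = 0 then ‖w‖ + κ * ρ * |R| else if (0 : ℕ) = 1 then ‖T‖ else 0) ≤ _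
        rw [if_pos rfl]
        have : 0 ≤ |R| * ‖w‖ := by positivity
        have : 0 ≤ κ * ρ := by positivity
        nlinarith
      have f2 : ∀ m, L2 m ≤ (1 + |R|) * (‖w‖ + κ) := by
        intro m
        have h5 : κ * ρ ≤ κ := by nlinarith
        rcases Nat.eq_zero_or_pos m with rfl | hm
        · refine f4.trans ?_
          gcongr
        · refine (f3 m hm).trans (h5.trans ?_)
          have : 0 ≤ |R| * (‖w‖ + κ) := by positivity
          nlinarith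
      have g0 : ∀ i, 0 ≤ L1 i := fun i => by
        rw [hL1]
        have := hA0 i
        positivity
      have hpow : ∀ i, (ρ * (1 + cmax)) ^ i = ρ ^ i * (1 + |cmax|) ^ i := fun i => by
        rw [abs_of_nonneg hcm, mul_pow]
      have g1 : ∀ i, L1 i ≤ a i := by
        intro i
        rw [hL1, ha]
        show K.A i * (ρ * (1 + cmax)) ^ i ≤ |K.A i| * (1 + |cmax|) ^ i
        rw [hpow, abs_of_nonneg (hA0 i)]
        have h6 : ρ ^ i ≤ 1 := pow_le_one₀ hρ.le hρ1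
        have h7 : 0 ≤ K.A i * (1 + |cmax|) ^ i := mul_nonneg (hA0 i) (by positivity)
        nlinarith
      have g2 : ∀ i, 1 ≤ i → L1 i ≤ a i * ρ := by
        intro i hi
        rw [hL1, ha]
        show K.A i * (ρ * (1 + cmax)) ^ i ≤ |K.A i| * (1 + |cmax|) ^ i * ρ
        rw [hpow, abs_of_nonneg (hA0 i)]
        have h6 : ρ ^ i ≤ ρ := by
          calc ρ ^ i ≤ ρ ^ 1 := pow_le_pow_of_le_one hρ.le hρ1 hi
            _ = ρ := pow_one ρ
        have h7 : 0 ≤ K.A i * (1 + |cmax|) ^ i := mul_nonneg (hA0 i) (by positivity)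
        nlinarith
      obtain ⟨B, hB⟩ : ∃ B : ℝ, B = if n = 0 then (1 + |R|) * (‖w‖ + κ * ρ) else (1 + |R|) * ρ * (‖w‖ + κ) := ⟨_, rfl⟩
      have key : ∀ i ∈ Finset.range (n + 1), (n.choose i : ℝ) * L1 i * L2 (n - i) ≤ (n.choose i : ℝ) * a i * B := by
        intro i hi
        have hin : i ≤ n := Nat.lt_succ_iff.1 (Finset.mem_range.1 hi)
        rw [mul_assoc, mul_assoc]
        refine mul_le_mul_of_nonneg_left ?_ (Nat.cast_nonneg _)
        rw [hB]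
        split_ifs with hn
        · subst hn
          obtain rfl : i = 0 := by omega
          exact mul_le_mul (g1 0) f4 (f1 _) (ha0 0)
        · rcases Nat.eq_zero_or_pos i with rfl | hi1
          · refine mul_le_mul (g1 0) ((f3 _ (by omega)).trans ?_) (f1 _) (ha0 0)
            have : 0 ≤ ρ * ‖w‖ := by positivity
            have : 0 ≤ |R| * ρ * (‖w‖ + κ) := by positivity
            nlinarith
          · calc L1 i * L2 (n - i) ≤ (a i * ρ) * ((1 + |R|) * (‖w‖ + κ)) :=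
                  mul_le_mul (g2 i hi1) (f2 _) (f1 _) (mul_nonneg (ha0 i) hρ.le)
              _ = a i * ((1 + |R|) * ρ * (‖w‖ + κ)) := by ring
      have hs0 : 0 ≤ ∑ i ∈ Finset.range (n + 1), (n.choose i : ℝ) * L1 i * L2 (n - i) :=
        Finset.sum_nonneg fun i _ => mul_nonneg (mul_nonneg (Nat.cast_nonneg _) (g0 i)) (f1 _)
      have hfin : ‖ContinuousLinearMap.id ℝ (E2 →L[ℝ] E2)‖ * ∑ i ∈ Finset.range (n + 1), (n.choose i : ℝ) * L1 i * L2 (n - i)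
          ≤ (∑ i ∈ Finset.range (n + 1), (n.choose i : ℝ) * a i) * B := by
        calc _ ≤ 1 * ∑ i ∈ Finset.range (n + 1), (n.choose i : ℝ) * L1 i * L2 (n - i) :=
              mul_le_mul_of_nonneg_right hid hs0
          _ = ∑ i ∈ Finset.range (n + 1), (n.choose i : ℝ) * L1 i * L2 (n - i) := one_mul _
          _ ≤ ∑ i ∈ Finset.range (n + 1), (n.choose i : ℝ) * a i * B := Finset.sum_le_sum key
          _ = _ := by rw [Finset.sum_mul]
      rw [hL1, hL2, ha, hB] at hfin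
      refine hfin.trans (le_of_eq ?_)
      show _ = if n = 0 then _ else _
      split_ifs with hn
      · subst hn
        ring
      · ring
    refine h2.congr isOpen_ball fun z _ => ?_
    rw [hF]
    simp only [hδe, ContinuousLinearMap.id_apply]
    congr 2
    rw [ContinuousLinearMap.prod_apply]
    refine Prod.ext ?_ ?_
    · simp
    · simp only [Prod.mk_add_mk, _root_.smul_apply, ContinuousLinearMap.id_apply, hTa]
      module
  have h3 := pk_cb_integral isOpen_ball hsm hb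
  refine h3.congr isOpen_ball fun z _ => ?_
  rw [pkD, pk_zeta_sub h, hF]

theorem pk_ph_aux (h : IsPhase K Φ ζ) (V X : E2) (ρ : ℝ) {c : ℝ} (hc : 0 ≤ c) (z : E2) :
    HasFDerivAt (fun z : E2 => Φ c X (V + ρ • z)) (ρ • innerSL ℝ (ζ (V + ρ • z) (X - c • (V + ρ • z)))) z := by
  have h1 : HasFDerivAt (fun v => Φ c X v) (innerSL ℝ (ζ (V + ρ • z) (X - c • (V + ρ • z)))) (V + ρ • z) :=
    (h.grad c hc X (V + ρ • z)).hasFDerivAt
  have h2 : HasFDerivAt (fun z : E2 => V + ρ • z) (ρ • ContinuousLinearMap.id ℝ E2) z :=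
    ((hasFDerivAt_id z).const_smul ρ).const_add V
  have h3 := h1.comp z h2
  have e : (innerSL ℝ (ζ (V + ρ • z) (X - c • (V + ρ • z)))).comp (ρ • ContinuousLinearMap.id ℝ E2)
      = ρ • innerSL ℝ (ζ (V + ρ • z) (X - c • (V + ρ • z))) := by
    ext a
    simp
  rw [e] at h3
  exact h3

/-- **PK1b**: the gradient of the phase difference. -/
theorem pk_ph_hasFDerivAt (h : IsPhase K Φ ζ) (lam : ℝ) (V X X' : E2) (ρ : ℝ) {c c' : ℝ} (hc : 0 ≤ c) (hc' : 0 ≤ c') (z : E2) :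
    HasFDerivAt (pkPh lam Φ V ρ c c' X X') ((lam * ρ) • innerSL ℝ (pkD ζ V ρ c c' X X' z)) z := by
  have h1 := ((pk_ph_aux h V X ρ hc z).sub (pk_ph_aux h V X' ρ hc' z)).const_mul lam
  have e : lam • (ρ • innerSL ℝ (ζ (V + ρ • z) (X - c • (V + ρ • z))) - ρ • innerSL ℝ (ζ (V + ρ • z) (X' - c' • (V + ρ • z))))
      = (lam * ρ) • innerSL ℝ (pkD ζ V ρ c c' X X' z) := by
    rw [pkD, map_sub, ← smul_sub, smul_smul]
  rw [e] at h1
  exact h1

theorem pk_ph_fderiv (h : IsPhase K Φ ζ) (lam : ℝ) (V X X' : E2) (ρ : ℝ) {c c' : ℝ} (hc : 0 ≤ c) (hc' : 0 ≤ c') (z e : E2) :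
    fderiv ℝ (pkPh lam Φ V ρ c c' X X') z e = lam * ρ * ⟪pkD ζ V ρ c c' X X' z, e⟫_ℝ := by
  rw [(pk_ph_hasFDerivAt h lam V X X' ρ hc hc' z).fderiv]
  simp

theorem pk_D_smooth (h : IsPhase K Φ ζ) (V X X' : E2) (ρ c c' : ℝ) : ContDiff ℝ ∞ (pkD ζ V ρ c c' X X') := by
  have h1 : ∀ (Y : E2) (d : ℝ), ContDiff ℝ ∞ (fun z : E2 => ζ (V + ρ • z) (Y - d • (V + ρ • z))) := by
    intro Y d
    have h2 : ContDiff ℝ ∞ (fun z : E2 => ((V + ρ • z, Y - d • (V + ρ • z)) : E2 × E2)) := by fun_prop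
    exact h.smooth.comp h2
  exact (h1 X c).sub (h1 X' c')

theorem pk_ph_smooth (h : IsPhase K Φ ζ) (lam : ℝ) (V X X' : E2) (ρ : ℝ) {c c' : ℝ} (hc : 0 ≤ c) (hc' : 0 ≤ c') :
    ContDiff ℝ ∞ (pkPh lam Φ V ρ c c' X X') := by
  rw [contDiff_infty_iff_fderiv]
  refine ⟨fun z => (pk_ph_hasFDerivAt h lam V X X' ρ hc hc' z).differentiableAt, ?_⟩
  have e : fderiv ℝ (pkPh lam Φ V ρ c c' X X') = fun z => (lam * ρ) • innerSL ℝ (pkD ζ V ρ c c' X X' z) := by
    funext z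
    exact (pk_ph_hasFDerivAt h lam V X X' ρ hc hc' z).fderiv
  rw [e]
  exact ((innerSL ℝ (E := E2)).contDiff.comp (pk_D_smooth h V X X' ρ c c')).const_smul (lam * ρ)

/-- **PK1c**: equal times: the field is monotone in the direction `X - X'`, for every `z`. -/
theorem pk_D_mono (h : IsPhase K Φ ζ) (V X X' : E2) (ρ c : ℝ) (z : E2) :
    K.a0 * ‖X - X'‖ ^ 2 ≤ pkSg h * ⟪pkD ζ V ρ c c X X' z, X - X'⟫_ℝ := by
  have h1 := pk_zeta_mono h (V + ρ • z) (X - c • (V + ρ • z)) (X' - c • (V + ρ • z))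
  rwa [sub_sub_sub_cancel_right] at h1

/-- **PK1d**: different times: monotone at the centre `z = 0` in the direction `w = X - X' - (c - c') V`. -/
theorem pk_D_mono_zero (h : IsPhase K Φ ζ) (V X X' : E2) (ρ c c' : ℝ) :
    K.a0 * ‖X - X' - (c - c') • V‖ ^ 2 ≤ pkSg h * ⟪pkD ζ V ρ c c' X X' 0, X - X' - (c - c') • V⟫_ℝ := by
  have h1 := pk_zeta_mono h V (X - c • V) (X' - c' • V)
  have e : X - c • V - (X' - c' • V) = X - X' - (c - c') • V := by
    rw [sub_smul]; abel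
  rw [e] at h1
  simpa [pkD] using h1

end Claimed.Agent.R255
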