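import Claimed.Agent.R255.Pk.DField
import Claimed.Agent.R255.Pk.Count

/-!
# R255 / Pk / Defs : PACKETS, AMPLITUDE CLASSES, SITE FAMILIES      (architect helper91)   -- KEEP

* `PkAmp M R b ψ` : `ψ : E2 → ℂ` smooth, `ψ = 0` off `closedBall 0 R`, `‖D^j ψ‖ ≤ b j` for `j ≤ M`.    (canonical class of D4: `PkAmp M R₀ (fun _ => 1)`.)
* `pkt lam Φ c ρ V X ψ v = ρ⁻¹ ψ((v - V)/ρ) e^{i lam Φ(c,X,v)}` : the normalised ANALYSIS packet (BR (9.4));  mass `pkMass = ‖∫ f · pkt‖²`;   SYNTHESIS packet with amplitude `η` = `conj (pkt … (conj η))`.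
* `PkMult2 s V X ρ σ m` : at most `m` sites of the finite family in every phase-space cell `closedBall V₀ ρ × closedBall X₀ σ`.
-/

set_option autoImplicit false

namespace Claimed.Agent.R255

open MeasureTheory Metric Set Osc
open scoped ContDiff InnerProductSpace ComplexConjugate

/-- amplitude class -/
structure PkAmp (M : ℕ) (R : ℝ) (b : ℕ → ℝ) (ψ : E2 → ℂ) : Prop where
  smooth : ContDiff ℝ ∞ ψ
  supp : ∀ z, ψ z ≠ 0 → ‖z‖ ≤ R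
  bound : ∀ j ≤ M, ∀ z, ‖iteratedFDeriv ℝ j ψ z‖ ≤ b j

/-- the normalised packet -/
noncomputable def pkt (lam : ℝ) (Φ : ℝ → E2 → E2 → ℝ) (c ρ : ℝ) (V X : E2) (ψ : E2 → ℂ) (v : E2) : ℂ :=
  ((ρ⁻¹ : ℝ) : ℂ) * ψ (ρ⁻¹ • (v - V)) * Complex.exp (Complex.I * ((lam * Φ c X v : ℝ) : ℂ))

/-- the packet mass (9.4) -/
noncomputable def pkMass (lam : ℝ) (Φ : ℝ → E2 → E2 → ℝ) (c ρ : ℝ) (V X : E2) (ψ : E2 → ℂ) (f : E2 → ℂ) : ℝ :=
  ‖∫ v, f v * pkt lam Φ c ρ V X ψ v‖ ^ 2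

/-- phase-space multiplicity -/
def PkMult2 {ι : Type} (s : Finset ι) (V X : ι → E2) (ρ σ : ℝ) (m : ℕ) : Prop :=
  ∀ (V₀ X₀ : E2) (t : Finset ι), t ⊆ s → (∀ i ∈ t, ‖V i - V₀‖ ≤ ρ ∧ ‖X i - X₀‖ ≤ σ) → t.card ≤ m

theorem PkMult2.mono {ι : Type} {s t : Finset ι} {V X : ι → E2} {ρ σ : ℝ} {m : ℕ} (h : PkMult2 s V X ρ σ m) (hts : t ⊆ s) :
    PkMult2 t V X ρ σ m := fun V₀ X₀ u hu hy => h V₀ X₀ u (hu.trans hts) hy

variable {M : ℕ} {R : ℝ} {b : ℕ → ℝ} {ψ : E2 → ℂ}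

theorem PkAmp.tsupport_subset (h : PkAmp M R b ψ) : tsupport ψ ⊆ closedBall 0 R := by
  refine closure_minimal (fun z hz => ?_) isClosed_closedBall
  simpa using h.supp z hz

theorem PkAmp.hasCompactSupport (h : PkAmp M R b ψ) : HasCompactSupport ψ :=
  (isCompact_closedBall (0 : E2) R).of_isClosed_subset (isClosed_tsupport ψ) h.tsupport_subset

theorem PkAmp.mono {M' : ℕ} {R' : ℝ} {b' : ℕ → ℝ} (h : PkAmp M R b ψ) (hM : M' ≤ M) (hR : R ≤ R') (hb : ∀ j ≤ M', b j ≤ b' j) :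
    PkAmp M' R' b' ψ :=
  ⟨h.smooth, fun z hz => (h.supp z hz).trans hR, fun j hj z => (h.bound j (hj.trans hM) z).trans (hb j hj)⟩

theorem PkAmp.norm_le (h : PkAmp M R b ψ) (z : E2) : ‖ψ z‖ ≤ b 0 := by
  simpa using h.bound 0 (Nat.zero_le M) z

theorem pk_amp_zero (M : ℕ) (R : ℝ) {b : ℕ → ℝ} (hb : ∀ j, 0 ≤ b j) : PkAmp M R b (fun _ => 0) := by
  refine ⟨contDiff_const, fun z hz => absurd rfl hz, fun j _ z => ?_⟩
  have e : iteratedFDeriv ℝ j (fun _ : E2 => (0 : ℂ)) z = 0 := by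
    rw [iteratedFDeriv_zero_fun]
    rfl
  rw [e, norm_zero]
  exact hb j

end Claimed.Agent.R255
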