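import Claimed.Agent.R255.Osc.Contract

/-!
# R255 / Pk / Fourier : TOOL T6 = FOURIER SERIES / PARSEVAL ON A SQUARE OF `E2`      (architect helper91)

Square `pkCube V l = {v : -l/2 < v_i - V_i ≤ l/2}`, orthonormal basis `pkMode V l n v = l⁻¹ exp(2π i n·(v - V)/l)`, `n ∈ ℤ × ℤ`.
MATHLIB (`Mathlib/Analysis/Fourier/AddCircleMulti.lean`): `UnitAddTorus (Fin 2)`, `mFourier`, `mFourierCoeff`, `UnitAddTorus.integral_preimage`, `mFourierCoeff_eq_integral`, `measurableEquivPiIoc`,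
 `measurePreserving_equivPiIoc`, `hasSum_prod_mFourierCoeff`, `hasSum_sq_mFourierCoeff`.
PLAN.  `pk_fourier_unit_*` (functions on `Fin 2 → ℝ`, unit cube `∀ i, x i ∈ Ioc (a i) (a i + 1)`): given `H` in `L²(cube)`, put `H' t = H ((measurableEquivPiIoc a t).1)` on the torus; `MemLp H' 2` by measure preservation;
  `H'.toLp`, `hasSum_prod_mFourierCoeff (conj H') G'`; rewrite every torus integral by `integral_preimage`; on the cube `H' (fun i => x i) = H x`;  `mFourier n (fun i => (x i : UnitAddCircle)) = exp(2π i ∑ n_i x_i)` (`mFourier`, `fourier_coe_apply`).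
  Reindex `Fin 2 → ℤ ≃ ℤ × ℤ` (`finTwoArrowEquiv`, `Equiv.hasSum_iff`).
 `pk_fourier_*` (affine change of variables `v = V + l (x - 1/2…)`, i.e. `x = (v - V)/l`, cube `a = -1/2`): `EuclideanSpace.volume_preserving_measurableEquiv` / `PiLp.volume_preserving_ofLp`, `Measure.integral_comp_smul`, `integral_add_left_eq_self`; Jacobian `l²` = the two factors `l⁻¹` of the modes.
-/

set_option autoImplicit false

namespace Claimed.Agent.R255

open MeasureTheory Set Osc
open scoped ComplexConjugate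

/-- the half open square of centre `V` and side `l` -/
def pkCube (V : E2) (l : ℝ) : Set E2 := {v | ∀ i, -(l / 2) < v i - V i ∧ v i - V i ≤ l / 2}

/-- `n · z` -/
def pkDot (n : ℤ × ℤ) (z : E2) : ℝ := n.1 * z 0 + n.2 * z 1

/-- the normalised Fourier mode of the square -/
noncomputable def pkMode (V : E2) (l : ℝ) (n : ℤ × ℤ) (v : E2) : ℂ :=
  ((l⁻¹ : ℝ) : ℂ) * Complex.exp (Complex.I * ((2 * Real.pi * pkDot n (v - V) / l : ℝ) : ℂ))

attribute [local instance] instMeasureSpaceUnitAddCircle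

/-- the unit cube with corner `a` -/
theorem pk_ucube_measurable (a : Fin 2 → ℝ) :
    MeasurableSet {x : Fin 2 → ℝ | ∀ i, x i ∈ Ioc (a i) (a i + 1)} :=
  MeasurableSet.univ_pi' fun _ => measurableSet_Ioc

theorem pk_mFourier_coe (n : Fin 2 → ℤ) (x : Fin 2 → ℝ) :
    UnitAddTorus.mFourier n (fun i => (x i : UnitAddCircle))
      = Complex.exp (Complex.I * ((2 * Real.pi * ∑ i, n i * x i : ℝ) : ℂ)) := by
  have e : UnitAddTorus.mFourier n (fun i => (x i : UnitAddCircle))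
      = ∏ i, fourier (n i) ((x i : UnitAddCircle)) := rfl
  rw [e, Fin.prod_univ_two, fourier_coe_apply, fourier_coe_apply, ← Complex.exp_add, Fin.sum_univ_two]
  congr 1
  push_cast
  ring

theorem pk_mFourier_neg_coe (n : Fin 2 → ℤ) (x : Fin 2 → ℝ) :
    UnitAddTorus.mFourier (-n) (fun i => (x i : UnitAddCircle))
      = Complex.exp (-(Complex.I * ((2 * Real.pi * ∑ i, n i * x i : ℝ) : ℂ))) := by
  rw [UnitAddTorus.mFourier_neg, pk_mFourier_coe, ← Complex.exp_conj, map_mul, Complex.conj_I,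
    Complex.conj_ofReal, neg_mul]

/-- transport of a function on the cube to the torus -/
noncomputable def pkTor (a : Fin 2 → ℝ) (H : (Fin 2 → ℝ) → ℂ) : UnitAddTorus (Fin 2) → ℂ :=
  fun t => H (UnitAddTorus.measurableEquivPiIoc a t).1

theorem pk_tor_coe (a : Fin 2 → ℝ) (H : (Fin 2 → ℝ) → ℂ) (x : Fin 2 → ℝ)
    (hx : x ∈ {x : Fin 2 → ℝ | ∀ i, x i ∈ Ioc (a i) (a i + 1)}) :
    pkTor a H (fun i => (x i : UnitAddCircle)) = H x := by
  unfold pkTor
  have e : (fun i => (x i : UnitAddCircle)) = (UnitAddTorus.measurableEquivPiIoc a).symm ⟨x, hx⟩ := rfl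
  rw [e, MeasurableEquiv.apply_symm_apply]

theorem pk_tor_memLp (a : Fin 2 → ℝ) (H : (Fin 2 → ℝ) → ℂ)
    (hH : MemLp H 2 (volume.restrict {x : Fin 2 → ℝ | ∀ i, x i ∈ Ioc (a i) (a i + 1)})) :
    MemLp (pkTor a H) 2 (volume : Measure (UnitAddTorus (Fin 2))) := by
  have hC := pk_ucube_measurable a
  rw [← map_comap_subtype_coe hC volume, (MeasurableEmbedding.subtype_coe hC).memLp_map_measure_iff] at hH
  exact hH.comp_measurePreserving (UnitAddTorus.measurePreserving_equivPiIoc a)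

theorem pk_tor_integral (a : Fin 2 → ℝ) (F : UnitAddTorus (Fin 2) → ℂ) (F' : (Fin 2 → ℝ) → ℂ)
    (h : ∀ x ∈ {x : Fin 2 → ℝ | ∀ i, x i ∈ Ioc (a i) (a i + 1)}, F (fun i => (x i : UnitAddCircle)) = F' x) :
    ∫ t, F t = ∫ x in {x : Fin 2 → ℝ | ∀ i, x i ∈ Ioc (a i) (a i + 1)}, F' x := by
  rw [UnitAddTorus.integral_preimage F a]
  exact setIntegral_congr_fun (pk_ucube_measurable a) h

/-- unit cube, functions on `Fin 2 → ℝ`: bilinear Parseval -/
theorem pk_fourier_unit_pair (a : Fin 2 → ℝ) (H G : (Fin 2 → ℝ) → ℂ)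
    (hH : MemLp H 2 (volume.restrict {x : Fin 2 → ℝ | ∀ i, x i ∈ Ioc (a i) (a i + 1)}))
    (hG : MemLp G 2 (volume.restrict {x : Fin 2 → ℝ | ∀ i, x i ∈ Ioc (a i) (a i + 1)})) :
    HasSum (fun n : Fin 2 → ℤ =>
      (∫ x in {x : Fin 2 → ℝ | ∀ i, x i ∈ Ioc (a i) (a i + 1)}, H x * Complex.exp (-(Complex.I * ((2 * Real.pi * ∑ i, n i * x i : ℝ) : ℂ)))) *
      (∫ x in {x : Fin 2 → ℝ | ∀ i, x i ∈ Ioc (a i) (a i + 1)}, Complex.exp (Complex.I * ((2 * Real.pi * ∑ i, n i * x i : ℝ) : ℂ)) * G x))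
      (∫ x in {x : Fin 2 → ℝ | ∀ i, x i ∈ Ioc (a i) (a i + 1)}, H x * G x) := by
  have hH' := pk_tor_memLp a H hH
  have hG' := pk_tor_memLp a G hG
  have hGc : MemLp (fun t => conj (pkTor a G t)) 2 (volume : Measure (UnitAddTorus (Fin 2))) := hG'.star
  have key := UnitAddTorus.hasSum_prod_mFourierCoeff (hGc.toLp _) (hH'.toLp _)
  have aeG := hGc.coeFn_toLp
  have aeH := hH'.coeFn_toLp
  have e_tot : ∫ t, conj ((hGc.toLp _) t) * (hH'.toLp _) t
      = ∫ x in {x : Fin 2 → ℝ | ∀ i, x i ∈ Ioc (a i) (a i + 1)}, H x * G x := by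
    have h1 : ∫ t, conj ((hGc.toLp _) t) * (hH'.toLp _) t = ∫ t, pkTor a H t * pkTor a G t := by
      refine integral_congr_ae ?_
      filter_upwards [aeG, aeH] with t h1 h2
      rw [h1, h2, Complex.conj_conj, mul_comm]
    rw [h1]
    refine pk_tor_integral a _ _ fun x hx => ?_
    rw [pk_tor_coe a H x hx, pk_tor_coe a G x hx]
  have e_H : ∀ n, UnitAddTorus.mFourierCoeff (hH'.toLp _) n
      = ∫ x in {x : Fin 2 → ℝ | ∀ i, x i ∈ Ioc (a i) (a i + 1)},
        H x * Complex.exp (-(Complex.I * ((2 * Real.pi * ∑ i, n i * x i : ℝ) : ℂ))) := by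
    intro n
    unfold UnitAddTorus.mFourierCoeff
    have h1 : ∫ t, UnitAddTorus.mFourier (-n) t • (hH'.toLp _) t
        = ∫ t, UnitAddTorus.mFourier (-n) t * pkTor a H t := by
      refine integral_congr_ae ?_
      filter_upwards [aeH] with t h2
      rw [h2, smul_eq_mul]
    rw [h1]
    refine pk_tor_integral a _ _ fun x hx => ?_
    rw [pk_tor_coe a H x hx, pk_mFourier_neg_coe, mul_comm]
  have e_G : ∀ n, conj (UnitAddTorus.mFourierCoeff (hGc.toLp _) n)
      = ∫ x in {x : Fin 2 → ℝ | ∀ i, x i ∈ Ioc (a i) (a i + 1)},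
        Complex.exp (Complex.I * ((2 * Real.pi * ∑ i, n i * x i : ℝ) : ℂ)) * G x := by
    intro n
    unfold UnitAddTorus.mFourierCoeff
    rw [← integral_conj]
    have h1 : ∫ t, conj (UnitAddTorus.mFourier (-n) t • (hGc.toLp _) t)
        = ∫ t, UnitAddTorus.mFourier n t * pkTor a G t := by
      refine integral_congr_ae ?_
      filter_upwards [aeG] with t h2
      rw [h2, smul_eq_mul, map_mul, Complex.conj_conj, UnitAddTorus.mFourier_neg, Complex.conj_conj]
    rw [h1]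
    refine pk_tor_integral a _ _ fun x hx => ?_
    rw [pk_tor_coe a G x hx, pk_mFourier_coe]
  rw [e_tot] at key
  refine key.congr_fun fun n => ?_
  rw [e_G, e_H, mul_comm]

end Claimed.Agent.R255
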