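import Claimed.Agent.R255.Pk.Cb

/-!
# R255 / Pk / Nsp : TOOL T1 = NON-STATIONARY PHASE ALONG A FIXED DIRECTION (local form)      (architect helper91)

`∫ a e^{iφ}`, `a` smooth with support in the compact set `S ⊆ Ω` (`Ω` open), `∂_e φ ≥ m > 0` on `Ω`, all derivatives of `∂_e φ` are `≤ Λ_j m` on `Ω`.  Then `|∫ a e^{iφ}| ≤ C m^{-M} |S|`,
`C` depends only on `M`, on the bounds `b_j` (`j ≤ M`) of the derivatives of `a`, and on `Λ`.
PLAN.  `g = ∂_e φ / m ∈ [1, Λ 0]`, `h = 1/g` is `Cb Λh Ω` (`Cb.comp` with `pk_cb_rpow` (`r = -1`, half line `Ioi (1/2)`) or `pk_cb_inv`).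
 STEP (`pk_nsp_step`): `a₁ := ∂_e (a / ∂_e φ)` is smooth (it vanishes off `tsupport a`; on `Ω` it is a quotient of smooth maps), `tsupport a₁ ⊆ S`, and `∫ a e^{iφ} = i ∫ a₁ e^{iφ}`:
   `F = (a / ∂_e φ) e^{iφ}` is `C¹` with compact support, `∂_e F = a₁ e^{iφ} + i a e^{iφ}`, `∫ ∂_e F = 0`
   (`integral_bilinear_hasLineDerivAt_right_eq_neg_left_of_integrable` / `integral_mul_fderiv_eq_neg_fderiv_mul_of_integrable` with the second factor `1`).
 BOUNDS: on `Ω`, `‖D^j a₁‖ ≤ ‖D^{j+1}(a h)‖ / m ≤ m⁻¹ ∑_{i ≤ j+1} C(j+1,i) b_i Λh_{j+1-i}` (`norm_iteratedFDeriv_mul_le` / `ContinuousLinearMap.norm_iteratedFDeriv_le_of_bilinear`, pointwise), off `tsupport a` it vanishes.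
 INDUCTION on `M`, generalising `a` and `b`.   `M = 0`: `‖∫ a e^{iφ}‖ ≤ b 0 |S|`.
-/

set_option autoImplicit false

namespace Claimed.Agent.R255

open MeasureTheory Metric Set
open scoped ContDiff

variable {E : Type} [NormedAddCommGroup E] [NormedSpace ℝ E] [FiniteDimensional ℝ E] [MeasurableSpace E] [BorelSpace E]
  (μ : Measure E) [μ.IsAddHaarMeasure]

omit [FiniteDimensional ℝ E] [MeasurableSpace E] [BorelSpace E] in
/-- a smooth map supported in `S ⊆ Ω` times a map which is smooth on `Ω` is smooth. -/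
theorem pk_nsp_glue {Ω S : Set E} {f g : E → ℂ} (hΩ : IsOpen Ω) (hSΩ : S ⊆ Ω) (hf : ContDiff ℝ ∞ f)
    (hsupp : tsupport f ⊆ S) (hg : ContDiffOn ℝ ∞ g Ω) : ContDiff ℝ ∞ (fun z => f z * g z) := by
  rw [contDiff_iff_contDiffAt]
  intro z
  by_cases hz : z ∈ Ω
  · exact hf.contDiffAt.mul (hg.contDiffAt (hΩ.mem_nhds hz))
  · have h1 : z ∉ tsupport f := fun h => hz (hSΩ (hsupp h))
    have h2 : f =ᶠ[nhds z] 0 := notMem_tsupport_iff_eventuallyEq.1 h1
    have h3 : (fun z => f z * g z) =ᶠ[nhds z] fun _ => 0 := by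
      filter_upwards [h2] with y hy
      rw [hy]
      simp
    exact contDiffAt_const.congr_of_eventuallyEq h3

omit [FiniteDimensional ℝ E] [MeasurableSpace E] [BorelSpace E] in
theorem pk_nsp_tsupport_mul {S : Set E} {f g : E → ℂ} (hsupp : tsupport f ⊆ S) :
    tsupport (fun z => f z * g z) ⊆ S :=
  (tsupport_mul_subset_left (f := f) (g := g)).trans hsupp

omit [FiniteDimensional ℝ E] [MeasurableSpace E] [BorelSpace E] in
/-- directional derivatives of smooth maps supported in `S`. -/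
theorem pk_nsp_dir {S : Set E} {v : E → ℂ} (e : E) (hv : ContDiff ℝ ∞ v) (hsupp : tsupport v ⊆ S) :
    ContDiff ℝ ∞ (fun z => fderiv ℝ v z e) ∧ tsupport (fun z => fderiv ℝ v z e) ⊆ S := by
  refine ⟨(hv.fderiv_right (m := ∞) (by simp)).clm_apply contDiff_const, ?_⟩
  refine (closure_mono ?_).trans ((tsupport_fderiv_subset ℝ (f := v)).trans hsupp)
  intro z hz h0
  apply hz
  show fderiv ℝ v z e = 0
  rw [h0]
  rfl

omit [FiniteDimensional ℝ E] in
theorem pk_nsp_integrable {S : Set E} {f : E → ℂ} (hS : IsCompact S) (hf : ContDiff ℝ ∞ f)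
    (hsupp : tsupport f ⊆ S) : Integrable f μ :=
  hf.continuous.integrable_of_hasCompactSupport (hS.of_isClosed_subset (isClosed_tsupport f) hsupp)

omit [FiniteDimensional ℝ E] [MeasurableSpace E] [BorelSpace E] in
theorem pk_nsp_contDiffOn_exp {Ω : Set E} {φ : E → ℝ} (hφ : ContDiffOn ℝ ∞ φ Ω) :
    ContDiffOn ℝ ∞ (fun z => Complex.exp (Complex.I * (φ z : ℂ))) Ω :=
  (contDiffOn_const.mul (Complex.ofRealCLM.contDiff.comp_contDiffOn hφ)).cexp

omit [FiniteDimensional ℝ E] [MeasurableSpace E] [BorelSpace E] in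
theorem pk_nsp_fderiv_exp {φ : E → ℝ} {z : E} (hφ : DifferentiableAt ℝ φ z) (e : E) :
    fderiv ℝ (fun z => Complex.exp (Complex.I * (φ z : ℂ))) z e
      = Complex.exp (Complex.I * (φ z : ℂ)) * (Complex.I * ((fderiv ℝ φ z e : ℝ) : ℂ)) := by
  have h1 : HasFDerivAt (fun z => ((φ z : ℝ) : ℂ)) (Complex.ofRealCLM.comp (fderiv ℝ φ z)) z :=
    Complex.ofRealCLM.hasFDerivAt.comp z hφ.hasFDerivAt
  have h2 := (h1.const_mul Complex.I).cexp
  rw [h2.fderiv]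
  simp

/-- one integration by parts along `e`. -/
theorem pk_nsp_step {Ω S : Set E} {a : E → ℂ} {φ : E → ℝ} {e : E} (hΩ : IsOpen Ω) (hS : IsCompact S) (hSΩ : S ⊆ Ω)
    (ha : ContDiff ℝ ∞ a) (hsupp : tsupport a ⊆ S) (hφ : ContDiffOn ℝ ∞ φ Ω) (hpos : ∀ z ∈ Ω, fderiv ℝ φ z e ≠ 0) :
    ContDiff ℝ ∞ (fun z => fderiv ℝ (fun y => a y * ((fderiv ℝ φ y e : ℝ) : ℂ)⁻¹) z e) ∧
    tsupport (fun z => fderiv ℝ (fun y => a y * ((fderiv ℝ φ y e : ℝ) : ℂ)⁻¹) z e) ⊆ S ∧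
    ∫ z, a z * Complex.exp (Complex.I * (φ z : ℂ)) ∂μ
      = Complex.I * ∫ z, fderiv ℝ (fun y => a y * ((fderiv ℝ φ y e : ℝ) : ℂ)⁻¹) z e * Complex.exp (Complex.I * (φ z : ℂ)) ∂μ := by
  have hψ : ContDiffOn ℝ ∞ (fun y => ((fderiv ℝ φ y e : ℝ) : ℂ)⁻¹) Ω := by
    refine ContDiffOn.inv (Complex.ofRealCLM.contDiff.comp_contDiffOn
      ((hφ.fderiv_of_isOpen hΩ (m := ∞) (by simp)).clm_apply contDiffOn_const)) fun z hz => ?_
    exact Complex.ofReal_ne_zero.2 (hpos z hz)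
  have hu : ContDiff ℝ ∞ (fun y => a y * ((fderiv ℝ φ y e : ℝ) : ℂ)⁻¹) := pk_nsp_glue hΩ hSΩ ha hsupp hψ
  have hus : tsupport (fun y => a y * ((fderiv ℝ φ y e : ℝ) : ℂ)⁻¹) ⊆ S := pk_nsp_tsupport_mul hsupp
  obtain ⟨h1, h2⟩ := pk_nsp_dir e hu hus
  refine ⟨h1, h2, ?_⟩
  have hw := pk_nsp_contDiffOn_exp hφ
  have hpt : ∀ z, a z * ((fderiv ℝ φ z e : ℝ) : ℂ)⁻¹ * fderiv ℝ (fun z => Complex.exp (Complex.I * (φ z : ℂ))) z e
      = Complex.I * (a z * Complex.exp (Complex.I * (φ z : ℂ))) := by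
    intro z
    by_cases hz : z ∈ Ω
    · rw [pk_nsp_fderiv_exp ((hφ.contDiffAt (hΩ.mem_nhds hz)).differentiableAt (by simp)) e]
      have h0 : ((fderiv ℝ φ z e : ℝ) : ℂ) ≠ 0 := Complex.ofReal_ne_zero.2 (hpos z hz)
      field_simp
    · have h0 : a z = 0 := by
        by_contra h
        exact hz (hSΩ (hsupp (subset_tsupport a h)))
      rw [h0]
      simp
  have haw : Integrable (fun z => a z * Complex.exp (Complex.I * (φ z : ℂ))) μ :=
    pk_nsp_integrable μ hS (pk_nsp_glue hΩ hSΩ ha hsupp hw) (pk_nsp_tsupport_mul hsupp)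
  have key := integral_mul_fderiv_eq_neg_fderiv_mul_of_integrable (μ := μ) (v := e)
    (f := fun y => a y * ((fderiv ℝ φ y e : ℝ) : ℂ)⁻¹) (g := fun z => Complex.exp (Complex.I * (φ z : ℂ)))
    (pk_nsp_integrable μ hS (pk_nsp_glue hΩ hSΩ h1 h2 hw) (pk_nsp_tsupport_mul h2))
    (by
      simp only [hpt]
      exact haw.const_mul _)
    (pk_nsp_integrable μ hS (pk_nsp_glue hΩ hSΩ hu hus hw) (pk_nsp_tsupport_mul hus))
    (fun z _ => hu.differentiable (by simp) z)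
    (fun z hz => (hw.contDiffAt (hΩ.mem_nhds (hSΩ (hus hz)))).differentiableAt (by simp))
  simp only [hpt] at key
  rw [integral_const_mul] at key
  have h3 : ∫ z, a z * Complex.exp (Complex.I * (φ z : ℂ)) ∂μ
      = -Complex.I * (Complex.I * ∫ z, a z * Complex.exp (Complex.I * (φ z : ℂ)) ∂μ) := by
    rw [← mul_assoc, neg_mul, Complex.I_mul_I]
    simp
  rw [h3, key]
  ring

end Claimed.Agent.R255
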