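import Claimed.Agent.R255.Pk.Cb
import Claimed.Agent.R255.Osc.Contract

/-!
# R255 / Pk / Window : TOOL T5 = THE LATTICE PARTITION `∑_j χ(z - j)² = 1`      (architect helper91)

EXPLICIT window (no square roots): `u = Real.smoothTransition` (`0` on `(-∞,0]`, `1` on `[1,∞)`),
 `pkWin1 s = sin(π/2 · u(s+1)) · cos(π/2 · u(s))`:  `= sin(π/2 u(s+1))` for `s ≤ 0`, `= cos(π/2 u(s))` for `s ≥ 0`, `= 0` for `|s| ≥ 1`;   for `σ ∈ [0,1)`: `pkWin1 σ² + pkWin1 (σ-1)² = cos² + sin² = 1`.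
 `pkWin z = pkWin1 (z 0) · pkWin1 (z 1)` on `E2`;  support in the square `|z_i| < 1`, hence in `ball 0 2`.
PLAN. 1D: for `s` real, `m = ⌊s⌋`: only `k = m` and `k = m+1` contribute (`Finset.sum_subset` to `{m, m+1}`).  2D: `S ⊇` product of the two 1D index sets; `∑_{(j,k)} = (∑_j)(∑_k)` (`Finset.sum_product`, after `Finset.sum_subset`).
 `pk_cb_of_compact`: `z ↦ ‖iteratedFDeriv ℝ j f z‖` is continuous with compact support (`HasCompactSupport.iteratedFDeriv`), hence bounded (`Continuous.bounded_above_of_compact_support`); choose the bounds.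
-/

set_option autoImplicit false

namespace Claimed.Agent.R255

open Metric Set Osc
open scoped ContDiff

/-- the 1D window -/
noncomputable def pkWin1 (s : ℝ) : ℝ :=
  Real.sin (Real.pi / 2 * Real.smoothTransition (s + 1)) * Real.cos (Real.pi / 2 * Real.smoothTransition s)

/-- the 2D window -/
noncomputable def pkWin (z : E2) : ℝ := pkWin1 (z 0) * pkWin1 (z 1)

/-- the lattice point `(j₁, j₂)` -/
noncomputable def pkLat (j : ℤ × ℤ) : E2 := !₂[(j.1 : ℝ), (j.2 : ℝ)]

theorem pk_win1_smooth : ContDiff ℝ ∞ pkWin1 := by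
  unfold pkWin1
  have hu : ContDiff ℝ ∞ Real.smoothTransition := Real.smoothTransition.contDiff
  have h1 : ContDiff ℝ ∞ fun s : ℝ => Real.pi / 2 * Real.smoothTransition (s + 1) :=
    contDiff_const.mul (hu.comp (contDiff_id.add contDiff_const))
  have h2 : ContDiff ℝ ∞ fun s : ℝ => Real.pi / 2 * Real.smoothTransition s := contDiff_const.mul hu
  exact h1.sin.mul h2.cos

theorem pk_win1_supp (s : ℝ) (h : pkWin1 s ≠ 0) : |s| < 1 := by
  by_contra hs
  rw [not_lt, le_abs] at hs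
  apply h
  unfold pkWin1
  rcases hs with hs | hs
  · rw [Real.smoothTransition.one_of_one_le hs, mul_one, Real.cos_pi_div_two, mul_zero]
  · rw [Real.smoothTransition.zero_of_nonpos (by linarith), mul_zero, Real.sin_zero, zero_mul]

theorem pk_win1_range (s : ℝ) : 0 ≤ pkWin1 s ∧ pkWin1 s ≤ 1 := by
  unfold pkWin1
  have hpi := Real.pi_pos
  have hb : ∀ t : ℝ, 0 ≤ Real.pi / 2 * Real.smoothTransition t ∧ Real.pi / 2 * Real.smoothTransition t ≤ Real.pi / 2 := by
    intro t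
    have h0 := Real.smoothTransition.nonneg t
    have h1 := Real.smoothTransition.le_one t
    constructor
    · positivity
    · nlinarith
  have hs0 : 0 ≤ Real.sin (Real.pi / 2 * Real.smoothTransition (s + 1)) :=
    Real.sin_nonneg_of_nonneg_of_le_pi (hb _).1 (by linarith [(hb (s + 1)).2])
  have hc0 : 0 ≤ Real.cos (Real.pi / 2 * Real.smoothTransition s) :=
    Real.cos_nonneg_of_neg_pi_div_two_le_of_le (by linarith [(hb s).1]) (hb s).2
  exact ⟨mul_nonneg hs0 hc0, mul_le_one₀ (Real.sin_le_one _) hc0 (Real.cos_le_one _)⟩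

theorem pk_win1_sum (s : ℝ) (S : Finset ℤ) (hS : ∀ k : ℤ, |s - k| < 1 → k ∈ S) : ∑ k ∈ S, pkWin1 (s - k) ^ 2 = 1 := by
  classical
  obtain ⟨m, hm⟩ : ∃ m : ℤ, m = ⌊s⌋ := ⟨_, rfl⟩
  have hm1 : (m : ℝ) ≤ s := by rw [hm]; exact Int.floor_le s
  have hm2 : s < m + 1 := by rw [hm]; exact Int.lt_floor_add_one s
  have hz : ∀ k : ℤ, ¬ |s - k| < 1 → pkWin1 (s - k) ^ 2 = 0 := by
    intro k hk
    have : pkWin1 (s - k) = 0 := by
      by_contra hne
      exact hk (pk_win1_supp _ hne)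
    rw [this]
    norm_num
  have e1 : ∑ k ∈ S, pkWin1 (s - k) ^ 2 = ∑ k ∈ S ∪ {m, m + 1}, pkWin1 (s - k) ^ 2 :=
    Finset.sum_subset Finset.subset_union_left fun k _ hk => hz k fun hlt => hk (hS k hlt)
  have e2 : ∑ k ∈ ({m, m + 1} : Finset ℤ), pkWin1 (s - k) ^ 2 = ∑ k ∈ S ∪ {m, m + 1}, pkWin1 (s - k) ^ 2 := by
    refine Finset.sum_subset Finset.subset_union_right fun k _ hk => hz k fun hlt => hk ?_
    rw [abs_lt] at hlt
    have h1 : (m : ℝ) - 1 < k := by linarith [hlt.2]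
    have h2 : (k : ℝ) < m + 2 := by linarith [hlt.1]
    have h1' : m - 1 < k := by exact_mod_cast h1
    have h2' : k < m + 2 := by exact_mod_cast h2
    rw [Finset.mem_insert, Finset.mem_singleton]
    omega
  rw [e1, ← e2, Finset.sum_pair (by omega)]
  obtain ⟨σ, hσ⟩ : ∃ σ : ℝ, σ = s - m := ⟨_, rfl⟩
  have hσ0 : 0 ≤ σ := by linarith
  have hσ1 : σ < 1 := by linarith
  have e3 : s - ((m + 1 : ℤ) : ℝ) = σ - 1 := by
    push_cast
    linarith
  rw [e3, ← hσ]
  unfold pkWin1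
  rw [Real.smoothTransition.one_of_one_le (by linarith : (1 : ℝ) ≤ σ + 1), mul_one, Real.sin_pi_div_two, one_mul,
    Real.smoothTransition.zero_of_nonpos (by linarith : σ - 1 ≤ 0), mul_zero, Real.cos_zero, mul_one,
    sub_add_cancel]
  exact Real.cos_sq_add_sin_sq _

end Claimed.Agent.R255
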